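import Mathlib

/-!
P158, counting layer: profile classes of a monotone family, branch vertices of consistent paths,
monotone families of class pairs, and the box comparison.
-/

open MeasureTheory
open scoped ENNReal

namespace Vale.Agent.P158

section classes

variable {W : Type*} [Preorder W] {n : ℕ}

/-- The profile of `w`: sums of its first `j` increments. -/
def profile (inc : W → Fin n → ℝ) (w : W) (j : ℕ) : ℝ :=
  ∑ i ∈ Finset.univ.filter (fun i : Fin n => (i : ℕ) < j), inc w i

/-- The potential of a monotone family of increments bounded by `t`. -/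
def potential (inc : W → Fin n → ℝ) (t : Fin n → ℝ) (w : W) : ℝ := ∑ i, (inc w i + t i)

/-- The class of `w` at radius `ε`. -/
noncomputable def cls (inc : W → Fin n → ℝ) (t : Fin n → ℝ) (ε : ℝ) (w : W) : ℕ :=
  ⌊potential inc t w / ε⌋₊

variable {inc : W → Fin n → ℝ} {t : Fin n → ℝ} {ε : ℝ}

omit [Preorder W] in
lemma potential_nonneg (hb : ∀ w i, |inc w i| ≤ t i) (w : W) : 0 ≤ potential inc t w :=
  Finset.sum_nonneg fun i _ => by linarith [neg_abs_le (inc w i), hb w i]

omit [Preorder W] in
lemma cls_le (hb : ∀ w i, |inc w i| ≤ t i) (hε : 0 < ε) (w : W) :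
    cls inc t ε w ≤ ⌊2 * (∑ i, t i) / ε⌋₊ := by
  refine Nat.floor_le_floor ((div_le_div_iff_of_pos_right hε).mpr ?_)
  rw [potential, Finset.mul_sum]
  exact Finset.sum_le_sum fun i _ => by linarith [le_abs_self (inc w i), hb w i]

lemma cls_mono (hmono : ∀ i, Monotone fun w => inc w i) (hε : 0 < ε) : Monotone (cls inc t ε) :=
  fun _ _ h => Nat.floor_le_floor ((div_le_div_iff_of_pos_right hε).mpr
    (Finset.sum_le_sum fun i _ => add_le_add (hmono i h) le_rfl))

/-- Two comparable members of one class have profiles within `ε`. -/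
lemma profile_sub_lt (hmono : ∀ i, Monotone fun w => inc w i) (hb : ∀ w i, |inc w i| ≤ t i)
    (hε : 0 < ε) {w w' : W} (hcomp : w ≤ w' ∨ w' ≤ w) (h : cls inc t ε w = cls inc t ε w') (j : ℕ) :
    |profile inc w j - profile inc w' j| < ε := by
  wlog hle : w ≤ w' generalizing w w'
  · rw [abs_sub_comm]
    exact this hcomp.symm h.symm (hcomp.resolve_left hle)
  have h1 : |profile inc w j - profile inc w' j| ≤ potential inc t w' - potential inc t w := by
    rw [abs_sub_comm, profile, profile, ← Finset.sum_sub_distrib, potential, potential,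
      ← Finset.sum_sub_distrib, abs_of_nonneg (Finset.sum_nonneg fun i _ => sub_nonneg.mpr (hmono i hle))]
    refine (Finset.sum_le_univ_sum_of_nonneg fun i => sub_nonneg.mpr (hmono i hle)).trans
      (le_of_eq (Finset.sum_congr rfl fun i _ => ?_))
    ring
  refine h1.trans_lt ?_
  have a1 := Nat.floor_le (div_nonneg (potential_nonneg hb w) hε.le)
  have a2 := Nat.lt_floor_add_one (potential inc t w' / ε)
  simp only [cls] at h
  rw [← h] at a2
  have a3 : potential inc t w' / ε - potential inc t w / ε < 1 := by linarith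
  rw [← sub_div, div_lt_one hε] at a3
  exact a3

end classes

section branch

variable {V ι : Type*} [Fintype ι] [LinearOrder ι]

/-- The vertex `u` is followed by `v` on the path `l`. -/
def Follows (l : List V) (u v : V) : Prop := ∃ p q, l = p ++ u :: v :: q

/-- Two paths which share a vertex share everything up to it. -/
def Consistent (l : ι → List V) : Prop :=
  ∀ i j p q p' q' u, l i = p ++ u :: q → l j = p' ++ u :: q' → p = p'

/-- A consistent family of `N` paths has at most `N` branch vertices. -/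
theorem card_branch_le (l : ι → List V) (hc : Consistent l) (S : Finset V)
    (hS : ∀ u ∈ S, ∃ i j v w, v ≠ w ∧ Follows (l i) u v ∧ Follows (l j) u w) :
    S.card ≤ Fintype.card ι := by
  classical
  have huniq : ∀ {i : ι} {u v w : V}, Follows (l i) u v → Follows (l i) u w → v = w := by
    rintro i u v w ⟨p, q, h⟩ ⟨p', q', h'⟩
    have := hc i i p (v :: q) p' (w :: q') u h h'
    subst this
    rw [h] at h'
    simp only [List.append_cancel_left_eq, List.cons.injEq, true_and] at h'
    exact h'.1
  set thru : V → Finset ι := fun u => Finset.univ.filter fun i => ∃ v, Follows (l i) u v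
  have hne : ∀ u ∈ S, (thru u).Nonempty := fun u hu => by
    obtain ⟨i, -, v, -, -, h, -⟩ := hS u hu
    exact ⟨i, Finset.mem_filter.mpr ⟨Finset.mem_univ i, v, h⟩⟩
  set other : V → Finset ι := fun u => (thru u).filter fun j =>
    ∀ (hu : (thru u).Nonempty) v w, Follows (l ((thru u).min' hu)) u v → Follows (l j) u w → v ≠ w
  have hother : ∀ u ∈ S, (other u).Nonempty := fun u hu => by
    obtain ⟨i, j, v, w, hvw, hi, hj⟩ := hS u hu
    obtain ⟨x, hx⟩ := (Finset.mem_filter.mp ((thru u).min'_mem (hne u hu))).2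
    by_cases hxv : x = v
    · refine ⟨j, Finset.mem_filter.mpr ⟨Finset.mem_filter.mpr ⟨Finset.mem_univ j, w, hj⟩, ?_⟩⟩
      intro hu' v' w' h1 h2
      rw [huniq h1 hx, huniq h2 hj, hxv]
      exact hvw
    · refine ⟨i, Finset.mem_filter.mpr ⟨Finset.mem_filter.mpr ⟨Finset.mem_univ i, v, hi⟩, ?_⟩⟩
      intro hu' v' w' h1 h2
      rw [huniq h1 hx, huniq h2 hi]
      exact hxv
  refine Finset.card_le_card_of_injOn (fun u => if h : u ∈ S then some ((other u).min' (hother u h))
    else none) (t := Finset.univ.image some) (fun u hu => ?_) ?_ |>.trans (Finset.card_image_le.trans le_rfl)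
  · simp only [Finset.mem_coe] at hu
    simp [hu]
  intro a ha b hb hab
  simp only [Finset.mem_coe] at ha hb
  simp only [dif_pos ha, dif_pos hb, Option.some.injEq] at hab
  by_contra hne'
  set k := (other a).min' (hother a ha) with hk
  obtain ⟨hka, hka'⟩ := Finset.mem_filter.mp ((other a).min'_mem (hother a ha))
  obtain ⟨hkb, hkb'⟩ := Finset.mem_filter.mp ((other b).min'_mem (hother b hb))
  rw [← hk] at hka hka'
  rw [← hab] at hkb hkb'
  obtain ⟨sa, pa, qa, hla⟩ := (Finset.mem_filter.mp hka).2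
  obtain ⟨sb, pb, qb, hlb⟩ := (Finset.mem_filter.mp hkb).2
  -- the index which passes the earlier vertex first also passes the later one
  have key : ∀ (u u' : V) (hu : u ∈ S) (hu' : u' ∈ S) (s s' : V) (p q p' q' r : List V),
      k ∈ other u → k ∈ other u' → (other u).min' (hother u hu) = k →
      l k = p ++ u :: s :: q → l k = p' ++ u' :: s' :: q' → p' = p ++ u :: r → False := by
    intro u u' hu hu' s s' p q p' q' r hk1 hk2 hmin h1 h2 hp
    set m := (thru u').min' (hne u' hu')
    obtain ⟨x, pm, qm, hm⟩ := (Finset.mem_filter.mp ((thru u').min'_mem (hne u' hu'))).2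
    have hpm := hc k m p' (s' :: q') pm (x :: qm) u' h2 hm
    subst hpm
    have hmu : ∃ w, w = s ∧ Follows (l m) u w := by
      refine ⟨s, rfl, ?_⟩
      rw [h1, hp, List.append_assoc, List.cons_append, List.append_cancel_left_eq,
        List.cons.injEq] at h2
      obtain ⟨-, h3⟩ := h2
      rcases r with _ | ⟨r0, r⟩
      · simp only [List.nil_append, List.cons.injEq] at h3
        refine ⟨p, x :: qm, ?_⟩
        rw [show l m = p' ++ u' :: x :: qm from hm, hp, h3.1]; simp
      · simp only [List.cons_append, List.cons.injEq] at h3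
        refine ⟨p, r ++ u' :: x :: qm, ?_⟩
        rw [show l m = p' ++ u' :: x :: qm from hm, hp, h3.1]; simp
    obtain ⟨w, rfl, hw⟩ := hmu
    have hk1' := (Finset.mem_filter.mp hk1).2
    have hmo : m ∈ other u := by
      refine Finset.mem_filter.mpr ⟨Finset.mem_filter.mpr ⟨Finset.mem_univ m, w, hw⟩, ?_⟩
      intro hn v' w' e1 e2
      rw [huniq e2 hw]
      exact hk1' hn v' w e1 ⟨p, q, h1⟩
    have le1 : k ≤ m := hmin ▸ (other u).min'_le m hmo
    have le2 : m ≤ k := (thru u').min'_le k
      (Finset.mem_filter.mpr ⟨Finset.mem_univ k, s', p', q', h2⟩)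
    have hkm : m = k := le_antisymm le2 le1
    exact (Finset.mem_filter.mp hk2).2 (hne u' hu') s' s'
      (by rw [show (thru u').min' (hne u' hu') = k from hkm]; exact ⟨p', q', h2⟩)
      ⟨p', q', h2⟩ rfl
  have hcase : (∃ r, pb = pa ++ a :: r) ∨ (∃ r, pa = pb ++ b :: r) := by
    have h := hla.symm.trans hlb
    rw [List.append_eq_append_iff] at h
    rcases h with ⟨r, hr, hr'⟩ | ⟨r, hr, hr'⟩
    · rcases r with _ | ⟨r0, r⟩
      · simp at hr'; exact absurd hr'.1 hne'
      · simp at hr'; exact Or.inl ⟨r, by rw [hr, ← hr'.1]⟩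
    · rcases r with _ | ⟨r0, r⟩
      · simp at hr'; exact absurd hr'.1.symm hne'
      · simp at hr'; exact Or.inr ⟨r, by rw [hr, ← hr'.1]⟩
  have hka0 : k ∈ other a := (other a).min'_mem _
  have hkb0 : k ∈ other b := by rw [hab]; exact (other b).min'_mem _
  rcases hcase with ⟨r, hr⟩ | ⟨r, hr⟩
  · exact key a b ha hb sa sb pa qa pb qb r hka0 hkb0 rfl hla hlb hr
  · exact key b a hb ha sb sa pb qb pa qa r hkb0 hka0 hab.symm hlb hla hr

end branch

section chains

/-- A monotone family of class pairs is short. -/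
theorem card_chain_le {N N' : ℕ} (S : Finset (ℕ × ℕ)) (hb : ∀ p ∈ S, p.1 ≤ N ∧ p.2 ≤ N')
    (hchain : ∀ p ∈ S, ∀ q ∈ S, p.1 < q.1 → p.2 ≤ q.2) : S.card ≤ N + N' + 1 := by
  refine (Finset.card_le_card_of_injOn (fun p => p.1 + p.2) (t := Finset.range (N + N' + 1))
    (fun p hp => ?_) fun p hp q hq e => ?_).trans (Finset.card_range _).le
  · have := hb p hp; simp; omega
  · simp only [Finset.mem_coe] at hp hq
    rcases lt_trichotomy p.1 q.1 with h | h | h
    · have := hchain p hp q hq h; simp at e; omega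
    · exact Prod.ext h (by simp at e; omega)
    · have := hchain q hq p hp h; simp at e; omega

/-- The point `z` of a circle of circumference `P` lies on the arc from `x` to `y`. -/
def OnArc {P : ℝ} (hP : 0 < P) (x y z : ℝ) : Prop := toIcoMod hP x z < y

/-- Interlaced chords, read in the covering, are ordered at both ends. -/
theorem interlaced_le {P x x' y y' : ℝ} (hP : 0 < P) (hxx : x < x') (hx' : x' < x + P)
    (hy : y < x + P) (hy' : x' < y') (h : OnArc hP x y x' ↔ ¬ OnArc hP x y y') : y ≤ y' := by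
  by_contra hlt
  rw [not_le] at hlt
  have e1 : toIcoMod hP x x' = x' := (toIcoMod_eq_self hP).mpr ⟨hxx.le, hx'⟩
  have e2 : toIcoMod hP x y' = y' :=
    (toIcoMod_eq_self hP).mpr ⟨by linarith, by linarith⟩
  exact (h.mp (show toIcoMod hP x x' < y by linarith)) (show toIcoMod hP x y' < y by linarith)

end chains

section box

variable {Ω : Type*} [MeasurableSpace Ω] {μ : Measure Ω} [IsProbabilityMeasure μ]

/-- A count bounded by `K` outside a small event and by `A` always has mean at most `δ A + K`. -/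
theorem lintegral_count_le {f : Ω → ℝ≥0∞} {G : Set Ω} (hG : MeasurableSet G) {A K δ : ℝ≥0∞}
    (hA : ∀ ω, f ω ≤ A) (hK : ∀ᵐ ω ∂μ, ω ∈ G → f ω ≤ K) (hδ : μ Gᶜ ≤ δ) :
    ∫⁻ ω, f ω ∂μ ≤ δ * A + K := by
  refine (lintegral_mono_ae (g := fun ω => Gᶜ.indicator (fun _ => A) ω + K) ?_).trans ?_
  · filter_upwards [hK] with ω hω
    by_cases h : ω ∈ G
    · exact le_add_left (hω h)
    · rw [Set.indicator_of_mem (show ω ∈ Gᶜ from h)]; exact le_add_right (hA ω)
  · rw [lintegral_add_right _ measurable_const, lintegral_indicator_const hG.compl, lintegral_const,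
      measure_univ, mul_one, mul_comm A]
    exact add_le_add (mul_le_mul' hδ le_rfl) le_rfl

/-- A density cannot survive a bound of smaller order for every threshold. -/
theorem density_eq_zero {p C : ℝ} (hp : 0 ≤ p) (hC : 0 ≤ C)
    (h : ∀ (M : ℕ) (δ : ℝ), 0 < M → 0 < δ → ∃ L : ℕ, 0 < L ∧
      p * (L : ℝ) ^ 2 ≤ δ * (L : ℝ) ^ 2 + C * (L : ℝ) ^ 2 / M) : p = 0 := by
  refine le_antisymm (le_of_forall_pos_le_add fun η hη => ?_) hp
  obtain ⟨M, hM⟩ := exists_nat_gt (2 * C / η)
  have hM0 : 0 < M := Nat.cast_pos.mp ((div_nonneg (by linarith) hη.le).trans_lt hM)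
  obtain ⟨L, hL, hle⟩ := h M (η / 2) hM0 (by linarith)
  have h1 : C / (M : ℝ) ≤ η / 2 := by
    rw [div_le_iff₀ (by exact_mod_cast hM0)]
    rw [div_lt_iff₀ hη] at hM
    linarith
  have hL2 : (0 : ℝ) < (L : ℝ) ^ 2 := by positivity
  refine le_of_mul_le_mul_right ?_ hL2
  calc p * (L : ℝ) ^ 2 ≤ η / 2 * (L : ℝ) ^ 2 + C / M * (L : ℝ) ^ 2 := by
        rw [div_mul_eq_mul_div C]; exact hle
    _ ≤ (0 + η) * (L : ℝ) ^ 2 := by nlinarith

end box

end Vale.Agent.P158
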