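import Vale.Agent.P158.Basic
import Vale.Agent.P158.Count

/-!
P158: the box comparison. The inputs are stated as hypotheses in exactly the form in which the
other files prove them; the hand-in supplies all of them.
-/

open MeasureTheory
open scoped ENNReal

namespace Vale.Agent.P158

/-- The points of the closed square of radius `L`. -/
noncomputable def boxFin (L : ℕ) : Finset V :=
  Finset.Icc (-(L : ℤ)) L ×ˢ Finset.Icc (-(L : ℤ)) L

lemma mem_boxFin {L : ℕ} {x : V} : x ∈ boxFin L ↔ x ∈ box L := by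
  simp only [boxFin, Finset.mem_product, Finset.mem_Icc, box, Set.mem_ofPred_eq]; omega

lemma card_boxFin (L : ℕ) : (boxFin L).card = (2 * L + 1) ^ 2 := by
  rw [boxFin, Finset.card_product, Int.card_Icc, show ((L : ℤ) + 1 - -(L : ℤ)).toNat = 2 * L + 1 by omega]
  ring

/-- Translation-invariant events of positive density cannot be counted by less than the area. -/
lemma density_contradiction {μ : Measure Env} [IsProbabilityMeasure μ] (P : Env → V → Prop)
    (hmeas : ∀ v, MeasurableSet {t | P t v}) (hinv : ∀ v, μ {t | P t v} = μ {t | P t 0})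
    {β ε K : ℝ} (hε : 0 ≤ ε) (hK : 0 ≤ K) (L : ℕ) (hβ : ENNReal.ofReal β ≤ μ {t | P t 0})
    {bad : Set Env} (hbad : μ bad ≤ ENNReal.ofReal ε)
    (hcount : ∀ᵐ t ∂μ, t ∉ bad → ∀ F : Finset V, F ⊆ boxFin L → (∀ v ∈ F, P t v) → (F.card : ℝ) ≤ K) :
    β * (2 * L + 1 : ℝ) ^ 2 ≤ ε * (2 * L + 1 : ℝ) ^ 2 + K := by
  classical
  set f : Env → ℝ≥0∞ := fun t => ∑ v ∈ boxFin L, {s : Env | P s v}.indicator (fun _ => (1 : ℝ≥0∞)) t
    with hf
  have hval : ∀ t, f t = (((boxFin L).filter (P t)).card : ℝ≥0∞) := by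
    intro t
    rw [hf, Finset.card_filter, Nat.cast_sum]
    exact Finset.sum_congr rfl fun v _ => by simp [Set.indicator_apply]
  have hA : ((boxFin L).card : ℝ≥0∞) = ENNReal.ofReal ((2 * L + 1 : ℝ) ^ 2) := by
    rw [card_boxFin, ← ENNReal.ofReal_natCast]; congr 1; push_cast; ring
  have hlow : ENNReal.ofReal β * ENNReal.ofReal ((2 * L + 1 : ℝ) ^ 2) ≤ ∫⁻ t, f t ∂μ := by
    rw [hf, lintegral_finsetSum _ fun v _ => measurable_const.indicator (hmeas v), ← hA, mul_comm,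
      ← nsmul_eq_mul]
    refine Finset.card_nsmul_le_sum _ _ _ fun v _ => ?_
    rw [lintegral_indicator_const (hmeas v), one_mul, hinv v]
    exact hβ
  have hup : ∫⁻ t, f t ∂μ ≤
      ENNReal.ofReal ε * ENNReal.ofReal ((2 * L + 1 : ℝ) ^ 2) + ENNReal.ofReal K := by
    refine lintegral_count_le (G := (toMeasurable μ bad)ᶜ) (measurableSet_toMeasurable _ _).compl
      (fun t => ?_) ?_ (by rw [compl_compl, measure_toMeasurable]; exact hbad)
    · rw [hval, ← hA]; exact_mod_cast Finset.card_filter_le _ _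
    · filter_upwards [hcount] with t ht htb
      rw [hval, ← ENNReal.ofReal_natCast]
      exact ENNReal.ofReal_le_ofReal (ht (fun h => htb (subset_toMeasurable μ bad h)) _
        (Finset.filter_subset _ _) fun v hv => (Finset.mem_filter.mp hv).2)
  have h := hlow.trans hup
  rw [← ENNReal.ofReal_mul' (by positivity), ← ENNReal.ofReal_mul hε,
    ← ENNReal.ofReal_add (by positivity) hK, ENNReal.ofReal_le_ofReal_iff (by positivity)] at h
  exact h

lemma exists_real_lower {a : ℝ≥0∞} (ha : 0 < a) :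
    ∃ b : ℝ, 0 < b ∧ ENNReal.ofReal b ≤ a := by
  rcases eq_or_ne a ⊤ with rfl | h
  · exact ⟨1, one_pos, le_top⟩
  · exact ⟨a.toReal, ENNReal.toReal_pos ha.ne' h, (ENNReal.ofReal_toReal h).le⟩

/-- A positive density contradicts the bound `(c₁ S/M + c₂) D` with `S`, `D` linear in the side. -/
lemma no_density {β ε c₁ c₂ A B : ℝ} (hβ : 0 < β) (hε : ε ≤ β / 4)
    {M : ℝ} (hM : 4 * c₁ * A * B < β * M) (hM0 : 0 < M) {L : ℕ}
    (hL : c₂ * B < β * L) (h : β * (2 * L + 1 : ℝ) ^ 2 ≤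
      ε * (2 * L + 1 : ℝ) ^ 2 + (c₁ * (A * L) / M + c₂) * (B * L)) : False := by
  have hq : (4 * (L : ℝ) ^ 2) < (2 * L + 1 : ℝ) ^ 2 := by nlinarith [(Nat.cast_nonneg L : (0 : ℝ) ≤ L)]
  have h0 : (0 : ℝ) ≤ (L : ℝ) ^ 2 := sq_nonneg _
  have h1 : c₁ * (A * L) / M * (B * L) ≤ β / 4 * (L : ℝ) ^ 2 := by
    rw [show c₁ * (A * L) / M * (B * L) = c₁ * A * B / M * (L : ℝ) ^ 2 by ring]
    refine mul_le_mul_of_nonneg_right ?_ h0
    rw [div_le_iff₀ hM0]; nlinarith
  have h2 : c₂ * (B * L) ≤ β * (L : ℝ) ^ 2 := by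
    rw [show c₂ * (B * L) = c₂ * B * L by ring, show β * (L : ℝ) ^ 2 = β * L * L by ring]
    exact mul_le_mul_of_nonneg_right hL.le (Nat.cast_nonneg L)
  nlinarith

section assembly

variable {G : Measure ℝ} [IsProbabilityMeasure G]

instance law_isProbability : IsProbabilityMeasure (law G) := by unfold law; infer_instance

/-- The event that there is no good ring at scale `L`. -/
def NoRing (K L : ℕ) : Set Env :=
  {t | ∀ c : List V, ¬ Ring t (3 * L) (4 * L) ((K * L : ℕ) : ℝ) (K * L) c}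

/-- The event that some long self-avoiding walk from the square of radius `4 L` is too cheap. -/
def CheapPath (c : ℝ) (L : ℕ) : Set Env :=
  {t | ∃ (x : V) (l : List V), x ∈ box (4 * L) ∧ l.IsChain Adj ∧ l.head? = some x ∧ l.Nodup ∧
    L < l.length ∧ wt t l < c * (l.length : ℝ)}

/-- Branches have density zero. -/
theorem ae_noBranch
    (hnice : ∀ᵐ t ∂law G, Nice t)
    (hring : ∀ ε : ℝ, 0 < ε → ∃ K L₀ : ℕ, ∀ L, L₀ ≤ L → law G (NoRing K L) ≤ ENNReal.ofReal ε)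
    (hkey : (¬ ∀ᵐ t ∂law G, NoBranch t) → ∃ β : ℝ≥0∞, 0 < β ∧
      ∀ M : ℝ, ∃ R : ℕ, β ≤ law G {t | BranchPt t 0 R M})
    (hmeas : ∀ v R M, MeasurableSet {t | BranchPt t v R M})
    (hinv : ∀ v R M, law G {t | BranchPt t v R M} = law G {t | BranchPt t 0 R M})
    {c₁ c₂ : ℝ} (hc₁ : 0 ≤ c₁) (hc₂ : 0 ≤ c₂)
    (hcount : ∀ t (r1 r2 : ℕ) (S : ℝ) (N : ℕ) (c : List V), Nice t → Ring t r1 r2 S N c →
      ∀ (R L : ℕ) (M : ℝ), 0 < M → R + L < r1 → ∀ F : Finset V, (∀ v ∈ F, v ∈ box L) →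
      (∀ v ∈ F, BranchPt t v R M) → (F.card : ℝ) ≤ (c₁ * S / M + c₂) * N) :
    ∀ᵐ t ∂law G, NoBranch t := by
  by_contra hno
  obtain ⟨β₀, hβ₀, hR⟩ := hkey hno
  obtain ⟨β, hβ, hle⟩ := exists_real_lower hβ₀
  obtain ⟨K, L₀, hK⟩ := hring (β / 4) (by linarith)
  obtain ⟨M, hM⟩ := exists_gt (max 1 (4 * c₁ * K * K / β))
  have hM0 : 0 < M := lt_of_lt_of_le one_pos ((le_max_left _ _).trans hM.le)
  have hM1 : 4 * c₁ * K * K < β * M := by
    have := (le_max_right _ _).trans_lt hM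
    rw [div_lt_iff₀ hβ] at this; linarith
  obtain ⟨R, hRb⟩ := hR M
  obtain ⟨L₁, hL₁⟩ := exists_nat_gt (c₂ * K / β)
  set L := L₀ + L₁ + R + 1
  have hL2 : c₂ * (K : ℝ) < β * L := by
    have h1 : (L₁ : ℝ) ≤ L := by exact_mod_cast (show L₁ ≤ L by omega)
    rw [div_lt_iff₀ hβ] at hL₁
    nlinarith
  refine no_density hβ le_rfl (A := K) (B := K)
    hM1 hM0 hL2 ?_
  refine density_contradiction (μ := law G) (fun t v => BranchPt t v R M)
    (fun v => hmeas v R M) (fun v => hinv v R M) (by linarith) (by positivity) L (hle.trans hRb)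
    (hK L (by omega)) ?_
  filter_upwards [hnice] with t ht hbad F hF hP
  simp only [NoRing, Set.mem_ofPred_eq, not_forall, not_not] at hbad
  obtain ⟨c, hc⟩ := hbad
  have := hcount t _ _ _ _ c ht hc R L M hM0 (by omega) F (fun v hv => mem_boxFin.mp (hF hv)) hP
  push_cast at this
  exact this

/-- Two-sided good points have density zero, so there is no line. -/
theorem ae_noLine
    (hnice : ∀ᵐ t ∂law G, Nice t) (hnb : ∀ᵐ t ∂law G, NoBranch t)
    (hpair : ∀ᵐ t ∂law G, ∀ γ γ' (R : ℕ) (M : ℝ), IsLine t γ → IsLine t γ' →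
      Set.range γ ≠ Set.range γ' → 0 < M → GoodB t γ R M → ¬ MongePair t γ γ')
    (hring : ∀ ε : ℝ, 0 < ε → ∃ K L₀ : ℕ, ∀ L, L₀ ≤ L → law G (NoRing K L) ≤ ENNReal.ofReal ε)
    {c : ℝ} (hc : 0 < c)
    (hlong : ∀ ε : ℝ, 0 < ε → ∃ L₀ : ℕ, ∀ L, L₀ ≤ L → law G (CheapPath c L) ≤ ENNReal.ofReal ε)
    (hkey : (¬ ∀ᵐ t ∂law G, ∀ γ, ¬ IsLine t γ) → ∃ β : ℝ≥0∞, 0 < β ∧
      ∀ M : ℝ, ∃ R : ℕ, β ≤ law G {t | LinePt t 0 R M})
    (hmeas : ∀ v R M, MeasurableSet {t | LinePt t v R M})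
    (hinv : ∀ v R M, law G {t | LinePt t v R M} = law G {t | LinePt t 0 R M})
    {c₁ c₂ : ℝ} (hc₁ : 0 ≤ c₁) (hc₂ : 0 ≤ c₂)
    (hcount : ∀ t (r1 r2 : ℕ) (S : ℝ) (N D : ℕ) (w : List V), Nice t → NoBranch t →
      Ring t r1 r2 S N w →
      (∀ a ∈ w, ∀ b ∈ w, ∀ l, Joins l a b → l.Nodup → wt t l ≤ S → l.length ≤ D) →
      ∀ (R L : ℕ) (M : ℝ), 0 < M → R + L < r1 →
      (∀ γ γ', IsLine t γ → IsLine t γ' → Set.range γ ≠ Set.range γ' → GoodTwo t γ R M →
        GoodTwo t γ' R M → ¬ MongePair t γ γ') →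
      ∀ F : Finset V, (∀ v ∈ F, v ∈ box L) →
      (∀ v ∈ F, LinePt t v R M) → (F.card : ℝ) ≤ (c₁ * S / M + c₂) * D) :
    ∀ᵐ t ∂law G, ∀ γ, ¬ IsLine t γ := by
  by_contra hno
  obtain ⟨β₀, hβ₀, hR⟩ := hkey hno
  obtain ⟨β, hβ, hle⟩ := exists_real_lower hβ₀
  obtain ⟨K, L₀, hK⟩ := hring (β / 8) (by linarith)
  obtain ⟨L₂, hL₂⟩ := hlong (β / 8) (by linarith)
  obtain ⟨B, hBK⟩ := exists_nat_gt ((K : ℝ) / c + 1)
  obtain ⟨M, hM⟩ := exists_gt (max 1 (4 * c₁ * K * B / β))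
  have hM0 : 0 < M := lt_of_lt_of_le one_pos ((le_max_left _ _).trans hM.le)
  have hM1 : 4 * c₁ * K * B < β * M := by
    have := (le_max_right _ _).trans_lt hM
    rw [div_lt_iff₀ hβ] at this; linarith
  obtain ⟨R, hRb⟩ := hR M
  obtain ⟨L₁, hL₁⟩ := exists_nat_gt (c₂ * B / β)
  set L := L₀ + L₁ + L₂ + R + 1
  have hL2 : c₂ * (B : ℝ) < β * L := by
    have h1 : (L₁ : ℝ) ≤ L := by exact_mod_cast (show L₁ ≤ L by omega)
    rw [div_lt_iff₀ hβ] at hL₁
    nlinarith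
  refine no_density hβ le_rfl (A := K) (B := B)
    hM1 hM0 hL2 ?_
  refine density_contradiction (μ := law G) (fun t v => LinePt t v R M)
    (fun v => hmeas v R M) (fun v => hinv v R M) (by linarith) (by positivity) L (hle.trans hRb)
    (bad := NoRing K L ∪ CheapPath c L) ?_ ?_
  · refine (measure_union_le _ _).trans ((add_le_add (hK L (by omega)) (hL₂ L (by omega))).trans ?_)
    rw [← ENNReal.ofReal_add (by linarith) (by linarith)]
    exact ENNReal.ofReal_le_ofReal (by linarith)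
  filter_upwards [hnice, hnb, hpair] with t ht htb htp hbad F hF hP
  simp only [Set.mem_union, not_or] at hbad
  obtain ⟨w, hw⟩ : ∃ w, Ring t (3 * L) (4 * L) ((K * L : ℕ) : ℝ) (K * L) w := by
    simpa [NoRing] using hbad.1
  have hlen : ∀ a ∈ w, ∀ b ∈ w, ∀ l, Joins l a b → l.Nodup → wt t l ≤ ((K * L : ℕ) : ℝ) →
      l.length ≤ B * L := by
    intro a ha b _ l hl hnd hwl
    by_contra hlen
    push Not at hlen
    have hB1 : 1 ≤ B := by
      have h1 : (1 : ℝ) ≤ B := le_trans (le_add_of_nonneg_left (by positivity)) hBK.le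
      exact_mod_cast h1
    have hLl : L < l.length := lt_of_le_of_lt (Nat.le_mul_of_pos_left L (by omega)) hlen
    refine hbad.2 ⟨a, l, (hw.sub a ha).1, hl.walk, hl.first, hnd, hLl, lt_of_le_of_lt hwl ?_⟩
    have h1 : ((B * L : ℕ) : ℝ) < l.length := by exact_mod_cast hlen
    have h2 : (K : ℝ) ≤ c * B := by
      have : (K : ℝ) / c ≤ B := by linarith
      rw [div_le_iff₀ hc] at this; linarith
    push_cast at h1 ⊢
    calc (K : ℝ) * L ≤ c * B * L := mul_le_mul_of_nonneg_right h2 (Nat.cast_nonneg L)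
      _ < c * (l.length : ℝ) := by rw [mul_assoc]; exact mul_lt_mul_of_pos_left h1 hc
  have := hcount t _ _ _ _ (B * L) w ht htb hw hlen R L M hM0 (by omega)
    (fun γ γ' h h' hne hg _ => htp γ γ' R M h h' hne hM0 hg.1) F
    (fun v hv => mem_boxFin.mp (hF hv)) hP
  push_cast at this
  exact this

end assembly

/-- A bigeodesic in the sense of the question: pairwise distinct vertices, consecutive ones
adjacent, every segment weighing exactly the passage time of its ends. -/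
def IsBigeodesic (t : Env) (v : ℤ → V) : Prop :=
  Function.Injective v ∧ (∀ i, Adj (v i) (v (i + 1))) ∧
    ∀ i j, i < j → seg t v i j = T t (v i) (v j)

lemma IsBigeodesic.isLine {t : Env} (ht : Nice t) {v : ℤ → V} (h : IsBigeodesic t v) :
    IsLine t v := by
  refine ⟨h.2.1, h.1, fun i j hij l hl => ?_⟩
  rcases hij.eq_or_lt with rfl | hlt
  · rw [seg_self]; exact wt_nonneg ht.nonneg l
  · rw [h.2.2 i j hlt]; exact T_le ht.nonneg hl

theorem ae_noBigeodesic {μ : Measure Env} (hnice : ∀ᵐ t ∂μ, Nice t)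
    (h : ∀ᵐ t ∂μ, ∀ γ, ¬ IsLine t γ) : ∀ᵐ t ∂μ, ¬ ∃ v, IsBigeodesic t v := by
  filter_upwards [hnice, h] with t ht hl
  rintro ⟨v, hv⟩
  exact hl v (hv.isLine ht)

end Vale.Agent.P158
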