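import Vale.Agent.P158.Defs

/-!
P158: elementary facts on walks, passage times and lines.
-/

open MeasureTheory

namespace Vale.Agent.P158

lemma Adj.symm {x y : V} (h : Adj x y) : Adj y x := by
  unfold Adj at h ⊢; omega

lemma Adj.ne {x y : V} (h : Adj x y) : x ≠ y := by
  rintro rfl; simp [Adj] at h

lemma adj_iff {x y : V} : Adj x y ↔
    (x.2 = y.2 ∧ (y.1 = x.1 + 1 ∨ x.1 = y.1 + 1)) ∨ (x.1 = y.1 ∧ (y.2 = x.2 + 1 ∨ x.2 = y.2 + 1)) := by
  unfold Adj; omega

@[simp] lemma wt_nil (t : Env) : wt t [] = 0 := rfl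
@[simp] lemma wt_singleton (t : Env) (x : V) : wt t [x] = 0 := rfl
@[simp] lemma wt_cons_cons (t : Env) (x y : V) (l : List V) :
    wt t (x :: y :: l) = t s(x, y) + wt t (y :: l) := rfl

lemma wt_nonneg {t : Env} (h : ∀ e, 0 ≤ t e) : ∀ l, 0 ≤ wt t l
  | [] => le_rfl
  | [_] => le_rfl
  | x :: y :: l => by simpa using add_nonneg (h s(x, y)) (wt_nonneg h (y :: l))

lemma wt_split (t : Env) : ∀ (p : List V) (u : V) (q : List V),
    wt t (p ++ u :: q) = wt t (p ++ [u]) + wt t (u :: q)
  | [], u, q => by simp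
  | [a], u, q => by simp
  | a :: b :: p, u, q => by
      have := wt_split t (b :: p) u q
      simp only [List.cons_append, wt_cons_cons] at this ⊢
      linarith

lemma wt_reverse (t : Env) : ∀ l : List V, wt t l.reverse = wt t l
  | [] => rfl
  | [_] => rfl
  | x :: y :: l => by
      rw [List.reverse_cons, List.reverse_cons, List.append_assoc, List.singleton_append,
        wt_split t l.reverse y [x], ← List.reverse_cons, wt_reverse t (y :: l)]
      simp [Sym2.eq_swap, add_comm]

lemma wt_cons_le {t : Env} (h : ∀ e, 0 ≤ t e) (x : V) : ∀ l, wt t l ≤ wt t (x :: l)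
  | [] => le_rfl
  | y :: l => by rw [wt_cons_cons]; linarith [h s(x, y)]

namespace Joins

variable {t : Env} {l m : List V} {x y z u : V}

lemma ne_nil (h : Joins l x y) : l ≠ [] := by
  rintro rfl; simpa using h.first

lemma head_mem (h : Joins l x y) : x ∈ l := List.mem_of_mem_head? (by simp [h.first])

lemma last_mem (h : Joins l x y) : y ∈ l := List.mem_of_mem_getLast? (by simp [h.last])

lemma single (x : V) : Joins [x] x x := ⟨List.isChain_singleton _, rfl, rfl⟩

lemma pair (h : Adj x y) : Joins [x, y] x y := ⟨List.isChain_pair.mpr h, rfl, rfl⟩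

lemma symm (h : Joins l x y) : Joins l.reverse y x :=
  ⟨List.isChain_reverse.mpr (h.walk.imp fun _ _ => Adj.symm), by simp [h.last], by simp [h.first]⟩

lemma exists_cons (h : Joins l x y) : ∃ q, l = x :: q := by
  obtain ⟨a, q, rfl⟩ := List.exists_cons_of_ne_nil h.ne_nil
  exact ⟨q, by have := h.first; simp at this; rw [this]⟩

lemma exists_snoc (h : Joins l x y) : ∃ p, l = p ++ [y] := by
  refine ⟨l.dropLast, ?_⟩
  obtain ⟨p, a, rfl⟩ := (List.eq_nil_or_concat' l).resolve_left h.ne_nil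
  have := h.last
  simp at this ⊢
  exact this

lemma split_left {p q : List V} (h : Joins (p ++ u :: q) x y) : Joins (p ++ [u]) x u := by
  refine ⟨List.IsChain.left_of_append (l₂ := q) (by simpa using h.walk), ?_, by simp⟩
  have := h.first
  rcases p with _ | ⟨a, p⟩ <;> simpa using this

lemma split_right {p q : List V} (h : Joins (p ++ u :: q) x y) : Joins (u :: q) u y := by
  refine ⟨h.walk.suffix ⟨p, rfl⟩, rfl, ?_⟩
  rw [← h.last, List.getLast?_append_cons]

lemma glue {p q : List V} (h : Joins (p ++ [u]) x u) (h' : Joins (u :: q) u y) :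
    Joins (p ++ u :: q) x y := by
  refine ⟨?_, ?_, ?_⟩
  · exact List.isChain_split.mpr ⟨h.walk, h'.walk⟩
  · have := h.first
    rcases p with _ | ⟨a, p⟩ <;> simpa using this
  · rw [List.getLast?_append_cons]; exact h'.last

lemma exists_trans (t : Env) (h : Joins l x y) (h' : Joins m y z) :
    ∃ r, Joins r x z ∧ wt t r = wt t l + wt t m ∧ ∀ v, v ∈ r ↔ v ∈ l ∨ v ∈ m := by
  obtain ⟨p, rfl⟩ := h.exists_snoc
  obtain ⟨q, rfl⟩ := h'.exists_cons
  refine ⟨p ++ y :: q, glue h h', wt_split t p y q, fun v => ?_⟩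
  simp only [List.mem_append, List.mem_cons, List.not_mem_nil, or_false]
  tauto

lemma exists_split (t : Env) (h : Joins l x y) (hu : u ∈ l) :
    ∃ p q, Joins p x u ∧ Joins q u y ∧ wt t l = wt t p + wt t q ∧
      (∀ v ∈ p, v ∈ l) ∧ (∀ v ∈ q, v ∈ l) := by
  obtain ⟨p, q, rfl⟩ := List.mem_iff_append.mp hu
  refine ⟨p ++ [u], u :: q, h.split_left, h.split_right, wt_split t p u q, ?_, ?_⟩ <;> intro v hv
  · simp only [List.mem_append, List.mem_cons, List.not_mem_nil, or_false] at hv ⊢; tauto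
  · simp only [List.mem_append, List.mem_cons] at hv ⊢; tauto

/-- Loop erasure. -/
lemma exists_simple (hp : ∀ e, 0 ≤ t e) (h : Joins l x y) :
    ∃ r, Joins r x y ∧ r.Nodup ∧ (∀ v ∈ r, v ∈ l) ∧ wt t r ≤ wt t l := by
  induction l generalizing x with
  | nil => exact absurd rfl h.ne_nil
  | cons a q ih =>
    have ha : a = x := by simpa using h.first
    subst ha
    rcases q with _ | ⟨b, q⟩
    · have hy : a = y := by simpa using h.last
      subst hy
      exact ⟨[a], single a, List.nodup_singleton a, by simp, le_rfl⟩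
    · have hb : Joins (b :: q) b y := Joins.split_right (p := [a]) h
      have hab : Adj a b := (List.isChain_cons_cons.mp h.walk).1
      obtain ⟨r, hr, hnd, hsub, hw⟩ := ih hb
      by_cases har : a ∈ r
      · obtain ⟨p, s, rfl⟩ := List.mem_iff_append.mp har
        refine ⟨a :: s, hr.split_right, hnd.of_append_right, fun v hv => ?_, ?_⟩
        · exact List.mem_cons_of_mem _ (hsub v (List.mem_append_right _ hv))
        · have h1 := wt_split t p a s
          have h2 := wt_nonneg hp (p ++ [a])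
          have h3 := hp s(a, b)
          rw [wt_cons_cons]; linarith
      · obtain ⟨s, rfl⟩ := hr.exists_cons
        refine ⟨a :: b :: s, glue (p := [a]) (pair hab) hr, List.nodup_cons.mpr ⟨har, hnd⟩,
          fun v hv => ?_, by rw [wt_cons_cons, wt_cons_cons]; linarith⟩
        rcases List.mem_cons.mp hv with rfl | hv
        · exact List.mem_cons_self
        · exact List.mem_cons_of_mem _ (hsub v hv)

end Joins

/-- The lattice is connected. -/
lemma exists_joins (x y : V) : ∃ l, Joins l x y := by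
  suffices key : ∀ n : ℕ, ∀ x : V, (y.1 - x.1).natAbs + (y.2 - x.2).natAbs = n → ∃ l, Joins l x y from
    key _ x rfl
  intro n
  induction n with
  | zero =>
    intro x h
    have hx : x = y := Prod.ext (by omega) (by omega)
    exact ⟨[x], hx ▸ Joins.single x⟩
  | succ n ih =>
    intro x h
    obtain ⟨x', ha, hn⟩ : ∃ x', Adj x x' ∧ (y.1 - x'.1).natAbs + (y.2 - x'.2).natAbs = n := by
      rcases lt_trichotomy x.1 y.1 with h1 | h1 | h1
      · exact ⟨(x.1 + 1, x.2), by simp [Adj], by omega⟩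
      · rcases lt_trichotomy x.2 y.2 with h2 | h2 | h2
        · exact ⟨(x.1, x.2 + 1), by simp [Adj], by omega⟩
        · omega
        · exact ⟨(x.1, x.2 - 1), by simp [Adj], by omega⟩
      · exact ⟨(x.1 - 1, x.2), by simp [Adj], by omega⟩
    obtain ⟨l, hl⟩ := ih x' hn
    obtain ⟨q, rfl⟩ := hl.exists_cons
    exact ⟨x :: x' :: q, Joins.glue (p := [x]) (Joins.pair ha) hl⟩

section passage

variable {t : Env}

lemma Nice.nonneg (h : Nice t) : ∀ e, 0 ≤ t e := fun e => (h.pos e).le

lemma bddBelow_walks (hp : ∀ e, 0 ≤ t e) (x y : V) :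
    BddBelow (wt t '' {l | Joins l x y}) := ⟨0, by rintro _ ⟨l, -, rfl⟩; exact wt_nonneg hp l⟩

lemma T_le (hp : ∀ e, 0 ≤ t e) {x y : V} {l : List V} (h : Joins l x y) : T t x y ≤ wt t l :=
  csInf_le (bddBelow_walks hp x y) ⟨l, h, rfl⟩

lemma le_T {x y : V} {c : ℝ} (h : ∀ l, Joins l x y → c ≤ wt t l) : c ≤ T t x y := by
  obtain ⟨l, hl⟩ := exists_joins x y
  exact le_csInf ⟨_, l, hl, rfl⟩ (by rintro _ ⟨m, hm, rfl⟩; exact h m hm)

lemma T_nonneg (hp : ∀ e, 0 ≤ t e) (x y : V) : 0 ≤ T t x y := le_T fun l _ => wt_nonneg hp l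

lemma T_self (hp : ∀ e, 0 ≤ t e) (x : V) : T t x x = 0 :=
  le_antisymm (by simpa using T_le hp (Joins.single x)) (T_nonneg hp x x)

lemma T_comm (hp : ∀ e, 0 ≤ t e) (x y : V) : T t x y = T t y x := by
  have key : ∀ a b, T t a b ≤ T t b a := fun a b =>
    le_T fun l hl => (T_le hp hl.symm).trans (wt_reverse t l).le
  exact le_antisymm (key x y) (key y x)

lemma T_triangle (hp : ∀ e, 0 ≤ t e) (x y z : V) : T t x z ≤ T t x y + T t y z := by
  suffices h : T t x z - T t y z ≤ T t x y by linarith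
  refine le_T fun l hl => ?_
  suffices h : T t x z - wt t l ≤ T t y z by linarith
  refine le_T fun m hm => ?_
  obtain ⟨r, hr, hw, -⟩ := hl.exists_trans t hm
  linarith [T_le hp hr]

lemma T_add_le (hp : ∀ e, 0 ≤ t e) {x y u : V} {l : List V} (h : Joins l x y) (hu : u ∈ l) :
    T t x u + T t u y ≤ wt t l := by
  obtain ⟨p, q, hp', hq', hw, -⟩ := h.exists_split t hu
  linarith [T_le hp hp', T_le hp hq']

lemma exists_geodesic (h : Nice t) (x y : V) :
    ∃ l, Joins l x y ∧ l.Nodup ∧ wt t l = T t x y := by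
  obtain ⟨l0, hl0⟩ := exists_joins x y
  set F := {l : List V | l.IsChain Adj ∧ l.Nodup ∧ l.head? = some x ∧ wt t l ≤ wt t l0} ∩
    {l | l.getLast? = some y}
  have hF : F.Finite := (h.fin x (wt t l0)).inter_of_left _
  obtain ⟨r0, hr0, hnd0, -, hw0⟩ := hl0.exists_simple h.nonneg
  obtain ⟨r, ⟨⟨hc, hnd, hh, hwr⟩, hlast⟩, hmin⟩ :=
    hF.exists_minimalFor (wt t) F ⟨r0, ⟨hr0.walk, hnd0, hr0.first, hw0⟩, hr0.last⟩
  refine ⟨r, ⟨hc, hh, hlast⟩, hnd, le_antisymm (le_T fun l hl => ?_) (T_le h.nonneg ⟨hc, hh, hlast⟩)⟩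
  obtain ⟨s, hs, hnds, -, hws⟩ := hl.exists_simple h.nonneg
  by_contra hlt
  have hs' : s ∈ F := ⟨⟨hs.walk, hnds, hs.first, by linarith⟩, hs.last⟩
  have := hmin hs' (by linarith)
  linarith

lemma Joins.nodup_of_le (h : Nice t) {x y : V} {l : List V} (hl : Joins l x y)
    (hw : wt t l ≤ T t x y) : l.Nodup := by
  induction l generalizing x with
  | nil => exact List.nodup_nil
  | cons a q ih =>
    have ha : a = x := by simpa using hl.first
    subst ha
    rcases q with _ | ⟨b, q⟩
    · exact List.nodup_singleton a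
    · have hb : Joins (b :: q) b y := Joins.split_right (p := [a]) hl
      have h1 : T t a b ≤ t s(a, b) := by
        simpa using T_le h.nonneg (Joins.pair (List.isChain_cons_cons.mp hl.walk).1)
      have h2 := T_triangle h.nonneg a b y
      rw [wt_cons_cons] at hw
      refine List.nodup_cons.mpr ⟨fun hmem => ?_, ih hb (by linarith)⟩
      obtain ⟨p, r, -, hr, hw', -⟩ := hb.exists_split t hmem
      linarith [T_le h.nonneg hr, h.pos s(a, b), wt_nonneg h.nonneg p]

lemma geodesic_unique (h : Nice t) {x y : V} {l l' : List V} (hl : Joins l x y)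
    (hl' : Joins l' x y) (hw : wt t l ≤ T t x y) (hw' : wt t l' ≤ T t x y) : l = l' :=
  h.inj l l' x y hl hl' (hl.nodup_of_le h hw) (hl'.nodup_of_le h hw')
    (by linarith [T_le h.nonneg hl, T_le h.nonneg hl'])

lemma finite_T_le (h : Nice t) (x : V) (C : ℝ) : {y | T t x y ≤ C}.Finite := by
  refine ((h.fin x C).image fun l => l.getLast?.getD x).subset fun y hy => ?_
  obtain ⟨l, hl, hnd, hw⟩ := exists_geodesic h x y
  exact ⟨l, ⟨hl.walk, hnd, hl.first, hw.le.trans hy⟩, by simp [hl.last]⟩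

end passage

/-- The list of points of `γ` from index `i` to index `j`. -/
def segList (γ : ℤ → V) (i : ℤ) : ℕ → List V
  | 0 => [γ i]
  | n + 1 => γ i :: segList γ (i + 1) n

section segment

variable {t : Env} {γ : ℤ → V}

lemma mem_segList {i : ℤ} {n : ℕ} {v : V} :
    v ∈ segList γ i n ↔ ∃ k, i ≤ k ∧ k ≤ i + n ∧ γ k = v := by
  induction n generalizing i with
  | zero =>
    simp only [segList, List.mem_singleton, Nat.cast_zero, add_zero]
    exact ⟨fun h => ⟨i, le_rfl, le_rfl, h.symm⟩, fun ⟨k, h1, h2, h3⟩ => by rw [← h3, le_antisymm h2 h1]⟩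
  | succ n ih =>
    simp only [segList, List.mem_cons, ih]
    constructor
    · rintro (rfl | ⟨k, h1, h2, h3⟩)
      · exact ⟨i, le_rfl, by omega, rfl⟩
      · exact ⟨k, by omega, by push_cast; omega, h3⟩
    · rintro ⟨k, h1, h2, h3⟩
      rcases eq_or_lt_of_le h1 with rfl | h1
      · exact Or.inl h3.symm
      · exact Or.inr ⟨k, by omega, by push_cast at h2; omega, h3⟩

lemma segList_length (i : ℤ) (n : ℕ) : (segList γ i n).length = n + 1 := by
  induction n generalizing i with
  | zero => rfl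
  | succ n ih => simp [segList, ih]

lemma segList_getElem {i : ℤ} {n k : ℕ} (hk : k < (segList γ i n).length) :
    (segList γ i n)[k] = γ (i + k) := by
  induction n generalizing i k with
  | zero =>
    have : k = 0 := by simpa [segList] using hk
    subst this; simp [segList]
  | succ n ih =>
    rcases k with _ | k
    · simp [segList]
    · simp only [segList, List.getElem_cons_succ]
      rw [ih]; congr 1; push_cast; omega

lemma joins_segList (hadj : ∀ i, Adj (γ i) (γ (i + 1))) (i : ℤ) (n : ℕ) :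
    Joins (segList γ i n) (γ i) (γ (i + n)) := by
  induction n generalizing i with
  | zero => simpa [segList] using Joins.single (γ i)
  | succ n ih =>
    have h := ih (i + 1)
    obtain ⟨q, hq⟩ := h.exists_cons
    rw [show i + ((n + 1 : ℕ) : ℤ) = i + 1 + n by push_cast; ring]
    simp only [segList]
    rw [hq] at h ⊢
    exact Joins.glue (p := [γ i]) (Joins.pair (hadj i)) h

lemma seg_self (i : ℤ) : seg t γ i i = 0 := by simp [seg]

lemma seg_add {i j k : ℤ} (h : i ≤ j) (h' : j ≤ k) :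
    seg t γ i k = seg t γ i j + seg t γ j k := by
  unfold seg
  rw [← Finset.sum_union (Finset.Ico_disjoint_Ico_consecutive i j k),
    Finset.Ico_union_Ico_eq_Ico h h']

lemma seg_succ (i : ℤ) : seg t γ i (i + 1) = t s(γ i, γ (i + 1)) := by
  have : Finset.Ico i (i + 1) = {i} := by ext; simp only [Finset.mem_Ico, Finset.mem_singleton]; omega
  simp [seg, this]

lemma wt_segList (i : ℤ) (n : ℕ) : wt t (segList γ i n) = seg t γ i (i + n) := by
  induction n generalizing i with
  | zero => simp [segList, seg_self]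
  | succ n ih =>
    have h := ih (i + 1)
    rw [show i + ((n + 1 : ℕ) : ℤ) = i + 1 + n by push_cast; ring,
      seg_add (show i ≤ i + 1 by omega) (show i + 1 ≤ i + 1 + (n : ℤ) by omega), seg_succ, ← h]
    cases n <;> simp [segList]

lemma seg_nonneg (hp : ∀ e, 0 ≤ t e) (i j : ℤ) : 0 ≤ seg t γ i j :=
  Finset.sum_nonneg fun _ _ => hp _

end segment

namespace IsLine

variable {t : Env} {γ : ℤ → V}

lemma joins (h : IsLine t γ) {i j : ℤ} (hij : i ≤ j) :
    Joins (segList γ i (j - i).toNat) (γ i) (γ j) := by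
  have := joins_segList h.adj i (j - i).toNat
  rwa [show i + (((j - i).toNat : ℕ) : ℤ) = j by omega] at this

lemma wt_joins (_ : IsLine t γ) {i j : ℤ} (hij : i ≤ j) :
    wt t (segList γ i (j - i).toNat) = seg t γ i j := by
  rw [wt_segList, show i + (((j - i).toNat : ℕ) : ℤ) = j by omega]

lemma seg_eq_T (h : IsLine t γ) (hp : ∀ e, 0 ≤ t e) {i j : ℤ} (hij : i ≤ j) :
    seg t γ i j = T t (γ i) (γ j) :=
  le_antisymm (le_T (h.geo i j hij)) ((T_le hp (h.joins hij)).trans (h.wt_joins hij).le)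

lemma segList_nodup (h : IsLine t γ) (i : ℤ) (n : ℕ) : (segList γ i n).Nodup := by
  induction n generalizing i with
  | zero => simp [segList]
  | succ n ih =>
    refine List.nodup_cons.mpr ⟨fun hm => ?_, ih _⟩
    obtain ⟨k, h1, -, h3⟩ := mem_segList.mp hm
    have := h.inj h3
    omega

lemma eq_segList (h : IsLine t γ) (hn : Nice t) {i j : ℤ} (hij : i ≤ j) {l : List V}
    (hl : Joins l (γ i) (γ j)) (hw : wt t l ≤ seg t γ i j) :
    l = segList γ i (j - i).toNat := by
  refine geodesic_unique hn hl (h.joins hij) ?_ ?_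
  · rwa [← h.seg_eq_T hn.nonneg hij]
  · rw [h.wt_joins hij, h.seg_eq_T hn.nonneg hij]

lemma adj_rev (h : IsLine t γ) (i : ℤ) : Adj (rev γ i) (rev γ (i + 1)) := by
  have := (h.adj (-(i + 1))).symm
  rwa [show -(i + 1) + 1 = -i by ring] at this

end IsLine

lemma seg_rev (t : Env) (γ : ℤ → V) (i j : ℤ) : seg t (rev γ) i j = seg t γ (-j) (-i) := by
  unfold seg
  refine Finset.sum_nbij' (fun k => -k - 1) (fun k => -k - 1) ?_ ?_ ?_ ?_ ?_
  · intro k hk; simp only [Finset.mem_Ico] at hk ⊢; omega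
  · intro k hk; simp only [Finset.mem_Ico] at hk ⊢; omega
  · intro k _; omega
  · intro k _; omega
  · intro k _
    simp only [rev]
    rw [Sym2.eq_swap, show -k - 1 + 1 = -k by ring, show -(k + 1) = -k - 1 by ring]

lemma IsLine.reverse {t : Env} {γ : ℤ → V} (h : IsLine t γ) : IsLine t (rev γ) := by
  refine ⟨h.adj_rev, fun a b hab => by simpa using h.inj hab, fun i j hij l hl => ?_⟩
  rw [seg_rev, ← wt_reverse t l]
  exact h.geo _ _ (by omega) _ hl.symm

@[simp] lemma rev_rev (γ : ℤ → V) : rev (rev γ) = γ := by funext i; simp [rev]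

/-- The line read from the index `a`. -/
def shift (γ : ℤ → V) (a : ℤ) : ℤ → V := fun i => γ (a + i)

lemma seg_shift (t : Env) (γ : ℤ → V) (a i j : ℤ) :
    seg t (shift γ a) i j = seg t γ (a + i) (a + j) := by
  unfold seg
  refine Finset.sum_nbij' (fun k => a + k) (fun k => k - a) ?_ ?_ ?_ ?_ ?_
  · intro k hk; simp only [Finset.mem_Ico] at hk ⊢; omega
  · intro k hk; simp only [Finset.mem_Ico] at hk ⊢; omega
  · intro k _; omega
  · intro k _; omega
  · intro k _
    simp only [shift]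
    rw [show a + (k + 1) = a + k + 1 by ring]

lemma IsLine.shifted {t : Env} {γ : ℤ → V} (h : IsLine t γ) (a : ℤ) : IsLine t (shift γ a) := by
  refine ⟨fun i => ?_, fun x y hxy => add_left_cancel (h.inj hxy), fun i j hij l hl => ?_⟩
  · simp only [shift]; rw [show a + (i + 1) = a + i + 1 by ring]; exact h.adj _
  · rw [seg_shift]; exact h.geo _ _ (by omega) l hl

/-- A line leaves every bounded set of passage times. -/
lemma IsLine.finite_T_le {t : Env} {γ : ℤ → V} (h : IsLine t γ) (hn : Nice t) (x : V) (C : ℝ) :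
    {k : ℤ | T t x (γ k) ≤ C}.Finite :=
  (P158.finite_T_le hn x C).preimage h.inj.injOn

/-- Two lines agreeing at two ordered pairs of indices agree between. -/
lemma IsLine.agree {t : Env} {γ γ' : ℤ → V} (hn : Nice t) (h : IsLine t γ) (h' : IsLine t γ')
    {i i' : ℤ} {n : ℕ} {m : ℤ} (hm : i' ≤ m) (e0 : γ i = γ' i') (e1 : γ (i + n) = γ' m) :
    m = i' + n ∧ ∀ k : ℕ, k ≤ n → γ (i + k) = γ' (i' + k) := by
  have hw : wt t (segList γ' i' (m - i').toNat) ≤ seg t γ i (i + n) := by
    rw [h'.wt_joins hm, h'.seg_eq_T hn.nonneg hm, h.seg_eq_T hn.nonneg (by omega), e0, e1]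
  have hj : Joins (segList γ' i' (m - i').toNat) (γ i) (γ (i + n)) := by
    rw [e0, e1]; exact h'.joins hm
  have he := h.eq_segList hn (by omega) hj hw
  rw [show (i + (n : ℤ) - i).toNat = n by omega] at he
  have hl : (m - i').toNat = n := by
    have := congrArg List.length he
    rw [segList_length, segList_length] at this; omega
  refine ⟨by omega, fun k hk => ?_⟩
  rw [hl] at he
  have hk' : k < (segList γ i n).length := by rw [segList_length]; omega
  rw [← segList_getElem hk', ← segList_getElem (γ := γ') (i := i') (n := n)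
    (by rw [segList_length]; omega)]
  simp only [he]

/-- Two lines with infinitely many common points in one direction form a branch, unless they
have the same points. -/
lemma exists_branch {t : Env} {γ γ' : ℤ → V} (hn : Nice t) (h : IsLine t γ) (h' : IsLine t γ')
    (hne : Set.range γ ≠ Set.range γ') (hinf : {i : ℤ | 0 ≤ i ∧ γ i ∈ Set.range γ'}.Infinite) :
    ∃ α α', IsBranch t α α' := by
  classical
  obtain ⟨i0, hi0, j0, hj0⟩ := hinf.nonempty
  set I := {i : ℤ | i0 ≤ i ∧ γ i ∈ Set.range γ'}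
  have hI : I.Infinite := by
    refine (hinf.sdiff (Set.finite_Ico (0 : ℤ) i0)).mono fun i hi => ⟨?_, hi.1.2⟩
    by_contra hlt
    exact hi.2 ⟨hi.1.1, by omega⟩
  -- orient the second line so that it goes forwards along infinitely many common points
  obtain ⟨σ, hσ, hr, b0, hb0, hfor⟩ : ∃ σ, IsLine t σ ∧ Set.range σ = Set.range γ' ∧ ∃ b0,
      σ b0 = γ i0 ∧ {i : ℤ | i0 ≤ i ∧ ∃ m, b0 ≤ m ∧ σ m = γ i}.Infinite := by
    have hU : I ⊆ {i | i0 ≤ i ∧ ∃ m, j0 ≤ m ∧ γ' m = γ i} ∪
        {i | i0 ≤ i ∧ ∃ m, -j0 ≤ m ∧ rev γ' m = γ i} := by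
      rintro i ⟨hi, m, hm⟩
      rcases le_total j0 m with hle | hle
      · exact Or.inl ⟨hi, m, hle, hm⟩
      · exact Or.inr ⟨hi, -m, by omega, by simpa [rev] using hm⟩
    rcases Set.infinite_union.mp (hI.mono hU) with h1 | h1
    · exact ⟨γ', h', rfl, j0, hj0, h1⟩
    · refine ⟨rev γ', h'.reverse, ?_, -j0, by simpa [rev] using hj0, h1⟩
      ext v
      exact ⟨fun ⟨k, hk⟩ => ⟨-k, hk⟩, fun ⟨k, hk⟩ => ⟨-k, by simpa [rev] using hk⟩⟩
  have hall : ∀ k : ℕ, γ (i0 + k) = σ (b0 + k) := by
    intro k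
    obtain ⟨i, ⟨hi, m, hm, he⟩, hik⟩ : ∃ i, (i0 ≤ i ∧ ∃ m, b0 ≤ m ∧ σ m = γ i) ∧ i0 + k ≤ i := by
      by_contra hcon
      push Not at hcon
      exact hfor ((Set.finite_Ico i0 (i0 + k)).subset fun i hi => ⟨hi.1, hcon i hi⟩)
    have h2 := h.agree hn hσ (i := i0) (i' := b0) (n := (i - i0).toNat) (m := m) hm hb0.symm
      (by rw [show i0 + (((i - i0).toNat : ℕ) : ℤ) = i by omega]; exact he.symm)
    exact h2.2 k (by omega)
  -- first disagreement going backwards
  have hex : ∃ k : ℕ, γ (i0 - k) ≠ σ (b0 - k) := by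
    by_contra hcon
    push Not at hcon
    have hz : ∀ z : ℤ, γ (i0 + z) = σ (b0 + z) := by
      intro z
      obtain ⟨k, rfl | rfl⟩ := Int.eq_nat_or_neg z
      · exact hall k
      · simpa [← sub_eq_add_neg] using hcon k
    refine hne (hr ▸ ?_)
    ext v
    constructor
    · rintro ⟨k, rfl⟩
      exact ⟨b0 + (k - i0), by rw [← hz]; congr 1; ring⟩
    · rintro ⟨k, rfl⟩
      exact ⟨i0 + (k - b0), by rw [hz]; congr 1; ring⟩
  have hk0 := Nat.find_spec hex
  have hpos : Nat.find hex ≠ 0 := by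
    intro h0; rw [h0] at hk0; simpa using hk0 (by simpa using hall 0)
  set k0 := Nat.find hex
  refine ⟨rev (shift γ (i0 - k0 + 1)), rev (shift σ (b0 - k0 + 1)), (h.shifted _).reverse,
    (hσ.shifted _).reverse, fun k hk => ?_, ?_⟩
  · simp only [rev, shift]
    rcases le_or_gt (k0 : ℤ) (1 - k) with hle | hlt
    · have := hall (1 - k - k0).toNat
      rw [show i0 - (k0 : ℤ) + 1 + -k = i0 + (((1 - k - k0).toNat : ℕ) : ℤ) by omega,
        show b0 - (k0 : ℤ) + 1 + -k = b0 + (((1 - k - k0).toNat : ℕ) : ℤ) by omega, this]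
    · have hmin := Nat.find_min hex (m := ((k0 : ℤ) - (1 - k)).toNat) (by omega)
      push Not at hmin
      rw [show i0 - (k0 : ℤ) + 1 + -k = i0 - ((((k0 : ℤ) - (1 - k)).toNat : ℕ) : ℤ) by omega,
        show b0 - (k0 : ℤ) + 1 + -k = b0 - ((((k0 : ℤ) - (1 - k)).toNat : ℕ) : ℤ) by omega, hmin]
  · simp only [rev, shift]
    rw [show i0 - (k0 : ℤ) + 1 + -1 = i0 - k0 by ring, show b0 - (k0 : ℤ) + 1 + -1 = b0 - k0 by ring]
    exact hk0

/-- Without branches two different lines have finitely many common points. -/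
lemma finite_common {t : Env} {γ γ' : ℤ → V} (hn : Nice t) (hb : NoBranch t) (h : IsLine t γ)
    (h' : IsLine t γ') (hne : Set.range γ ≠ Set.range γ') :
    {i : ℤ | γ i ∈ Set.range γ'}.Finite := by
  by_contra hinf
  have hU : {i : ℤ | γ i ∈ Set.range γ'} ⊆ {i | 0 ≤ i ∧ γ i ∈ Set.range γ'} ∪
      (fun i => -i) '' {i | 0 ≤ i ∧ rev γ i ∈ Set.range γ'} := by
    intro i hi
    rcases le_total 0 i with hle | hle
    · exact Or.inl ⟨hle, hi⟩
    · exact Or.inr ⟨-i, ⟨by omega, by simpa [rev] using hi⟩, by simp⟩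
  rcases Set.infinite_union.mp (Set.Infinite.mono hU hinf) with h1 | h1
  · obtain ⟨a, a', ha⟩ := exists_branch hn h h' hne h1
    exact hb a a' ha
  · have hr : Set.range (rev γ) = Set.range γ := by
      ext v
      exact ⟨fun ⟨k, hk⟩ => ⟨-k, hk⟩, fun ⟨k, hk⟩ => ⟨-k, by simpa [rev] using hk⟩⟩
    obtain ⟨a, a', ha⟩ := exists_branch hn h.reverse h' (hr ▸ hne) h1.of_image
    exact hb a a' ha

end Vale.Agent.P158
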