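import Vale.Agent.P158.Hits

/-!
P158, counting layer: the two counts in a ring, for branch points with a good shared half and
for points of lines which are good on both sides.  The planar inputs are hypotheses.
-/

open MeasureTheory

namespace Vale.Agent.P158

variable {t : Env}

/-- The two planar facts on exits used by the counts. -/
def ExitsExist (t : Env) : Prop :=
  ∀ g, IsLine t g → ∃ r0, ∀ r ≥ r0, ∃ i j, Exits g r i j

/-- Exit chords interlaced for arbitrarily large squares give a Monge pair. -/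
def MongeOfExits (t : Env) : Prop :=
  ∀ g g', IsLine t g → IsLine t g' → Set.range g ≠ Set.range g' →
    (∀ r0, ∃ r ≥ r0, ∃ i j i' j', Exits g r i j ∧ Exits g' r i' j' ∧
      Interl (idx r (g i)) (idx r (g' j')) (idx r (g j)) (idx r (g' i'))) → MongePair t g g'

/-- Cheapest walks in a set from a common start share their beginnings. -/
lemma consistent_of_min (hn : Nice t) {A : Set V} {x : V} {ι : Type*} {l : ι → List V}
    {a : ι → V} (hj : ∀ k, Joins (l k) x (a k)) (hnd : ∀ k, (l k).Nodup)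
    (hA : ∀ k, ∀ u ∈ l k, u ∈ A)
    (hmin : ∀ k, ∀ m, Joins m x (a k) → (∀ u ∈ m, u ∈ A) → wt t (l k) ≤ wt t m) :
    Consistent l := by
  intro i j p q p' q' u hi hj'
  have key : ∀ (i j : ι) (p q p' q' : List V), l i = p ++ u :: q → l j = p' ++ u :: q' →
      wt t (p ++ [u]) ≤ wt t (p' ++ [u]) := by
    intro i j p q p' q' hi hj'
    have h1 : Joins (p ++ u :: q) x (a i) := hi ▸ hj i
    have h2 : Joins (p' ++ u :: q') x (a j) := hj' ▸ hj j
    have := hmin i (p' ++ u :: q) (Joins.glue h2.split_left h1.split_right) fun z hz => by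
      rcases List.mem_append.mp hz with h | h
      · exact hA j z (by rw [hj']; exact List.mem_append_left _ h)
      · exact hA i z (by rw [hi]; exact List.mem_append_right _ h)
    rw [hi, wt_split, wt_split t p'] at this
    linarith
  have hnd' : ∀ (i : ι) (p q : List V), l i = p ++ u :: q → (p ++ [u]).Nodup := fun i p q e => by
    have := hnd i
    rw [e] at this
    exact this.sublist (List.Sublist.append_left (List.cons_sublist_cons.mpr (List.nil_sublist q)) p)
  have := hn.inj (p ++ [u]) (p' ++ [u]) x u (hi ▸ hj i).split_left (hj' ▸ hj j).split_left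
    (hnd' i p q hi) (hnd' j p' q' hj')
    (le_antisymm (key i j p q p' q' hi hj') (key j i p' q' p q hj' hi))
  exact List.append_cancel_right this

/-- **Count of branch points.** -/
theorem branch_count (hn : Nice t) (hcross : ∀ r, CrossAt r) (hexit : ExitsExist t)
    {r1 r2 : ℕ} {S : ℝ} {N : ℕ} {c : List V} (hc : Ring t r1 r2 S N c) {R L : ℕ} {M : ℝ}
    (hM : 0 < M) (hLR : R + L < r1) (F : Finset V) (hF : ∀ v ∈ F, v ∈ box L)
    (hP : ∀ v ∈ F, BranchPt t v R M) : (F.card : ℝ) ≤ (4 * S / M + 1) * N := by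
  classical
  have hS : 0 ≤ S := (wt_nonneg hn.nonneg c).trans hc.weight
  choose! γ γ' hbr h0 hg hg' using hP
  choose ρ hρ using hexit
  set rr : V → ℕ := fun v => if h : v ∈ F then max (ρ (γ v) (hbr v h).left) (ρ (γ' v) (hbr v h).right) else 0
  set r := r1 + r2 + 1 + F.sup rr with hr_def
  have hr1 : r1 < r := by omega
  have hr2 : r2 < r := by omega
  have hex : ∀ v ∈ F, (∃ i j, Exits (γ v) r i j) ∧ ∃ i j, Exits (γ' v) r i j := fun v hv => by
    have : rr v ≤ F.sup rr := Finset.le_sup hv
    rw [show rr v = max (ρ (γ v) (hbr v hv).left) (ρ (γ' v) (hbr v hv).right) from dif_pos hv] at this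
    exact ⟨hρ _ (hbr v hv).left r (by omega), hρ _ (hbr v hv).right r (by omega)⟩
  choose! I J hIJ using fun v hv => (hex v hv).1
  choose! I' J' hIJ' using fun v hv => (hex v hv).2
  -- the two lines have the same backward exit
  have h0' : ∀ v ∈ F, γ' v 0 = v := fun v hv => by rw [← (hbr v hv).agree 0 le_rfl]; exact h0 v hv
  have hII : ∀ v ∈ F, γ' v (I' v) = γ v (I v) := fun v hv => by
    have e1 := hIJ v hv
    have e2 := hIJ' v hv
    have a1 : I v ≤ I' v := by
      by_contra h
      push Not at h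
      have := e2.2.2.2.2 (I v) h (by have := e1.1; have := e2.2.1; omega)
      rw [← (hbr v hv).agree _ e1.1.le] at this
      exact this.2 e1.2.2.1
    have a2 : I' v ≤ I v := by
      by_contra h
      push Not at h
      have := e1.2.2.2.2 (I' v) h (by have := e2.1; have := e1.2.1; omega)
      rw [(hbr v hv).agree _ e2.1.le] at this
      exact this.2 e2.2.2.1
    rw [le_antisymm a2 a1, (hbr v hv).agree _ e1.1.le]
  have hbox : ∀ v ∈ F, γ v 0 ∈ box L ∧ γ v 0 ∈ box r1 := fun v hv => by
    rw [h0 v hv]; exact ⟨hF v hv, box_mono (by omega) (hF v hv)⟩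
  set u : V → V := fun v => γ v (I v)
  have hub : ∀ v ∈ F, u v ∈ bd r := fun v hv => (hIJ v hv).2.2.1
  have hulink : ∀ v ∈ F, ∀ a ∈ c, Linked (ann r1 r) (u v) a := fun v hv a ha =>
    (hc.linked_exit hn hr2 (hbr v hv).left (hIJ v hv) (hbox v hv).2 ha).1
  obtain ⟨cl, hclle, -, hclose⟩ := exists_class_map hn (hcross r)
    (show ann r1 r ⊆ box r from fun _ h => h.1) hc.walk (fun a ha => hc.mem_ann hr2.le ha) hc.weight
    (F.image u) (fun x hx => by
      obtain ⟨v, hv, rfl⟩ := Finset.mem_image.mp hx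
      exact ⟨hub v hv, hulink v hv⟩) hM
  have hclb : ∀ v ∈ F, cl (u v) ∈ Finset.range (⌊4 * S / M⌋₊ + 1) := fun v hv =>
    Finset.mem_range.mpr (Nat.lt_succ_of_le (hclle _ (Finset.mem_image_of_mem u hv)))
  have hfib : ∀ k ∈ Finset.range (⌊4 * S / M⌋₊ + 1),
      (F.filter fun v => cl (u v) = k).card ≤ N := by
    intro k _
    rcases (F.filter fun v => cl (u v) = k).eq_empty_or_nonempty with h | ⟨v0, hv0⟩
    · rw [h]; simp
    rw [Finset.mem_filter] at hv0
    set C := c.toFinset
    have hstart : ∀ i : Fin C.card, ∃ l, Joins l (u v0) (C.equivFin.symm i).1 ∧ l.Nodup ∧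
        (∀ z ∈ l, z ∈ box r) ∧ ∀ m, Joins m (u v0) (C.equivFin.symm i).1 → (∀ z ∈ m, z ∈ box r) →
          wt t l ≤ wt t m := fun i => by
      obtain ⟨l, hl, hlA⟩ := hulink v0 hv0.1 _ (List.mem_toFinset.mp (C.equivFin.symm i).2)
      exact exists_min_in hn hl fun z hz => (hlA z hz).1
    choose l hl hnd hlb hlmin using hstart
    refine (card_branch_le l (consistent_of_min hn hl hnd hlb hlmin) _ fun v hv => ?_).trans
      ((Fintype.card_fin _).le.trans ((List.toFinset_card_le c).trans hc.size))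
    rw [Finset.mem_filter] at hv
    have hcv : ∀ a ∈ c, ∀ b ∈ c, |(Tin t (ann r1 r) (u v) a - Tin t (ann r1 r) (u v0) a) -
        (Tin t (ann r1 r) (u v) b - Tin t (ann r1 r) (u v0) b)| < M :=
      hclose _ (Finset.mem_image_of_mem u hv.1) _ (Finset.mem_image_of_mem u hv0.1)
        (hv.2.trans hv0.2.symm)
    obtain ⟨a, ha, hfa⟩ := arm_follows hn hc hr1 hr2 (show L + R < r1 by omega) (hbr v hv.1).left
      (hbox v hv.1).1 (hg v hv.1) (hIJ v hv.1) (hub v0 hv0.1) (hulink v0 hv0.1) hcv
    obtain ⟨a', ha', hfa'⟩ := arm_follows hn hc hr1 hr2 (show L + R < r1 by omega) (hbr v hv.1).right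
      (by rw [h0' v hv.1]; exact hF v hv.1) (hg' v hv.1) (hIJ' v hv.1) (hub v0 hv0.1)
      (hulink v0 hv0.1) (by rw [hII v hv.1]; exact hcv)
    obtain ⟨i, hi⟩ : ∃ i, (C.equivFin.symm i).1 = a :=
      ⟨C.equivFin ⟨a, List.mem_toFinset.mpr ha⟩, by simp⟩
    obtain ⟨i', hi'⟩ : ∃ i, (C.equivFin.symm i).1 = a' :=
      ⟨C.equivFin ⟨a', List.mem_toFinset.mpr ha'⟩, by simp⟩
    have f1 := hfa (l i) (hi ▸ hl i) (hnd i) (hlb i) (hi ▸ hlmin i)
    have f2 := hfa' (l i') (hi' ▸ hl i') (hnd i') (hlb i') (hi' ▸ hlmin i')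
    rw [h0 v hv.1] at f1
    rw [h0' v hv.1] at f2
    exact ⟨i, i', _, _, (hbr v hv.1).split, f1, f2⟩
  have hcard : F.card ≤ (⌊4 * S / M⌋₊ + 1) * N := by
    refine (Finset.card_le_mul_card_image_of_maps_to (f := fun v => cl (u v))
      (fun v hv => hclb v hv) N hfib).trans ?_
    rw [Finset.card_range, Nat.mul_comm]
  calc (F.card : ℝ) ≤ (((⌊4 * S / M⌋₊ + 1) * N : ℕ) : ℝ) := by exact_mod_cast hcard
    _ ≤ (4 * S / M + 1) * N := by
        push_cast
        exact mul_le_mul_of_nonneg_right (add_le_add (Nat.floor_le (by positivity)) le_rfl)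
          (Nat.cast_nonneg N)

/-- Indices of common points of two lines have the same distances. -/
lemma dist_index {γ γ' : ℤ → V} (hn : Nice t) (h : IsLine t γ) (h' : IsLine t γ') {a b c d : ℤ}
    (e : γ a = γ' b) (e' : γ c = γ' d) : (a - c).natAbs = (b - d).natAbs := by
  wlog hac : a ≤ c generalizing a b c d
  · have := this e' e (le_of_not_ge hac); omega
  have hn' : a + ((c - a).toNat : ℤ) = c := by omega
  rcases le_total b d with hbd | hdb
  · obtain ⟨hm, -⟩ := h.agree hn h' (n := (c - a).toNat) hbd e (by rw [hn']; exact e')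
    omega
  · obtain ⟨hm, -⟩ := h.agree hn h'.reverse (i' := -b) (m := -d) (n := (c - a).toNat) (by omega)
      (by simpa [rev] using e) (by rw [hn']; simpa [rev] using e')
    omega

/-- The exits only depend on the excursion. -/
lemma exits_unique {r : ℕ} {γ γ' : ℤ → V} {i j i' j' k0 : ℤ} (he : Exits γ r i j)
    (he' : Exits γ' r i' j') (hrel : ∀ m, γ' m = γ (k0 + m))
    (hin : ∀ k : ℤ, k.natAbs ≤ k0.natAbs → γ k ∉ bd r) : γ' i' = γ i ∧ γ' j' = γ j := by
  obtain ⟨h1, h2, hib, hjb, hmid⟩ := he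
  obtain ⟨h1', h2', hib', hjb', hmid'⟩ := he'
  rw [hrel] at hib' hjb'
  have b1 : i < k0 := by
    by_contra h; exact hin i (by omega) hib
  have b2 : k0 < j := by
    by_contra h; exact hin j (by omega) hjb
  have a1 : k0 + i' ≤ i := by
    by_contra h
    exact (hmid _ (by omega) (by omega)).2 hib'
  have a2 : i - k0 ≤ i' := by
    by_contra h
    have := hmid' (i - k0) (by omega) (by omega)
    rw [hrel, show k0 + (i - k0) = i by ring] at this
    -- `γ i` would be inside
    exact this.2 hib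
  have a3 : j ≤ k0 + j' := by
    by_contra h
    exact (hmid _ (by omega) (by omega)).2 hjb'
  have a4 : j' ≤ j - k0 := by
    by_contra h
    have := hmid' (j - k0) (by omega) (by omega)
    rw [hrel, show k0 + (j - k0) = j by ring] at this
    exact this.2 hjb
  exact ⟨by rw [hrel]; congr 1; omega, by rw [hrel]; congr 1; omega⟩

/-- A line may be turned round. -/
def turn (γ : ℤ → V) (b : Bool) : ℤ → V := if b then γ else rev γ

/-- **Count of two-sided good points.** -/
theorem line_count (hn : Nice t) (hcross : ∀ r, CrossAt r) (hexit : ExitsExist t)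
    (hmonge : MongeOfExits t) {r1 r2 : ℕ} {S : ℝ} {N D : ℕ} {c : List V}
    (hc : Ring t r1 r2 S N c)
    (hlen : ∀ a ∈ c, ∀ b ∈ c, ∀ l, Joins l a b → l.Nodup → wt t l ≤ S → l.length ≤ D)
    {R L : ℕ} {M : ℝ} (hM : 0 < M) (hLR : R + L < r1)
    (hII : ∀ γ γ', IsLine t γ → IsLine t γ' → Set.range γ ≠ Set.range γ' → GoodTwo t γ R M →
      GoodTwo t γ' R M → ¬ MongePair t γ γ')
    (F : Finset V) (hF : ∀ v ∈ F, v ∈ box L) (hP : ∀ v ∈ F, LinePt t v R M) :
    (F.card : ℝ) ≤ (16 * S / M + 1) * D := by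
  classical
  have hS : 0 ≤ S := (wt_nonneg hn.nonneg c).trans hc.weight
  choose! γ hγ h0 hg using hP
  have hT : ∀ v ∈ F, ∀ b, IsLine t (turn (γ v) b) ∧ GoodTwo t (turn (γ v) b) R M ∧
      turn (γ v) b 0 = v ∧ Set.range (turn (γ v) b) = Set.range (γ v) := by
    intro v hv b
    cases b
    · refine ⟨(hγ v hv).reverse, (hg v hv).reverse, by simp [turn, rev, h0 v hv], ?_⟩
      ext z
      exact ⟨fun ⟨k, hk⟩ => ⟨-k, hk⟩, fun ⟨k, hk⟩ => ⟨-k, by simpa [turn, rev] using hk⟩⟩
    · exact ⟨hγ v hv, hg v hv, h0 v hv, rfl⟩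
  -- from some radius on no two exit chords of different lines are nested
  have hr0 : ∀ v ∈ F, ∀ v' ∈ F, ∀ b b', ∃ r0, ∀ r ≥ r0,
      Set.range (γ v) ≠ Set.range (γ v') → ∀ i j i' j',
      Exits (turn (γ v) b) r i j → Exits (turn (γ v') b') r i' j' →
      ¬ Interl (idx r (turn (γ v) b i)) (idx r (turn (γ v') b' j')) (idx r (turn (γ v) b j))
        (idx r (turn (γ v') b' i')) := by
    intro v hv v' hv' b b'
    by_contra hcon
    push Not at hcon
    have hne : Set.range (turn (γ v) b) ≠ Set.range (turn (γ v') b') := by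
      obtain ⟨r, -, h, -⟩ := hcon 0
      rw [(hT v hv b).2.2.2, (hT v' hv' b').2.2.2]
      exact h
    refine hII _ _ (hT v hv b).1 (hT v' hv' b').1 hne (hT v hv b).2.1 (hT v' hv' b').2.1
      (hmonge _ _ (hT v hv b).1 (hT v' hv' b').1 hne fun r0 => ?_)
    obtain ⟨r, hr, -, i, j, i', j', h1, h2, h3⟩ := hcon r0
    exact ⟨r, hr, i, j, i', j', h1, h2, h3⟩
  choose! ρ2 hρ2 using hr0
  -- index differences on common lines
  have hk : ∀ v ∈ F, ∀ v' ∈ F, Set.range (γ v) = Set.range (γ v') → ∃ k : ℤ, γ v k = v' :=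
    fun v _ v' hv' e => by
      have : v' ∈ Set.range (γ v) := e ▸ ⟨0, h0 v' hv'⟩
      exact this
  choose! kk hkk using hk
  choose ρ hρ using hexit
  set rr : V → ℕ := fun v => if h : v ∈ F then
    max (ρ (γ v) (hγ v h)) (ρ (rev (γ v)) (hγ v h).reverse) else 0
  set r := r1 + r2 + 1 + F.sup rr +
    (F ×ˢ F).sup (fun p => ρ2 p.1 p.2 true true + ρ2 p.1 p.2 true false + ρ2 p.1 p.2 false true +
      ρ2 p.1 p.2 false false + L + (kk p.1 p.2).natAbs) with hr_def
  have hr1 : r1 < r := by omega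
  have hr2 : r2 < r := by omega
  have hpair : ∀ v ∈ F, ∀ v' ∈ F, ρ2 v v' true true ≤ r ∧ ρ2 v v' true false ≤ r ∧
      ρ2 v v' false true ≤ r ∧ ρ2 v v' false false ≤ r ∧ L + (kk v v').natAbs < r := by
    intro v hv v' hv'
    have := Finset.le_sup (f := fun p : V × V => ρ2 p.1 p.2 true true + ρ2 p.1 p.2 true false +
      ρ2 p.1 p.2 false true + ρ2 p.1 p.2 false false + L + (kk p.1 p.2).natAbs)
      (Finset.mk_mem_product hv hv')
    simp only at this
    omega
  have hor : ∀ v ∈ F, ∃ b i j, Exits (turn (γ v) b) r i j ∧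
      idx r (turn (γ v) b i) < idx r (turn (γ v) b j) := by
    intro v hv
    obtain ⟨i, j, hij⟩ := hρ _ (hγ v hv) r (by
      have : rr v ≤ F.sup rr := Finset.le_sup hv
      rw [show rr v = max (ρ (γ v) (hγ v hv)) (ρ (rev (γ v)) (hγ v hv).reverse) from dif_pos hv]
        at this
      omega)
    rcases lt_trichotomy (idx r (γ v i)) (idx r (γ v j)) with h | h | h
    · exact ⟨true, i, j, hij, h⟩
    · have := (hγ v hv).inj (idx_injOn r hij.2.2.1 hij.2.2.2.1 h)
      have := hij.1; have := hij.2.1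
      omega
    · exact ⟨false, -j, -i, hij.reverse, by simpa [turn, rev] using h⟩
  choose! b I J hIJ hlt using hor
  set g : V → ℤ → V := fun v => turn (γ v) (b v)
  set p : V → V := fun v => g v (I v)
  set q : V → V := fun v => g v (J v)
  -- exit chords are ordered
  have hord : ∀ v ∈ F, ∀ v' ∈ F, idx r (p v) < idx r (p v') → idx r (q v) ≤ idx r (q v') := by
    intro v hv v' hv' hpp
    by_contra hqq
    push Not at hqq
    by_cases hsame : Set.range (γ v) = Set.range (γ v')
    · -- one excursion of one line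
      have hg0 : g v' 0 = v' := (hT v' hv' (b v')).2.2.1
      obtain ⟨k0, hk0, hk0'⟩ : ∃ k0 : ℤ, g v k0 = v' ∧ L + k0.natAbs < r := by
        have h1 := hkk v hv v' hv' hsame
        have h2 := (hpair v hv v' hv').2.2.2.2
        by_cases hb : b v = true
        · exact ⟨kk v v', by simp only [g, turn, hb, if_true]; exact h1, h2⟩
        · refine ⟨-kk v v', ?_, by omega⟩
          simp only [Bool.not_eq_true] at hb
          simpa [g, turn, hb, rev] using h1
      have hl := (hT v hv (b v)).1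
      have hl' := (hT v' hv' (b v')).1
      have hin : ∀ k : ℤ, k.natAbs ≤ k0.natAbs → g v k ∉ bd r := fun k hk h => by
        have := mem_box_index hl (show g v 0 ∈ box L by
          rw [show g v 0 = v from (hT v hv (b v)).2.2.1]; exact hF v hv) k
        exact bd_notMem_box (by omega) h (box_mono (show L + k.natAbs ≤ L + k0.natAbs by omega) this)
      have hm : ∀ m, ∃ k, g v k = g v' m := fun m => by
        have : g v' m ∈ Set.range (g v) := by
          rw [show Set.range (g v) = Set.range (γ v) from (hT v hv (b v)).2.2.2, hsame,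
            ← (hT v' hv' (b v')).2.2.2]
          exact ⟨m, rfl⟩
        exact this
      choose K hK using hm
      have d : ∀ m, (K m - k0).natAbs = m.natAbs := fun m => by
        have := dist_index hn hl hl' (hK m) (hk0.trans hg0.symm)
        simpa using this
      have d1 : ∀ m, (K m - K 1).natAbs = (m - 1).natAbs := fun m =>
        dist_index hn hl hl' (hK m) (hK 1)
      have hdir : (∀ m, K m = k0 + m) ∨ (∀ m, K m = k0 - m) := by
        have e1 := d 1
        by_cases h1 : K 1 = k0 + 1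
        · left; intro m; have := d m; have := d1 m; omega
        · right; intro m; have := d m; have := d1 m; omega
      rcases hdir with hd | hd
      · obtain ⟨e1, -⟩ := exits_unique (k0 := k0) (hIJ v hv) (hIJ v' hv')
          (fun m => by rw [← hd m]; exact (hK m).symm) hin
        exact absurd (congrArg (idx r) e1) (ne_of_gt hpp)
      · obtain ⟨e1, e2⟩ := exits_unique (k0 := k0) (hIJ v hv) (hIJ v' hv').reverse
          (fun m => by
            change g v' (-m) = g v (k0 + m)
            rw [← hK (-m), hd (-m)]; congr 1; ring) hin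
        simp only [rev, neg_neg] at e1 e2
        have h1 : idx r (q v') = idx r (p v) := congrArg (idx r) e1
        have := hlt v' hv'
        simp only [p, q, g] at *
        omega
    · have hρle : ρ2 v v' (b v) (b v') ≤ r := by
        obtain ⟨h1, h2, h3, h4, -⟩ := hpair v hv v' hv'
        cases b v <;> cases b v' <;> assumption
      have := hρ2 v hv v' hv' (b v) (b v') r hρle hsame _ _ _ _ (hIJ v hv) (hIJ v' hv')
      have h1 := hlt v hv
      have h2 := hlt v' hv'
      refine this ?_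
      simp only [p, q, g] at hpp hqq
      unfold Interl Btw
      omega
  -- classes
  have hbox : ∀ v ∈ F, g v 0 ∈ box L ∧ g v 0 ∈ box r1 := fun v hv => by
    rw [show g v 0 = v from (hT v hv (b v)).2.2.1]
    exact ⟨hF v hv, box_mono (by omega) (hF v hv)⟩
  obtain ⟨cl, hclle, hclmono, hclose⟩ := exists_class_map hn (hcross r)
    (show ann r1 r ⊆ box r from fun _ h => h.1) hc.walk (fun a ha => hc.mem_ann hr2.le ha) hc.weight
    (F.image p ∪ F.image q) (fun x hx => by
      rcases Finset.mem_union.mp hx with h | h <;> obtain ⟨v, hv, rfl⟩ := Finset.mem_image.mp h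
      · exact ⟨(hIJ v hv).2.2.1, fun a ha =>
          (hc.linked_exit hn hr2 (hT v hv _).1 (hIJ v hv) (hbox v hv).2 ha).1⟩
      · exact ⟨(hIJ v hv).2.2.2.1, fun a ha =>
          (hc.linked_exit hn hr2 (hT v hv _).1 (hIJ v hv) (hbox v hv).2 ha).2⟩) (half_pos hM)
  have hpU : ∀ v ∈ F, p v ∈ F.image p ∪ F.image q := fun v hv =>
    Finset.mem_union_left _ (Finset.mem_image_of_mem p hv)
  have hqU : ∀ v ∈ F, q v ∈ F.image p ∪ F.image q := fun v hv =>
    Finset.mem_union_right _ (Finset.mem_image_of_mem q hv)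
  set B := ⌊4 * S / (M / 2)⌋₊
  set P := F.image fun v => (cl (p v), cl (q v))
  have hPcard : P.card ≤ B + B + 1 := by
    refine card_chain_le P (fun x hx => ?_) fun x hx y hy hxy => ?_
    · obtain ⟨v, hv, rfl⟩ := Finset.mem_image.mp hx
      exact ⟨hclle _ (hpU v hv), hclle _ (hqU v hv)⟩
    · obtain ⟨v, hv, rfl⟩ := Finset.mem_image.mp hx
      obtain ⟨w, hw, rfl⟩ := Finset.mem_image.mp hy
      refine hclmono _ (hqU v hv) _ (hqU w hw) (hord v hv w hw (lt_of_not_ge fun h => ?_))
      exact absurd (hclmono _ (hpU w hw) _ (hpU v hv) h) (not_le.mpr hxy)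
  have hfib : ∀ x ∈ P, (F.filter fun v => (cl (p v), cl (q v)) = x).card ≤ D := by
    intro x hx
    obtain ⟨v0, hv0, rfl⟩ := Finset.mem_image.mp hx
    have hcne : c.toFinset.Nonempty := by
      obtain ⟨k, -, -, hk, -, -⟩ :=
        hc.back_hit hn hr2 (hT v0 hv0 _).1 (hIJ v0 hv0) (hbox v0 hv0).2
      exact ⟨_, List.mem_toFinset.mpr hk⟩
    obtain ⟨⟨a, a'⟩, haa, hmin⟩ := (c.toFinset ×ˢ c.toFinset).exists_min_image
      (fun z => Tin t (ann r1 r) (p v0) z.1 + T t z.1 z.2 + Tin t (ann r1 r) (q v0) z.2)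
      (hcne.product hcne)
    rw [Finset.mem_product, List.mem_toFinset, List.mem_toFinset] at haa
    obtain ⟨l, hl, hnd, hlw⟩ := exists_geodesic hn a a'
    refine (Finset.card_le_card (fun v hv => ?_)).trans ((List.toFinset_card_le l).trans
      (hlen a haa.1 a' haa.2 l hl hnd (hlw.le.trans (hc.T_le hn haa.1 haa.2))))
    rw [Finset.mem_filter] at hv
    obtain ⟨hvF, hveq⟩ := hv
    simp only [Prod.mk.injEq] at hveq
    rw [List.mem_toFinset]
    have := origin_mem hn hc hr1 hr2 (show L + R < r1 by omega) (hT v hvF _).1 (hbox v hvF).1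
      (hT v hvF _).2.1 (hIJ v hvF) (u0 := p v0) (w0 := q v0)
      (hclose _ (hpU v hvF) _ (hpU v0 hv0) hveq.1) (hclose _ (hqU v hvF) _ (hqU v0 hv0) hveq.2)
      haa.1 haa.2 (fun a1 h1 a2 h2 => hmin (a1, a2)
        (Finset.mk_mem_product (List.mem_toFinset.mpr h1) (List.mem_toFinset.mpr h2))) hl hlw.le
    rwa [(hT v hvF _).2.2.1] at this
  have hcard : F.card ≤ (B + B + 1) * D := by
    refine (Finset.card_le_mul_card_image F D hfib).trans ?_
    rw [Nat.mul_comm]
    exact Nat.mul_le_mul_right D hPcard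
  calc (F.card : ℝ) ≤ (((B + B + 1) * D : ℕ) : ℝ) := by exact_mod_cast hcard
    _ ≤ (16 * S / M + 1) * D := by
        push_cast
        refine mul_le_mul_of_nonneg_right ?_ (Nat.cast_nonneg D)
        have : (B : ℝ) ≤ 4 * S / (M / 2) := Nat.floor_le (by positivity)
        rw [show 4 * S / (M / 2) = 8 * S / M by field_simp; ring] at this
        linarith [show 16 * S / M = 8 * S / M + 8 * S / M by ring]

end Vale.Agent.P158
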