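import Mathlib

/-!
P158, isometric lines in a pseudometric space: Busemann functions of the two ends and the margin
of a point against a line.
-/

open Filter Topology

namespace Vale.Agent.P158

variable {V : Type*}

/-- An isometric line: every middle point of three ordered points is between them. -/
def IsIsoLine (d : V → V → ℝ) (γ : ℤ → V) : Prop :=
  ∀ i j k : ℤ, i ≤ j → j ≤ k → d (γ i) (γ j) + d (γ j) (γ k) = d (γ i) (γ k)

/-- The same line with the opposite orientation. -/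
def back (γ : ℤ → V) : ℤ → V := fun i => γ (-i)

/-- The Busemann function of the forward end of `γ`, normalised at `γ 0`. -/
noncomputable def bus (d : V → V → ℝ) (γ : ℤ → V) (x : V) : ℝ :=
  ⨅ n : ℕ, (d x (γ n) - d (γ 0) (γ n))

/-- The margin of a point against the line `γ`. -/
noncomputable def gap (d : V → V → ℝ) (γ : ℤ → V) (x : V) : ℝ :=
  bus d γ x + bus d (back γ) x

variable {d : V → V → ℝ} {γ δ : ℤ → V}

lemma IsIsoLine.back' (hγ : IsIsoLine d γ) (hs : ∀ x y, d x y = d y x) : IsIsoLine d (back γ) := by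
  intro i j k hij hjk
  have := hγ (-k) (-j) (-i) (by omega) (by omega)
  simp only [back]
  rw [hs (γ (-i)) (γ (-j)), hs (γ (-j)) (γ (-k)), hs (γ (-i)) (γ (-k))]
  linarith

@[simp] lemma back_back (γ : ℤ → V) : back (back γ) = γ := by funext i; simp [back]

set_option linter.unusedSectionVars false

variable (hs : ∀ x y, d x y = d y x) (ht : ∀ x y z, d x z ≤ d x y + d y z)
include hs ht

lemma antitone_approx (hγ : IsIsoLine d γ) (x : V) :
    Antitone fun n : ℕ => d x (γ n) - d (γ 0) (γ n) := by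
  refine antitone_nat_of_succ_le fun n => ?_
  have h1 := ht x (γ n) (γ ((n + 1 : ℕ) : ℤ))
  have h2 := hγ 0 n ((n + 1 : ℕ) : ℤ) (Int.natCast_nonneg n) (by push_cast; omega)
  linarith

lemma bddBelow_approx (γ : ℤ → V) (x : V) :
    BddBelow (Set.range fun n : ℕ => d x (γ n) - d (γ 0) (γ n)) := by
  refine ⟨-d (γ 0) x, ?_⟩
  rintro _ ⟨n, rfl⟩
  have := ht (γ 0) x (γ n)
  dsimp only
  linarith

lemma bus_le_approx (γ : ℤ → V) (x : V) (n : ℕ) : bus d γ x ≤ d x (γ n) - d (γ 0) (γ n) :=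
  ciInf_le (bddBelow_approx hs ht γ x) n

lemma tendsto_bus (hγ : IsIsoLine d γ) (x : V) :
    Tendsto (fun n : ℕ => d x (γ n) - d (γ 0) (γ n)) atTop (𝓝 (bus d γ x)) :=
  tendsto_atTop_ciInf (antitone_approx hs ht hγ x) (bddBelow_approx hs ht γ x)

lemma bus_le_add (γ : ℤ → V) (x y : V) : bus d γ x ≤ d x y + bus d γ y := by
  have h : bus d γ x - d x y ≤ bus d γ y := le_ciInf fun n => by
    have h1 := bus_le_approx hs ht γ x n
    have h2 := ht x y (γ n)
    linarith
  linarith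

lemma gap_nonneg (hγ : IsIsoLine d γ) (x : V) : 0 ≤ gap d γ x := by
  refine ge_of_tendsto' ((tendsto_bus hs ht hγ x).add (tendsto_bus hs ht (hγ.back' hs) x))
    fun n => ?_
  have h1 := ht (γ (-(n : ℤ))) x (γ n)
  have h2 := hγ (-(n : ℤ)) 0 n (by omega) (by omega)
  simp only [back, neg_zero]
  rw [hs x (γ (-(n : ℤ))), hs (γ 0) (γ (-(n : ℤ)))]
  linarith

lemma dist_nonneg' (x y : V) : 0 ≤ d x y := by
  have h1 := ht x y x
  have h2 := ht x x x
  rw [hs y x] at h1
  linarith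

lemma IsIsoLine.self (hγ : IsIsoLine d γ) (i : ℤ) : d (γ i) (γ i) = 0 := by
  have := hγ i i i le_rfl le_rfl
  linarith

lemma gap_le_detour (hγ : IsIsoLine d γ) (x : V) {i j : ℤ} (hij : i ≤ j) :
    gap d γ x ≤ d (γ i) x + d x (γ j) - d (γ i) (γ j) := by
  obtain ⟨n, hi, hj⟩ : ∃ n : ℕ, -(n : ℤ) ≤ i ∧ j ≤ n :=
    ⟨max i.natAbs j.natAbs, by omega, by omega⟩
  have h1 := bus_le_approx hs ht γ x n
  have h2 := bus_le_approx hs ht (back γ) x n
  simp only [back, neg_zero] at h2
  rw [hs x (γ (-(n : ℤ))), hs (γ 0)] at h2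
  have h3 := hγ (-(n : ℤ)) 0 n (by omega) (by omega)
  have h4 := hγ (-(n : ℤ)) i j hi hij
  have h5 := hγ (-(n : ℤ)) j n (by omega) hj
  have h6 := ht (γ (-(n : ℤ))) (γ i) x
  have h7 := ht x (γ j) (γ n)
  unfold gap
  linarith

end Vale.Agent.P158
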