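import Mathlib

/-!
P158, key lemma layer: measurability of suprema over a compact space of configurations.
-/

open MeasureTheory TopologicalSpace

namespace Vale.Agent.P158

variable {Ω Γ : Type*} [TopologicalSpace Ω] [TopologicalSpace Γ] [CompactSpace Γ]

/-- The fields having, in a closed set of configurations, one with value at least `y`. -/
lemma isClosed_exists_le {F : Ω → Γ → ℝ} (hF : UpperSemicontinuous fun p : Ω × Γ => F p.1 p.2)
    {S : Set Γ} (hS : IsClosed S) (y : ℝ) : IsClosed {ω | ∃ γ ∈ S, y ≤ F ω γ} := by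
  have h : IsClosed ({p : Ω × Γ | y ≤ F p.1 p.2} ∩ Prod.snd ⁻¹' S) :=
    (upperSemicontinuous_iff_isClosed_preimage.1 hF y).inter (hS.preimage continuous_snd)
  convert isClosedMap_fst_of_compactSpace _ h using 1
  ext ω
  constructor
  · rintro ⟨γ, hγ, hy⟩
    exact ⟨(ω, γ), ⟨hy, hγ⟩, rfl⟩
  · rintro ⟨⟨ω', γ⟩, ⟨hy, hγ⟩, rfl⟩
    exact ⟨γ, hγ, hy⟩

variable [MeasurableSpace Ω] [OpensMeasurableSpace Ω]

/-- The fields having, in a closed set of configurations and at some radius, a value above a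
measurable threshold. -/
lemma measurableSet_exists_lt {F : ℕ → Ω → Γ → ℝ}
    (hF : ∀ R, UpperSemicontinuous fun p : Ω × Γ => F R p.1 p.2) {S : Set Γ} (hS : IsClosed S)
    {f : Ω → ℝ} (hf : Measurable f) :
    MeasurableSet {ω | ∃ γ ∈ S, ∃ R, f ω < F R ω γ} := by
  have h : {ω | ∃ γ ∈ S, ∃ R, f ω < F R ω γ} =
      ⋃ (q : ℚ) (R : ℕ), {ω | f ω < q} ∩ {ω | ∃ γ ∈ S, (q : ℝ) ≤ F R ω γ} := by
    ext ω
    simp only [Set.mem_iUnion, Set.mem_inter_iff, Set.mem_ofPred_eq]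
    constructor
    · rintro ⟨γ, hγ, R, hlt⟩
      obtain ⟨q, hq1, hq2⟩ := exists_rat_btwn hlt
      exact ⟨q, R, hq1, γ, hγ, hq2.le⟩
    · rintro ⟨q, R, hq, γ, hγ, hle⟩
      exact ⟨γ, hγ, R, hq.trans_le hle⟩
  rw [h]
  exact .iUnion fun q => .iUnion fun R =>
    (measurableSet_lt hf measurable_const).inter (isClosed_exists_le (hF R) hS _).measurableSet

/-- The supremum over all radii and configurations. -/
noncomputable def top (F : ℕ → Ω → Γ → ℝ) (ω : Ω) : ℝ := ⨆ p : ℕ × Γ, F p.1 ω p.2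

omit [TopologicalSpace Ω] [TopologicalSpace Γ] [CompactSpace Γ] [MeasurableSpace Ω]
    [OpensMeasurableSpace Ω] in
lemma le_top {F : ℕ → Ω → Γ → ℝ} {K : ℝ} (hK : ∀ R ω γ, F R ω γ ≤ K) (R : ℕ) (ω : Ω) (γ : Γ) :
    F R ω γ ≤ top F ω :=
  le_ciSup (f := fun p : ℕ × Γ => F p.1 ω p.2) ⟨K, by rintro _ ⟨p, rfl⟩; exact hK _ _ _⟩ (R, γ)

lemma measurable_top [Nonempty Γ] {F : ℕ → Ω → Γ → ℝ}
    (hF : ∀ R, UpperSemicontinuous fun p : Ω × Γ => F R p.1 p.2) {K : ℝ}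
    (hK : ∀ R ω γ, F R ω γ ≤ K) : Measurable (top F) := by
  refine measurable_of_Ioi fun y => ?_
  have h : top F ⁻¹' Set.Ioi y = {ω | ∃ γ ∈ (Set.univ : Set Γ), ∃ R, y < F R ω γ} := by
    ext ω
    simp only [Set.mem_preimage, Set.mem_Ioi, Set.mem_univ, true_and, Set.mem_ofPred_eq]
    constructor
    · intro h
      obtain ⟨⟨R, γ⟩, hp⟩ := exists_lt_of_lt_ciSup (f := fun p : ℕ × Γ => F p.1 ω p.2) h
      exact ⟨γ, R, hp⟩
    · rintro ⟨γ, R, hlt⟩
      exact hlt.trans_le (le_top hK R ω γ)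
  rw [h]
  exact measurableSet_exists_lt hF isClosed_univ measurable_const

end Vale.Agent.P158
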