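import Vale.Agent.P158.Lowering

/-!
P158: in a nice environment two lines with two common points agree between them.
-/

namespace Vale.Agent.P158.Key

variable {t : Env} {γ δ : ℤ → V}

lemma isLine_rev (h : IsLine t γ) : IsLine t (rev γ) := by
  refine ⟨fun i => ?_, fun i j hij => neg_injective (h.inj hij), fun i j hij l hl => ?_⟩
  · have := adj_symm (h.adj (-(i + 1)))
    simpa [rev, show -(i + 1) + 1 = -i by ring] using this
  · have h1 := h.geo (-j) (-i) (by omega) l.reverse (joins_reverse hl)
    rw [wt_reverse] at h1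
    refine le_trans (le_of_eq ?_) h1
    refine Finset.sum_nbij (fun x => -x - 1) ?_ ?_ ?_ ?_
    · intro x hx; simp only [Finset.coe_Ico, Set.mem_Ico, Finset.mem_Ico] at hx ⊢; omega
    · intro x _ y _ hxy; simpa using hxy
    · intro y hy; refine ⟨-y - 1, ?_, by ring⟩
      simp only [Finset.coe_Ico, Set.mem_Ico] at hy ⊢; omega
    · intro x _
      simp only [rev]
      rw [Sym2.eq_swap]
      ring_nf

lemma agree_between (ht : Nice t) (hγ : IsLine t γ) (hδ : IsLine t δ) {a b a' b' : ℤ} (hab : a ≤ b)
    (hab' : a' ≤ b') (ha : γ a = δ a') (hb : γ b = δ b') :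
    b - a = b' - a' ∧ ∀ i, a ≤ i → i ≤ b → γ i = δ (a' + (i - a)) := by
  have h1 := joins_sl hγ.adj hab
  have h2 := joins_sl hδ.adj hab'
  rw [← ha, ← hb] at h2
  have e1 := hγ.geo a b hab _ h2
  have h1' := h1
  rw [ha, hb] at h1'
  have e2 := hδ.geo a' b' hab' _ h1'
  rw [wt_sl' t δ hab'] at e1
  rw [wt_sl' t γ hab] at e2
  have heq := ht.inj _ _ _ _ h1 h2 (nodup_sl hγ.inj _ _) (nodup_sl hδ.inj _ _)
    (by rw [wt_sl' t γ hab, wt_sl' t δ hab']; exact le_antisymm e1 e2)
  have hlen := congrArg List.length heq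
  simp only [length_sl] at hlen
  refine ⟨by omega, fun i hi1 hi2 => ?_⟩
  have h3 : (i - a).toNat < (sl γ a (b - a).toNat).length := by rw [length_sl]; omega
  have h4 : (i - a).toNat < (sl δ a' (b' - a').toNat).length := by rw [length_sl]; omega
  have h5 := List.getElem_of_eq heq h3
  rw [sl_getElem, sl_getElem] at h5
  convert h5 using 2 <;> omega

/-- Two lines with the same point and the same previous point at index zero: a common point on
the backward half of the first sits at the same index on the second, and they agree up to it. -/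
lemma agree_back (ht : Nice t) (hγ : IsLine t γ) (hδ : IsLine t δ) (h0 : γ 0 = δ 0)
    (h1 : γ (-1) = δ (-1)) {k j : ℤ} (hk : k < 0) (hkj : γ k = δ j) :
    j = k ∧ ∀ i, k ≤ i → i ≤ 0 → γ i = δ i := by
  rcases le_total j 0 with hj | hj
  · obtain ⟨he, hi⟩ := agree_between ht hγ hδ hk.le hj hkj h0
    refine ⟨by omega, fun i a b => ?_⟩
    rw [hi i a b]
    congr 1
    omega
  · exfalso
    obtain ⟨he, hi⟩ := agree_between ht hγ (isLine_rev hδ) hk.le (show -j ≤ 0 by omega)
      (by simpa [rev] using hkj) (by simpa [rev] using h0)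
    have h2 := hi (-1) (by omega) (by omega)
    rw [h1] at h2
    have h3 : δ (-1) = δ 1 := by
      rw [h2]
      simp only [rev]
      congr 1
      omega
    have := hδ.inj h3
    omega

end Vale.Agent.P158.Key
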