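import Vale.Agent.P158.Excess
import Vale.Agent.P158.LineAgree

/-!
P158: the compact space of neighbour sequences through a point, stretch edges, closedness.
-/

open Filter
open scoped Topology

namespace Vale.Agent.P158.Key

/-- Neighbour sequences through `v`. -/
abbrev Seq0 (v : V) : Type := {γ : ℤ → V // γ 0 = v ∧ ∀ i, Adj (γ i) (γ (i + 1))}

lemma walk_bound {v : V} {γ : ℤ → V} (h0 : γ 0 = v) (h : ∀ i, Adj (γ i) (γ (i + 1))) (k : ℤ) :
    γ k ∈ Finset.Icc (v.1 - |k|) (v.1 + |k|) ×ˢ Finset.Icc (v.2 - |k|) (v.2 + |k|) := by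
  induction k using Int.induction_on with
  | zero => simp [h0]
  | succ i ih =>
    have := h i
    simp only [Adj] at this
    simp only [Finset.mem_product, Finset.mem_Icc] at ih ⊢
    rw [abs_of_nonneg (by omega : (0 : ℤ) ≤ (i : ℤ))] at ih
    rw [abs_of_nonneg (by omega : (0 : ℤ) ≤ (i : ℤ) + 1)]
    omega
  | pred i ih =>
    have := h (-(i : ℤ) - 1)
    simp only [sub_add_cancel, Adj] at this
    simp only [Finset.mem_product, Finset.mem_Icc] at ih ⊢
    rw [abs_of_nonpos (by omega : -(i : ℤ) ≤ 0)] at ih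
    rw [abs_of_nonpos (by omega : -(i : ℤ) - 1 ≤ 0)]
    omega

instance (v : V) : CompactSpace (Seq0 v) := by
  refine isCompact_iff_compactSpace.1 (IsCompact.of_isClosed_subset
    (isCompact_univ_pi fun k : ℤ => (Finset.Icc (v.1 - |k|) (v.1 + |k|) ×ˢ
      Finset.Icc (v.2 - |k|) (v.2 + |k|)).finite_toSet.isCompact) ?_
    fun γ hγ k _ => walk_bound hγ.1 hγ.2 k)
  change IsClosed {γ : ℤ → V | γ 0 = v ∧ ∀ i, Adj (γ i) (γ (i + 1))}
  rw [show {γ : ℤ → V | γ 0 = v ∧ ∀ i, Adj (γ i) (γ (i + 1))} =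
    {γ | γ 0 = v} ∩ ⋂ i, {γ | Adj (γ i) (γ (i + 1))} by ext; simp]
  exact ((isClosed_discrete ({v} : Set V)).preimage (continuous_apply (A := fun _ : ℤ => V) 0)).inter
    (isClosed_iInter fun i => IsClosed.preimage (f := fun γ : ℤ → V => (γ i, γ (i + 1)))
      ((continuous_apply i).prodMk (continuous_apply (i + 1)))
      (isClosed_discrete {p : V × V | Adj p.1 p.2}))

instance (v : V) : Nonempty (Seq0 v) :=
  ⟨⟨fun i => (v.1 + i, v.2), by simp, fun i => by simp only [Adj]; omega⟩⟩

/-- The edge at position `p` of the backward half. -/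
def bEdge (γ : ℤ → V) (p : ℕ) : Sym2 V := s(γ (-(p : ℤ) - 1), γ (-(p : ℤ) - 1 + 1))

lemma bEdge_rev (γ : ℤ → V) (p : ℕ) :
    bEdge (rev γ) p = s(γ p, γ ((p : ℤ) + 1)) := by
  rw [bEdge, rev, rev, Sym2.eq_swap]
  ring_nf

lemma continuous_rev : Continuous (rev : (ℤ → V) → ℤ → V) :=
  continuous_pi fun _ => continuous_apply _

lemma isClosed_bEdge_ne (p : ℕ) (e : Sym2 V) : IsClosed {γ : ℤ → V | bEdge γ p ≠ e} :=
  IsClosed.preimage (f := fun γ : ℤ → V => (γ (-(p : ℤ) - 1), γ (-(p : ℤ) - 1 + 1)))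
    ((continuous_apply (-(p : ℤ) - 1)).prodMk (continuous_apply (-(p : ℤ) - 1 + 1)))
    (isClosed_discrete {q : V × V | s(q.1, q.2) ≠ e})

lemma isClosed_isLine : IsClosed {q : Env × (ℤ → V) | IsLine q.1 q.2} := by
  have hset : {q : Env × (ℤ → V) | IsLine q.1 q.2} =
      (⋂ i : ℤ, (fun q : Env × (ℤ → V) => (q.2 i, q.2 (i + 1))) ⁻¹' {p | Adj p.1 p.2}) ∩
      (⋂ (i : ℤ) (j : ℤ) (_ : i ≠ j), (fun q : Env × (ℤ → V) => (q.2 i, q.2 j)) ⁻¹' {p | p.1 ≠ p.2}) ∩
      (⋂ (i : ℤ) (j : ℤ) (_ : i ≤ j) (l : List V),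
        {q | Joins l (q.2 i) (q.2 j) → seg q.1 q.2 i j ≤ wt q.1 l}) := by
    ext q
    simp only [Set.mem_inter_iff, Set.mem_iInter, Set.mem_preimage, Set.mem_ofPred_eq]
    exact ⟨fun h => ⟨⟨h.adj, fun i j hne he => hne (h.inj he)⟩, fun i j hij l => h.geo i j hij l⟩,
      fun ⟨⟨ha, hi⟩, hg⟩ => ⟨ha, fun i j he => by_contra fun hne => hi i j hne he,
        fun i j hij l => hg i j hij l⟩⟩
  rw [hset]
  have hc : ∀ i : ℤ, Continuous fun q : Env × (ℤ → V) => q.2 i := fun i =>
    (continuous_apply i).comp continuous_snd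
  refine ((isClosed_iInter fun i => (isClosed_discrete _).preimage ((hc i).prodMk (hc (i + 1)))).inter
    (isClosed_iInter fun i => isClosed_iInter fun j => isClosed_iInter fun _ =>
      (isClosed_discrete _).preimage ((hc i).prodMk (hc j)))).inter
    (isClosed_iInter fun i => isClosed_iInter fun j => isClosed_iInter fun _ =>
      isClosed_iInter fun l => ?_)
  simp only [imp_iff_not_or, Set.ofPred_or]
  refine (((isOpen_discrete {p : V × V | Joins l p.1 p.2}).preimage
    ((hc i).prodMk (hc j))).isClosed_compl).union ?_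
  have hw : ∀ l : List V, Continuous fun q : Env × (ℤ → V) => wt q.1 l := by
    intro l
    induction l with
    | nil => exact continuous_const
    | cons x r ih =>
      cases r with
      | nil => exact continuous_const
      | cons z r' => exact ((continuous_apply s(x, z)).comp continuous_fst).add ih
  refine isClosed_le (continuous_finsetSum _ fun k _ => ?_) (hw l)
  refine continuous_iff_continuousAt.2 fun q => ?_
  have h1 : ∀ᶠ q' in 𝓝 q, q'.1 s(q'.2 k, q'.2 (k + 1)) = q'.1 s(q.2 k, q.2 (k + 1)) := by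
    filter_upwards [((hc k).prodMk (hc (k + 1))).tendsto q |>.eventually
      (p := fun z => z = (q.2 k, q.2 (k + 1))) (by rw [nhds_discrete]; exact eventually_pure.2 rfl)]
      with q' hq'
    simp only [Prod.mk.injEq] at hq'
    rw [hq'.1, hq'.2]
  exact ((continuous_apply _).comp continuous_fst).continuousAt.congr
    (h1.mono fun _ h => h.symm)

/-- Junk below a nonnegative semicontinuous function keeps it semicontinuous. -/
lemma usc_ite {X : Type*} [TopologicalSpace X] {C : Set X} (hC : IsClosed C)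
    [DecidablePred (· ∈ C)] {g : X → ℝ} (hg : UpperSemicontinuous g) (h0 : ∀ x, 0 ≤ g x) :
    UpperSemicontinuous fun x => if x ∈ C then g x else -1 := by
  intro x y hy
  by_cases hx : x ∈ C
  · simp only [hx, if_true] at hy
    filter_upwards [hg x y hy] with x' hx'
    split_ifs
    · exact hx'
    · linarith [h0 x]
  · simp only [hx, if_false] at hy
    filter_upwards [hC.isOpen_compl.mem_nhds hx] with x' hx'
    simp only [Set.mem_compl_iff] at hx'
    simp only [hx', if_false]
    exact hy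

/-- The stretches of length `n` from `v`, from step codes. -/
def walkPts (v : V) {n : ℕ} (c : Fin n → Fin 4) : ℕ → V
  | 0 => v
  | p + 1 => walkPts v c p + if h : p < n then ![(1, 0), (-1, 0), (0, 1), (0, -1)] (c ⟨p, h⟩) else 0

open Classical in
/-- The possible edge sets of backward stretches from `v`. -/
noncomputable def stretches (v : V) (n : ℕ) : Finset (Finset (Sym2 V)) :=
  ((Finset.univ : Finset (Fin n → Fin 4)).image fun c => (Finset.range n).image fun p =>
    s(walkPts v c (p + 1), walkPts v c p)).filter fun s => s.card = n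

lemma card_stretches (v : V) (n : ℕ) : (stretches v n).card ≤ 4 ^ n := by
  refine (Finset.card_filter_le _ _).trans (Finset.card_image_le.trans ?_)
  simp

lemma size_stretches (v : V) (n : ℕ) : ∀ s ∈ stretches v n, s.card = n := fun s hs => by
  simp only [stretches, Finset.mem_filter] at hs
  exact hs.2

lemma mem_stretches {v : V} {γ : ℤ → V} (h0 : γ 0 = v) (h : ∀ i, Adj (γ i) (γ (i + 1)))
    (hinj : Function.Injective γ) (n : ℕ) :
    (Finset.range n).image (bEdge γ) ∈ stretches v n := by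
  have hstep : ∀ p : ℕ, ∃ c : Fin 4,
      γ (-(p : ℤ) - 1) = γ (-(p : ℤ)) + ![((1 : ℤ), (0 : ℤ)), (-1, 0), (0, 1), (0, -1)] c := by
    intro p
    have hp := h (-(p : ℤ) - 1)
    rw [sub_add_cancel] at hp
    revert hp
    generalize γ (-(p : ℤ) - 1) = x
    generalize γ (-(p : ℤ)) = y
    obtain ⟨x1, x2⟩ := x
    obtain ⟨y1, y2⟩ := y
    intro hp
    simp only [Adj] at hp
    rcases (by omega : (x1 = y1 + 1 ∧ x2 = y2) ∨ (x1 = y1 - 1 ∧ x2 = y2) ∨
      (x1 = y1 ∧ x2 = y2 + 1) ∨ (x1 = y1 ∧ x2 = y2 - 1)) with h' | h' | h' | h'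
    · exact ⟨0, by simp [h'.1, h'.2]⟩
    · exact ⟨1, by simp [h'.1, h'.2, sub_eq_add_neg]⟩
    · exact ⟨2, by simp [h'.1, h'.2]⟩
    · exact ⟨3, by simp [h'.1, h'.2, sub_eq_add_neg]⟩
  choose c hc using hstep
  have hwalk : ∀ p, p ≤ n → walkPts v (fun i : Fin n => c i) p = γ (-(p : ℤ)) := by
    intro p hp
    induction p with
    | zero => simpa [walkPts] using h0.symm
    | succ p ih =>
      simp only [walkPts, ih (by omega), show p < n by omega, dif_pos]
      rw [← hc p]
      push_cast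
      ring_nf
  have hedge : ∀ p ∈ Finset.range n,
      bEdge γ p = s(walkPts v (fun i : Fin n => c i) (p + 1), walkPts v (fun i : Fin n => c i) p) := by
    intro p hp
    simp only [Finset.mem_range] at hp
    rw [hwalk p hp.le, hwalk (p + 1) hp, bEdge]
    push_cast
    ring_nf
  simp only [stretches, Finset.mem_filter, Finset.mem_image, Finset.mem_univ, true_and]
  refine ⟨⟨fun i : Fin n => c i, (Finset.image_congr fun p hp => hedge p hp).symm⟩, ?_⟩
  rw [Finset.card_image_of_injective _ fun p p' hpp => ?_, Finset.card_range]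
  have := edge_inj hinj hpp
  omega

end Vale.Agent.P158.Key
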