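import Vale.Agent.P158.Crossing

/-!
P158: the exits of a line from large squares, and Monge pairs from exits that are not interlaced.
-/

namespace Vale.Agent.P158

open Planar

lemma finite_box (r : ℕ) : (box r).Finite :=
  ((Set.finite_Icc (-(r : ℤ)) r).prod (Set.finite_Icc (-(r : ℤ)) r)).subset fun x hx => by
    unfold box at hx
    simp only [Set.mem_ofPred_eq, Set.mem_prod, Set.mem_Icc] at *
    omega

/-- The radius of a point. -/
def rad (x : V) : ℕ := max x.1.natAbs x.2.natAbs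

lemma mem_box_iff {r : ℕ} {x : V} : x ∈ box r ↔ rad x ≤ r := by
  unfold box rad; simp only [Set.mem_ofPred_eq]; omega

lemma mem_bd_iff {r : ℕ} {x : V} : x ∈ bd r ↔ rad x = r := by
  unfold bd box rad; simp only [Set.mem_ofPred_eq]; omega

lemma rad_adj {x y : V} (h : Adj x y) : rad y ≤ rad x + 1 := by
  unfold Adj at h; unfold rad; omega

/-- The line reaches the boundary of every square which contains its origin in the interior. -/
lemma exists_first_exit {γ : ℤ → V} (hadj : ∀ i, Adj (γ i) (γ (i + 1)))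
    (hinj : Function.Injective γ) {r : ℕ} (h0 : rad (γ 0) < r) :
    ∃ j : ℤ, 0 < j ∧ rad (γ j) = r ∧ ∀ k, 0 ≤ k → k < j → rad (γ k) < r := by
  classical
  have hex : ∃ n : ℕ, r ≤ rad (γ n) := by
    by_contra hno
    push Not at hno
    have hinjn : Function.Injective fun n : ℕ => γ n := fun a b hab => by
      have := hinj hab; omega
    refine Set.infinite_range_of_injective hinjn ((finite_box r).subset ?_)
    rintro _ ⟨n, rfl⟩
    exact mem_box_iff.mpr (hno n).le
  have hn := Nat.find_spec hex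
  have hmin : ∀ k : ℕ, k < Nat.find hex → rad (γ k) < r := fun k hk =>
    Nat.lt_of_not_le (Nat.find_min hex hk)
  rcases hf : Nat.find hex with _ | n
  · rw [hf] at hn; simp only [Nat.cast_zero] at hn; omega
  · rw [hf] at hn hmin
    refine ⟨((n + 1 : ℕ) : ℤ), by omega, ?_, fun k hk hkj => ?_⟩
    · have h1 := hmin n (by omega)
      have h2 := rad_adj (hadj n)
      have h3 : rad (γ ((n + 1 : ℕ) : ℤ)) ≤ rad (γ n) + 1 := by simpa using h2
      omega
    · have := hmin k.toNat (by omega)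
      rwa [Int.toNat_of_nonneg hk] at this

/-- A line has exits from every square which contains its origin in the interior. -/
theorem exists_exits {t : Env} {γ : ℤ → V} (h : IsLine t γ) {r : ℕ} (h0 : rad (γ 0) < r) :
    ∃ i j, Exits γ r i j := by
  obtain ⟨j, hj0, hj, hjm⟩ := exists_first_exit h.adj h.inj h0
  obtain ⟨i, hi0, hi, him⟩ := exists_first_exit (γ := rev γ) h.adj_rev h.reverse.inj
    (by simpa [rev] using h0)
  refine ⟨-i, j, by omega, hj0, mem_bd_iff.mpr (by simpa [rev] using hi), mem_bd_iff.mpr hj,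
    fun k hk hkj => ?_⟩
  have hk' : rad (γ k) < r := by
    rcases le_total 0 k with hle | hle
    · exact hjm k hle hkj
    · simpa [rev] using him (-k) (by omega) (by omega)
  exact ⟨mem_box_iff.mpr hk'.le, fun hbd => by have := mem_bd_iff.mp hbd; omega⟩

/-- A line has exits from all large squares. -/
theorem exists_exits_large {t : Env} {γ : ℤ → V} (h : IsLine t γ) :
    ∃ r0, ∀ r, r0 ≤ r → ∃ i j, Exits γ r i j :=
  ⟨rad (γ 0) + 1, fun _ hr => exists_exits h hr⟩

/-- The exits pass any given index. -/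
lemma exits_wide (γ : ℤ → V) (N : ℕ) : ∃ r0, ∀ r i j, r0 ≤ r → Exits γ r i j →
    i < -(N : ℤ) ∧ (N : ℤ) < j := by
  refine ⟨(Finset.Icc (-(N : ℤ)) N).sup (fun k => rad (γ k)) + 1, ?_⟩
  rintro r i j hr ⟨hi0, hj0, hi, hj, -⟩
  have hsmall : ∀ k : ℤ, -(N : ℤ) ≤ k → k ≤ N → rad (γ k) < r := fun k h1 h2 => by
    have := Finset.le_sup (f := fun k => rad (γ k)) (Finset.mem_Icc.mpr ⟨h1, h2⟩)
    omega
  constructor <;> by_contra hc <;> push Not at hc
  · have := hsmall i hc (by omega); have := mem_bd_iff.mp hi; omega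
  · have := hsmall j (by omega) hc; have := mem_bd_iff.mp hj; omega

/-- The part of a line between the exits lies in the square. -/
lemma Exits.mem_square {γ : ℤ → V} {r : ℕ} {i j : ℤ} (h : Exits γ r i j) {k : ℤ} (h1 : i ≤ k)
    (h2 : k ≤ j) : γ k ∈ box r := by
  rcases eq_or_lt_of_le h1 with rfl | h1
  · exact h.2.2.1.1
  rcases eq_or_lt_of_le h2 with rfl | h2
  · exact h.2.2.2.1.1
  exact (h.2.2.2.2 k h1 h2).1

/-- If the diagonal chords between the exits of two lines are interlaced in arbitrarily large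
squares, the lines form a Monge pair. -/
theorem monge_of_exits {t : Env} (hn : Nice t) (hb : NoBranch t) {γ γ' : ℤ → V}
    (h : IsLine t γ) (h' : IsLine t γ') (hne : Set.range γ ≠ Set.range γ')
    (hr : ∀ r0, ∃ r ≥ r0, ∃ i j i' j', Exits γ r i j ∧ Exits γ' r i' j' ∧
      Interl (idx r (γ i)) (idx r (γ' j')) (idx r (γ j)) (idx r (γ' i'))) :
    MongePair t γ γ' := by
  classical
  have hfin := finite_common hn hb h h' hne
  have hfin' := finite_common hn hb h' h (Ne.symm hne)
  obtain ⟨B, hB⟩ := (hfin.union hfin').image Int.natAbs |>.bddAbove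
  refine ⟨(B : ℤ) + 1, fun a b c d ha hb' hc hd => ?_⟩
  have hp := hn.nonneg
  -- common points have small indices
  have hcommon : ∀ k k' : ℤ, γ k = γ' k' → k.natAbs ≤ B ∧ k'.natAbs ≤ B := fun k k' e =>
    ⟨hB ⟨k, Or.inl ⟨k', e.symm⟩, rfl⟩, hB ⟨k', Or.inr ⟨k, e⟩, rfl⟩⟩
  obtain ⟨π1, hπ1, -, hw1⟩ := exists_geodesic hn (γ' (-a)) (γ d)
  obtain ⟨π2, hπ2, -, hw2⟩ := exists_geodesic hn (γ (-c)) (γ' b)
  obtain ⟨N1, hN1⟩ := exits_wide γ (c.natAbs + d.natAbs)
  obtain ⟨N2, hN2⟩ := exits_wide γ' (a.natAbs + b.natAbs)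
  obtain ⟨r, hr0, i, j, i', j', he, he', hI⟩ :=
    hr (N1 + N2 + (π1.toFinset ∪ π2.toFinset).sup rad)
  obtain ⟨hic, hdj⟩ := hN1 r i j (by omega) he
  obtain ⟨hia, hbj⟩ := hN2 r i' j' (by omega) he'
  have hπbox : ∀ u, (u ∈ π1 ∨ u ∈ π2) → u ∈ box r := fun u hu => by
    refine mem_box_iff.mpr ?_
    have := Finset.le_sup (f := rad) (s := π1.toFinset ∪ π2.toFinset) (b := u)
      (by simpa using hu)
    omega
  -- the two long walks
  obtain ⟨P1, hP1, -, hP1m⟩ := (h.joins (show i ≤ -c by omega)).exists_trans t hπ2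
  obtain ⟨P, hP, -, hPm⟩ := hP1.exists_trans t (h'.joins (show b ≤ j' by omega))
  obtain ⟨Q1, hQ1, -, hQ1m⟩ := (h'.joins (show i' ≤ -a by omega)).exists_trans t hπ1
  obtain ⟨Q, hQ, -, hQm⟩ := hQ1.exists_trans t (h.joins (show d ≤ j by omega))
  have memP : ∀ u, u ∈ P → (∃ k, i ≤ k ∧ k ≤ -c ∧ γ k = u) ∨ u ∈ π2 ∨
      (∃ k, b ≤ k ∧ k ≤ j' ∧ γ' k = u) := fun u hu => by
    rcases (hPm u).mp hu with hu | hu
    · rcases (hP1m u).mp hu with hu | hu
      · obtain ⟨k, k1, k2, k3⟩ := mem_segList.mp hu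
        exact Or.inl ⟨k, k1, by omega, k3⟩
      · exact Or.inr (Or.inl hu)
    · obtain ⟨k, k1, k2, k3⟩ := mem_segList.mp hu
      exact Or.inr (Or.inr ⟨k, k1, by omega, k3⟩)
  have memQ : ∀ u, u ∈ Q → (∃ k, i' ≤ k ∧ k ≤ -a ∧ γ' k = u) ∨ u ∈ π1 ∨
      (∃ k, d ≤ k ∧ k ≤ j ∧ γ k = u) := fun u hu => by
    rcases (hQm u).mp hu with hu | hu
    · rcases (hQ1m u).mp hu with hu | hu
      · obtain ⟨k, k1, k2, k3⟩ := mem_segList.mp hu
        exact Or.inl ⟨k, k1, by omega, k3⟩
      · exact Or.inr (Or.inl hu)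
    · obtain ⟨k, k1, k2, k3⟩ := mem_segList.mp hu
      exact Or.inr (Or.inr ⟨k, k1, by omega, k3⟩)
  have subP : ∀ u ∈ P, u ∈ box r := fun u hu => by
    rcases memP u hu with ⟨k, k1, k2, rfl⟩ | hu | ⟨k, k1, k2, rfl⟩
    · exact he.mem_square k1 (by omega)
    · exact hπbox u (Or.inr hu)
    · exact he'.mem_square (by omega) k2
  have subQ : ∀ u ∈ Q, u ∈ box r := fun u hu => by
    rcases memQ u hu with ⟨k, k1, k2, rfl⟩ | hu | ⟨k, k1, k2, rfl⟩
    · exact he'.mem_square k1 (by omega)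
    · exact hπbox u (Or.inl hu)
    · exact he.mem_square (by omega) k2
  have hI' : Interl (idx r (γ i)) (idx r (γ' j')) (idx r (γ' i')) (idx r (γ j)) := by
    obtain ⟨x1, x2, x3, x4, e⟩ := hI
    exact ⟨x3, x4, x1, x2, fun h1 h2 => e.mp h2 h1, fun h1 => not_not.mp fun h2 => h1 (e.mpr h2)⟩
  obtain ⟨u, huP, huQ⟩ := cross hP subP hQ subQ he.2.2.1 he'.2.2.2.1 he'.2.2.1 he.2.2.2.1 hI'
  have sA := h'.seg_eq_T hp (show -a ≤ b by omega)
  have sC := h.seg_eq_T hp (show -c ≤ d by omega)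
  rw [sA, sC]
  rcases memP u huP with ⟨k, k1, k2, hk⟩ | hu2 | ⟨k, k1, k2, hk⟩ <;>
    rcases memQ u huQ with ⟨k', k1', k2', hk'⟩ | hu1 | ⟨k', k1', k2', hk'⟩
  · exfalso; have := hcommon k k' (hk.trans hk'.symm); omega
  · -- the first diagonal passes a far point of the backward half of `γ`
    have h1 := T_add_le hp hπ1 hu1
    have h2 := h.seg_eq_T hp (show k ≤ -c by omega)
    have h3 := h.seg_eq_T hp (show k ≤ d by omega)
    have h4 := seg_add (t := t) (γ := γ) (show k ≤ -c by omega) (show -c ≤ d by omega)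
    have h5 := T_triangle hp (γ' (-a)) (γ k) (γ (-c))
    have h6 := T_triangle hp (γ' (-a)) (γ (-c)) (γ' b)
    rw [← hk] at h1
    linarith
  · exfalso; have := h.inj (hk.trans hk'.symm); omega
  · -- the second diagonal passes a far point of the backward half of `γ'`
    have h1 := T_add_le hp hπ2 hu2
    have h2 := h'.seg_eq_T hp (show k' ≤ -a by omega)
    have h3 := h'.seg_eq_T hp (show k' ≤ b by omega)
    have h4 := seg_add (t := t) (γ := γ') (show k' ≤ -a by omega) (show -a ≤ b by omega)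
    have h5 := T_triangle hp (γ (-c)) (γ' k') (γ' (-a))
    have h6 := T_triangle hp (γ (-c)) (γ' (-a)) (γ d)
    rw [← hk'] at h1
    linarith
  · have h1 := T_add_le hp hπ1 hu1
    have h2 := T_add_le hp hπ2 hu2
    linarith [T_triangle hp (γ' (-a)) u (γ' b), T_triangle hp (γ (-c)) u (γ d)]
  · -- the second diagonal passes a far point of the forward half of `γ`
    have h1 := T_add_le hp hπ2 hu2
    have h2 := h.seg_eq_T hp (show d ≤ k' by omega)
    have h3 := h.seg_eq_T hp (show -c ≤ k' by omega)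
    have h4 := seg_add (t := t) (γ := γ) (show -c ≤ d by omega) (show d ≤ k' by omega)
    have h5 := T_triangle hp (γ d) (γ k') (γ' b)
    have h6 := T_triangle hp (γ' (-a)) (γ d) (γ' b)
    rw [← hk'] at h1
    linarith
  · exfalso; have := h'.inj (hk.trans hk'.symm); omega
  · -- the first diagonal passes a far point of the forward half of `γ'`
    have h1 := T_add_le hp hπ1 hu1
    have h2 := h'.seg_eq_T hp (show b ≤ k by omega)
    have h3 := h'.seg_eq_T hp (show -a ≤ k by omega)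
    have h4 := seg_add (t := t) (γ := γ') (show -a ≤ b by omega) (show b ≤ k by omega)
    have h5 := T_triangle hp (γ' b) (γ' k) (γ d)
    have h6 := T_triangle hp (γ (-c)) (γ' b) (γ d)
    rw [← hk] at h1
    linarith
  · exfalso; have := hcommon k' k (hk'.trans hk.symm); omega

end Vale.Agent.P158
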