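import Vale.Agent.P158.Box
import Vale.Agent.P158.Exits

/-!
P158: the two counts in the form used by the assembly.
-/

namespace Vale.Agent.P158

lemma crossAt (r : ℕ) : CrossAt r := fun _ _ _ _ _ _ hP hQ hPs hQs hx hy hx' hy' h =>
  Planar.cross hP hPs hQ hQs hx hy hx' hy' h

/-- Branch points with a good shared half are few. -/
theorem card_branchPt_le (t : Env) (r1 r2 : ℕ) (S : ℝ) (N : ℕ) (c : List V) (hn : Nice t)
    (hc : Ring t r1 r2 S N c) (R L : ℕ) (M : ℝ) (hM : 0 < M) (hLR : R + L < r1) (F : Finset V)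
    (hF : ∀ v ∈ F, v ∈ box L) (hP : ∀ v ∈ F, BranchPt t v R M) :
    (F.card : ℝ) ≤ (4 * S / M + 1) * N :=
  branch_count hn crossAt (fun _ h => exists_exits_large h) hc hM hLR F hF hP

/-- Points of lines good on both sides are few. -/
theorem card_linePt_le (t : Env) (r1 r2 : ℕ) (S : ℝ) (N D : ℕ) (c : List V) (hn : Nice t)
    (hnb : NoBranch t) (hc : Ring t r1 r2 S N c)
    (hlen : ∀ a ∈ c, ∀ b ∈ c, ∀ l, Joins l a b → l.Nodup → wt t l ≤ S → l.length ≤ D)
    (R L : ℕ) (M : ℝ) (hM : 0 < M) (hLR : R + L < r1)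
    (hII : ∀ γ γ', IsLine t γ → IsLine t γ' → Set.range γ ≠ Set.range γ' → GoodTwo t γ R M →
      GoodTwo t γ' R M → ¬ MongePair t γ γ')
    (F : Finset V) (hF : ∀ v ∈ F, v ∈ box L) (hP : ∀ v ∈ F, LinePt t v R M) :
    (F.card : ℝ) ≤ (16 * S / M + 1) * D :=
  line_count hn crossAt (fun _ h => exists_exits_large h)
    (fun _ _ h h' hne hr => monge_of_exits hn hnb h h' hne hr) hc hlen hM hLR hII F hF hP

end Vale.Agent.P158
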