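import Vale.Agent.P158.Defs

/-!
P158, discrete planarity: parity of crossings with a horizontal half line.  The parity of a lattice
walk is constant along walks avoiding it (closed case), and two walks in a rectangle with
interlaced ends on the boundary have a common vertex.
-/

namespace Vale.Agent.P158.Planar

/-- `1` if `P`, modulo two. -/
def ind (P : Prop) [Decidable P] : ZMod 2 := if P then 1 else 0

/-- Crossing of a step with the half line to the right of `p + (0, 1/2)`. -/
def cr (p u v : V) : ZMod 2 := ind (u.1 = v.1 ∧ p.1 < u.1 ∧ min u.2 v.2 = p.2)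

/-- Parity of the crossings of a walk. -/
def par (p : V) : List V → ZMod 2
  | u :: v :: l => cr p u v + par p (v :: l)
  | _ => 0

lemma par_cons_cons (p u v : V) (l : List V) : par p (u :: v :: l) = cr p u v + par p (v :: l) :=
  rfl

lemma zmod2_add_self (a : ZMod 2) : a + a = 0 := CharTwo.add_self_eq_zero a

/-- Telescoping along a walk. -/
lemma par_telescope {p q : V} {φ : V → ZMod 2} :
    ∀ {l : List V} {u : V}, List.IsChain Adj (u :: l) →
      (∀ a b, Adj a b → a ∈ u :: l → b ∈ u :: l → cr q a b + cr p a b = φ a + φ b) →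
      par q (u :: l) + par p (u :: l) = φ u + φ ((u :: l).getLast (List.cons_ne_nil _ _))
  | [], u, _, _ => by simp [par, zmod2_add_self]
  | v :: l, u, hc, h => by
      rw [List.isChain_cons_cons] at hc
      have h1 := h u v hc.1 (by simp) (by simp)
      have h2 := par_telescope (p := p) (q := q) (φ := φ) hc.2
        fun a b hab ha hb => h a b hab (List.mem_cons_of_mem _ ha) (List.mem_cons_of_mem _ hb)
      rw [par_cons_cons, par_cons_cons, List.getLast_cons (List.cons_ne_nil v l)]
      calc cr q u v + par q (v :: l) + (cr p u v + par p (v :: l))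
          = (cr q u v + cr p u v) + (par q (v :: l) + par p (v :: l)) := by ring
        _ = φ u + φ v + (φ v + φ ((v :: l).getLast (List.cons_ne_nil _ _))) := by rw [h1, h2]
        _ = φ u + (φ v + φ v) + φ ((v :: l).getLast (List.cons_ne_nil _ _)) := by ring
        _ = _ := by rw [zmod2_add_self, add_zero]

/-- A horizontal move off the walk does not change the parity. -/
lemma par_right {p : V} {l : List V} {u : V} (hc : List.IsChain Adj (u :: l))
    (hp : (p.1 + 1, p.2) ∉ u :: l) : par (p.1 + 1, p.2) (u :: l) = par p (u :: l) := by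
  have h := par_telescope (p := p) (q := (p.1 + 1, p.2)) (φ := fun _ => 0) hc fun a b hab ha hb => by
    have ea : a.1 ≠ p.1 + 1 ∨ a.2 ≠ p.2 := by
      by_contra hh; push Not at hh
      exact hp (by rw [← hh.1, ← hh.2]; exact ha)
    have eb : b.1 ≠ p.1 + 1 ∨ b.2 ≠ p.2 := by
      by_contra hh; push Not at hh
      exact hp (by rw [← hh.1, ← hh.2]; exact hb)
    unfold Adj at hab; unfold cr ind
    split_ifs <;> first | decide | (exfalso; simp only at *; omega)
  rw [add_zero] at h
  exact CharTwo.add_eq_zero.mp h

/-- A vertical move off the walk changes the parity by the ends in the new row. -/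
lemma par_up {p : V} {l : List V} {u : V} (hc : List.IsChain Adj (u :: l))
    (hp : (p.1, p.2 + 1) ∉ u :: l) :
    par (p.1, p.2 + 1) (u :: l) + par p (u :: l) = ind (u.2 = p.2 + 1 ∧ p.1 < u.1) +
      ind (((u :: l).getLast (List.cons_ne_nil _ _)).2 = p.2 + 1 ∧
        p.1 < ((u :: l).getLast (List.cons_ne_nil _ _)).1) := by
  refine par_telescope (φ := fun a => ind (a.2 = p.2 + 1 ∧ p.1 < a.1)) hc fun a b hab ha hb => ?_
  have ea : a.1 ≠ p.1 ∨ a.2 ≠ p.2 + 1 := by
    by_contra hh; push Not at hh
    exact hp (by rw [← hh.1, ← hh.2]; exact ha)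
  have eb : b.1 ≠ p.1 ∨ b.2 ≠ p.2 + 1 := by
    by_contra hh; push Not at hh
    exact hp (by rw [← hh.1, ← hh.2]; exact hb)
  unfold Adj at hab; unfold cr ind
  split_ifs <;> first | decide | (exfalso; simp only at *; omega)

/-- For a closed walk the parity is constant along steps off the walk. -/
lemma par_closed_nbr {l : List V} {u : V} (hc : List.IsChain Adj (u :: l))
    (hcl : (u :: l).getLast (List.cons_ne_nil _ _) = u) {p q : V} (hpq : Adj p q)
    (hp : p ∉ u :: l) (hq : q ∉ u :: l) : par p (u :: l) = par q (u :: l) := by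
  obtain ⟨p1, p2⟩ := p; obtain ⟨q1, q2⟩ := q
  have hcases : (q1 = p1 ∧ (q2 = p2 + 1 ∨ p2 = q2 + 1)) ∨ (q2 = p2 ∧ (q1 = p1 + 1 ∨ p1 = q1 + 1)) := by
    unfold Adj at hpq; simp only at hpq; omega
  rcases hcases with ⟨rfl, rfl | rfl⟩ | ⟨rfl, rfl | rfl⟩
  · have h := par_up (p := (_, p2)) hc hq
    rw [hcl, zmod2_add_self] at h
    exact (CharTwo.add_eq_zero.mp h).symm
  · have h := par_up (p := (_, q2)) hc hp
    rw [hcl, zmod2_add_self] at h
    exact CharTwo.add_eq_zero.mp h
  · exact (par_right (p := (p1, _)) hc hq).symm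
  · exact par_right (p := (q1, _)) hc hp

/-- Parity of the crossings of a row. -/
lemma row_parity (k : ℤ) : ∀ {l : List V} {u : V} (c : ℤ), List.IsChain Adj (u :: l) →
    (∀ z ∈ u :: l, c < z.1) →
      par (c, k) (u :: l) =
        ind (u.2 ≤ k) + ind (((u :: l).getLast (List.cons_ne_nil _ _)).2 ≤ k)
  | [], u, c, _, _ => (zmod2_add_self _).symm
  | v :: l, u, c, hc, hz => by
      rw [List.isChain_cons_cons] at hc
      rw [par_cons_cons, row_parity k c hc.2 fun z hz' => hz z (List.mem_cons_of_mem _ hz'),
        List.getLast_cons (List.cons_ne_nil v l)]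
      have h1 : cr (c, k) u v = ind (u.2 ≤ k) + ind (v.2 ≤ k) := by
        have := hc.1; have := hz u (by simp); have := hz v (by simp)
        unfold Adj at *; unfold cr ind
        split_ifs <;> first | decide | (exfalso; simp only at *; omega)
      rw [h1]
      calc ind (u.2 ≤ k) + ind (v.2 ≤ k) + (ind (v.2 ≤ k) + ind (((v :: l).getLast _).2 ≤ k))
          = ind (u.2 ≤ k) + (ind (v.2 ≤ k) + ind (v.2 ≤ k)) +
              ind (((v :: l).getLast _).2 ≤ k) := by ring
        _ = _ := by rw [zmod2_add_self, add_zero]

/-- No crossing if no step meets the half line. -/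
lemma par_eq_zero {p : V} : ∀ {l : List V}, (∀ z ∈ l, z.1 ≤ p.1) → par p l = 0
  | [], _ => rfl
  | [_], _ => rfl
  | u :: v :: l, h => by
      rw [par_cons_cons, par_eq_zero fun z hz => h z (List.mem_cons_of_mem _ hz)]
      have := h u (by simp); have := h v (by simp)
      unfold cr ind
      split_ifs <;> first | (exfalso; omega) | simp

lemma par_eq_zero' {p : V} : ∀ {l : List V}, (∀ z ∈ l, p.2 < z.2) → par p l = 0
  | [], _ => rfl
  | [_], _ => rfl
  | u :: v :: l, h => by
      rw [par_cons_cons, par_eq_zero' fun z hz => h z (List.mem_cons_of_mem _ hz)]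
      have := h u (by simp); have := h v (by simp)
      unfold cr ind
      split_ifs <;> first | (exfalso; omega) | simp

/-- No crossing above the walk. -/
lemma par_eq_zero_top {p : V} : ∀ {l : List V}, List.IsChain Adj l → (∀ z ∈ l, z.2 ≤ p.2) →
    par p l = 0
  | [], _, _ => rfl
  | [_], _, _ => rfl
  | u :: v :: l, hc, h => by
      rw [List.isChain_cons_cons] at hc
      rw [par_cons_cons, par_eq_zero_top hc.2 fun z hz => h z (List.mem_cons_of_mem _ hz)]
      have := h u (by simp); have := h v (by simp); have := hc.1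
      unfold Adj at *; unfold cr ind
      split_ifs <;> first | (exfalso; omega) | simp

lemma par_append_singleton {p : V} : ∀ {l : List V} (hl : l ≠ []) (b : V),
    par p (l ++ [b]) = par p l + cr p (l.getLast hl) b
  | [], hl, _ => absurd rfl hl
  | [u], _, b => by simp [par]
  | u :: v :: l, _, b => by
      simp only [List.cons_append, par_cons_cons]
      rw [← List.cons_append, par_append_singleton (List.cons_ne_nil v l) b,
        List.getLast_cons (List.cons_ne_nil v l)]
      ring

end Vale.Agent.P158.Planar
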