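import Vale.Agent.P158.Basic
import Vale.Agent.P158.Planar

/-!
P158, discrete planarity: two walks in a square with interlaced ends on its boundary share a
lattice point.  The side function of a walk is computed on the ring just outside the square.
-/

namespace Vale.Agent.P158.Planar

/-- The outer neighbour of a boundary point, in the order used by `idx`. -/
def ext (r : ℕ) (x : V) : V :=
  if x.2 = r then (x.1, (r : ℤ) + 1)
  else if x.1 = r then ((r : ℤ) + 1, x.2)
  else if x.2 = -(r : ℤ) then (x.1, -(r : ℤ) - 1)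
  else (-(r : ℤ) - 1, x.2)

/-- Correction of the parity at one end `a` on the outer ring. -/
def hs (r : ℕ) (a p : V) : ZMod 2 :=
  if a.1 = (r : ℤ) + 1 then ind (a.2 ≤ p.2) else ind (a.2 = r + 1 ∧ p.2 = r + 1 ∧ p.1 < a.1)

/-- The constant part of the side function on the ring. -/
def cst (r : ℕ) (a : V) : ZMod 2 := ind (a.2 = r ∨ a.1 = r)

lemma ext_adj {r : ℕ} {x : V} (hx : x ∈ bd r) : Adj x (ext r x) := by
  unfold bd box at hx; simp only [Set.mem_ofPred_eq] at hx
  unfold ext Adj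
  split_ifs <;> simp only <;> omega

lemma ext_mem {r : ℕ} {x : V} (hx : x ∈ bd r) : ext r x ∈ bd (r + 1) ∧ ext r x ∉ box r := by
  unfold bd box at *; simp only [Set.mem_ofPred_eq] at *
  unfold ext
  split_ifs <;> simp only <;> omega

lemma box_mono {r s : ℕ} (h : r ≤ s) : box r ⊆ box s := fun x hx => by
  unfold box at *; simp only [Set.mem_ofPred_eq] at *; omega

lemma ext_inj {r : ℕ} {x y : V} (hx : x ∈ bd r) (hy : y ∈ bd r) (h : ext r x = ext r y) : x = y := by
  obtain ⟨x1, x2⟩ := x; obtain ⟨y1, y2⟩ := y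
  unfold bd box at hx hy; simp only [Set.mem_ofPred_eq] at hx hy
  unfold ext at h
  split_ifs at h <;> simp only [Prod.mk.injEq] at * <;> omega

/-- The walk extended to the outer ring. -/
def extend (r : ℕ) (P : List V) (a b : V) : List V := ext r a :: (P ++ [ext r b])

variable {r : ℕ} {P : List V} {a b : V}

lemma extend_chain (hP : Joins P a b) (ha : a ∈ bd r) (hb : b ∈ bd r) :
    (extend r P a b).IsChain Adj := by
  unfold extend
  rw [List.isChain_cons, List.isChain_append]
  refine ⟨fun y hy => ?_, hP.walk, List.isChain_singleton _, fun y hy z hz => ?_⟩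
  · rw [List.head?_append, hP.first] at hy
    simp only [Option.some_or, Option.mem_some_iff] at hy
    have := ext_adj ha; subst hy
    unfold Adj at *; omega
  · rw [hP.last] at hy
    simp only [List.head?_cons, Option.mem_some_iff] at hy hz
    subst hy; subst hz; exact ext_adj hb

/-- The side function of `P`. -/
def side (r : ℕ) (P : List V) (a b p : V) : ZMod 2 :=
  par p (extend r P a b) + hs r (ext r a) p + hs r (ext r b) p

lemma side_nbr (hP : Joins P a b) (ha : a ∈ bd r) (hb : b ∈ bd r) {p q : V} (hpq : Adj p q)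
    (hpb : p ∈ box (r + 1)) (hqb : q ∈ box (r + 1))
    (hp : p ∉ extend r P a b) (hq : q ∉ extend r P a b) :
    side r P a b p = side r P a b q := by
  have hc := extend_chain hP ha hb
  have hlast : (extend r P a b).getLast (List.cons_ne_nil _ _) = ext r b := by simp [extend]
  -- it suffices to treat the moves to the right and upwards
  suffices H : ∀ p q : V, (q = (p.1 + 1, p.2) ∨ q = (p.1, p.2 + 1)) → p ∈ box (r + 1) →
      q ∈ box (r + 1) → q ∉ extend r P a b → side r P a b p = side r P a b q by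
    have hc4 : q = (p.1 + 1, p.2) ∨ q = (p.1, p.2 + 1) ∨ p = (q.1 + 1, q.2) ∨ p = (q.1, q.2 + 1) := by
      obtain ⟨p1, p2⟩ := p; obtain ⟨q1, q2⟩ := q
      unfold Adj at hpq; simp only [Prod.mk.injEq] at *; omega
    rcases hc4 with h | h | h | h
    · exact H p q (Or.inl h) hpb hqb hq
    · exact H p q (Or.inr h) hpb hqb hq
    · exact (H q p (Or.inl h) hqb hpb hp).symm
    · exact (H q p (Or.inr h) hqb hpb hp).symm
  rintro p q hstep hpb hqb hq
  have hA : ext r a ≠ q := fun h => hq (by simp [extend, h])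
  have hB : ext r b ≠ q := fun h => hq (by simp [extend, h])
  have rA := ext_mem ha
  have rB := ext_mem hb
  have cA : ¬ ((ext r a).1.natAbs = r + 1 ∧ (ext r a).2.natAbs = r + 1) := by
    have := ha; unfold bd box at this; simp only [Set.mem_ofPred_eq] at this
    unfold ext; split_ifs <;> simp only <;> omega
  have cB : ¬ ((ext r b).1.natAbs = r + 1 ∧ (ext r b).2.natAbs = r + 1) := by
    have := hb; unfold bd box at this; simp only [Set.mem_ofPred_eq] at this
    unfold ext; split_ifs <;> simp only <;> omega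
  rcases hstep with rfl | rfl
  · have h := par_right (p := p) hc hq
    have e : ∀ A : V, A ∈ bd (r + 1) → ¬ (A.1.natAbs = r + 1 ∧ A.2.natAbs = r + 1) →
        A ≠ (p.1 + 1, p.2) → hs r A p = hs r A (p.1 + 1, p.2) := by
      rintro ⟨A1, A2⟩ hA hcor hne
      obtain ⟨p1, p2⟩ := p
      unfold bd box at *; simp only [Set.mem_ofPred_eq, ne_eq, Prod.mk.injEq] at *
      unfold hs ind; simp only
      split_ifs <;> first | rfl | (exfalso; omega)
    unfold side
    rw [e _ rA.1 cA hA, e _ rB.1 cB hB]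
    exact congrArg₂ (· + ·) (congrArg₂ (· + ·) h.symm rfl) rfl
  · have h := par_up (p := p) hc hq
    rw [show ((ext r a :: (P ++ [ext r b])).getLast (List.cons_ne_nil _ _)) = ext r b from hlast] at h
    have e : ∀ A : V, A ∈ bd (r + 1) → ¬ (A.1.natAbs = r + 1 ∧ A.2.natAbs = r + 1) →
        A ≠ (p.1, p.2 + 1) →
        ind (A.2 = p.2 + 1 ∧ p.1 < A.1) = hs r A p + hs r A (p.1, p.2 + 1) := by
      rintro ⟨A1, A2⟩ hA hcor hne
      obtain ⟨p1, p2⟩ := p
      unfold bd box at *; simp only [Set.mem_ofPred_eq, ne_eq, Prod.mk.injEq] at *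
      unfold hs ind; simp only
      split_ifs <;> first | decide | (exfalso; omega)
    rw [e _ rA.1 cA hA, e _ rB.1 cB hB] at h
    unfold side
    apply CharTwo.add_eq_zero.mp
    calc par p (extend r P a b) + hs r (ext r a) p + hs r (ext r b) p +
        (par (p.1, p.2 + 1) (extend r P a b) + hs r (ext r a) (p.1, p.2 + 1) +
          hs r (ext r b) (p.1, p.2 + 1))
        = (par (p.1, p.2 + 1) (extend r P a b) + par p (extend r P a b)) +
          (hs r (ext r a) p + hs r (ext r a) (p.1, p.2 + 1) +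
            (hs r (ext r b) p + hs r (ext r b) (p.1, p.2 + 1))) := by ring
      _ = 0 := by rw [show par (p.1, p.2 + 1) (extend r P a b) + par p (extend r P a b) =
            _ from h, zmod2_add_self]

lemma side_chain (hP : Joins P a b) (ha : a ∈ bd r) (hb : b ∈ bd r) :
    ∀ {Q : List V} (_hQ : Q.IsChain Adj), (∀ z ∈ Q, z ∈ box (r + 1) ∧ z ∉ extend r P a b) →
      ∀ {x y : V}, x ∈ Q → y ∈ Q → side r P a b x = side r P a b y
  | [], _, _, _, _, hx, _ => by simp at hx
  | [u], _, _, x, y, hx, hy => by simp only [List.mem_singleton] at hx hy; rw [hx, hy]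
  | u :: v :: Q, hQ, h, x, y, hx, hy => by
      rw [List.isChain_cons_cons] at hQ
      have ih := fun {x y : V} => side_chain hP ha hb hQ.2
        (fun z hz => h z (List.mem_cons_of_mem _ hz)) (x := x) (y := y)
      have huv := side_nbr hP ha hb hQ.1 (h u (by simp)).1 (h v (by simp)).1 (h u (by simp)).2
        (h v (by simp)).2
      have to_v : ∀ z ∈ u :: v :: Q, side r P a b z = side r P a b v := fun z hz => by
        rcases List.mem_cons.mp hz with rfl | hz
        · exact huv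
        · exact ih hz (by simp)
      rw [to_v x hx, to_v y hy]

/-- The four sides, in the order used by `idx`. -/
lemma sides {x : V} (hx : x ∈ bd r) :
    (x.2 = r ∧ -(r : ℤ) ≤ x.1 ∧ x.1 ≤ r ∧ ext r x = (x.1, (r : ℤ) + 1) ∧ (idx r x : ℤ) = x.1 + r) ∨
    (x.1 = r ∧ -(r : ℤ) ≤ x.2 ∧ x.2 < r ∧ ext r x = ((r : ℤ) + 1, x.2) ∧
      (idx r x : ℤ) = 3 * r - x.2) ∨
    (x.2 = -(r : ℤ) ∧ -(r : ℤ) ≤ x.1 ∧ x.1 < r ∧ ext r x = (x.1, -(r : ℤ) - 1) ∧
      (idx r x : ℤ) = 5 * r - x.1) ∨
    (x.1 = -(r : ℤ) ∧ -(r : ℤ) < x.2 ∧ x.2 < r ∧ ext r x = (-(r : ℤ) - 1, x.2) ∧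
      (idx r x : ℤ) = 7 * r + x.2) := by
  unfold bd box at hx; simp only [Set.mem_ofPred_eq] at hx
  unfold ext idx
  split_ifs with h1 h2 h3
  · exact Or.inl ⟨h1, by omega, by omega, rfl, by omega⟩
  · exact Or.inr (Or.inl ⟨h2, by omega, by omega, rfl, by omega⟩)
  · exact Or.inr (Or.inr (Or.inl ⟨h3, by omega, by omega, rfl, by omega⟩))
  · exact Or.inr (Or.inr (Or.inr ⟨by omega, by omega, by omega, rfl, by omega⟩))

lemma ring_top {A1 A2 x1 x2 : ℤ} (hA : (A1, A2) ∈ bd r) (hne : ¬ (A1 = x1 ∧ A2 = x2))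
    (x0 : x2 = r) (x3 : -(r : ℤ) ≤ x1 ∧ x1 ≤ r) (ix : (idx r (x1, x2) : ℤ) = x1 + r) :
    cr (x1, (r : ℤ) + 1) (A1, A2) (ext r (A1, A2)) + (0 : ZMod 2) + hs r (ext r (A1, A2)) (x1, (r : ℤ) + 1) =
      cst r (A1, A2) + ind (idx r (A1, A2) < idx r (x1, x2)) := by
  rcases sides hA with ⟨a0, a1, a2, ea, ia⟩ | ⟨a0, a1, a2, ea, ia⟩ | ⟨a0, a1, a2, ea, ia⟩ |
      ⟨a0, a1, a2, ea, ia⟩ <;>
    (rw [ea]; simp only at a0 a1 a2 ia; unfold cr hs cst ind; simp only;
     split_ifs <;> first | decide | (exfalso; omega) | (exfalso; simp only [true_and] at *; omega))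

lemma ring_right {A1 A2 x1 x2 : ℤ} (hA : (A1, A2) ∈ bd r) (_hne : ¬ (A1 = x1 ∧ A2 = x2))
    (_x0 : x1 = r) (x3 : -(r : ℤ) ≤ x2 ∧ x2 < r) (ix : (idx r (x1, x2) : ℤ) = 3 * r - x2) :
    cr ((r : ℤ) + 1, x2) (A1, A2) (ext r (A1, A2)) + (0 : ZMod 2) + hs r (ext r (A1, A2)) ((r : ℤ) + 1, x2) =
      cst r (A1, A2) + ind (idx r (A1, A2) < idx r (x1, x2)) := by
  rcases sides hA with ⟨a0, a1, a2, ea, ia⟩ | ⟨a0, a1, a2, ea, ia⟩ | ⟨a0, a1, a2, ea, ia⟩ |
      ⟨a0, a1, a2, ea, ia⟩ <;>
    (rw [ea]; simp only at a0 a1 a2 ia; unfold cr hs cst ind; simp only;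
     split_ifs <;> first | decide | (exfalso; omega))

lemma ring_bottom {A1 A2 x1 x2 : ℤ} (hA : (A1, A2) ∈ bd r) (_hne : ¬ (A1 = x1 ∧ A2 = x2))
    (_x0 : x2 = -(r : ℤ)) (x3 : -(r : ℤ) ≤ x1 ∧ x1 < r) (ix : (idx r (x1, x2) : ℤ) = 5 * r - x1) :
    cr (x1, -(r : ℤ) - 1) (A1, A2) (ext r (A1, A2)) + (0 : ZMod 2) + hs r (ext r (A1, A2)) (x1, -(r : ℤ) - 1) =
      cst r (A1, A2) + ind (idx r (A1, A2) < idx r (x1, x2)) := by
  rcases sides hA with ⟨a0, a1, a2, ea, ia⟩ | ⟨a0, a1, a2, ea, ia⟩ | ⟨a0, a1, a2, ea, ia⟩ |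
      ⟨a0, a1, a2, ea, ia⟩ <;>
    (rw [ea]; simp only at a0 a1 a2 ia; unfold cr hs cst ind; simp only;
     split_ifs <;> first | decide | (exfalso; omega) | (exfalso; simp only [true_and] at *; omega))

lemma ring_left {A1 A2 x1 x2 : ℤ} (hA : (A1, A2) ∈ bd r) (hne : ¬ (A1 = x1 ∧ A2 = x2))
    (x0 : x1 = -(r : ℤ)) (x3 : -(r : ℤ) < x2 ∧ x2 < r) (ix : (idx r (x1, x2) : ℤ) = 7 * r + x2) :
    cr (-(r : ℤ) - 1, x2) (A1, A2) (ext r (A1, A2)) + ind (A2 ≤ x2) + hs r (ext r (A1, A2)) (-(r : ℤ) - 1, x2) =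
      cst r (A1, A2) + ind (idx r (A1, A2) < idx r (x1, x2)) := by
  rcases sides hA with ⟨a0, a1, a2, ea, ia⟩ | ⟨a0, a1, a2, ea, ia⟩ | ⟨a0, a1, a2, ea, ia⟩ |
      ⟨a0, a1, a2, ea, ia⟩ <;>
    (rw [ea]; simp only at a0 a1 a2 ia; unfold cr hs cst ind; simp only;
     split_ifs <;> first | decide | (exfalso; omega))

/-- The contribution of one end to the side function on the ring. -/
lemma ring_term {A x : V} (hA : A ∈ bd r) (hx : x ∈ bd r) (hne : A ≠ x) :
    cr (ext r x) A (ext r A) +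
        ind (¬ (x.2 = r ∨ x.1 = r ∨ x.2 = -(r : ℤ))) * ind (A.2 ≤ x.2) + hs r (ext r A) (ext r x) =
      cst r A + ind (idx r A < idx r x) := by
  obtain ⟨A1, A2⟩ := A; obtain ⟨x1, x2⟩ := x
  have hne' : ¬ (A1 = x1 ∧ A2 = x2) := fun h => hne (by rw [h.1, h.2])
  rcases sides hx with ⟨x0, x3, x4, ex, ix⟩ | ⟨x0, x3, x4, ex, ix⟩ | ⟨x0, x3, x4, ex, ix⟩ |
      ⟨x0, x3, x4, ex, ix⟩ <;> simp only at x0 x3 x4 ix ⊢ <;> rw [ex]
  · rw [← ring_top hA hne' x0 ⟨x3, x4⟩ ix]; simp [ind, x0]
  · rw [← ring_right hA hne' x0 ⟨x3, x4⟩ ix]; simp [ind, x0]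
  · rw [← ring_bottom hA hne' x0 ⟨x3, x4⟩ ix]; simp [ind, x0]
  · rw [← ring_left hA hne' x0 ⟨x3, x4⟩ ix]
    have : ¬ (x2 = (r : ℤ) ∨ x1 = r ∨ x2 = -(r : ℤ)) := by omega
    simp [ind, this]

/-- The side function on the outer ring. -/
lemma side_ring (hP : Joins P a b) (hsub : ∀ u ∈ P, u ∈ box r) (ha : a ∈ bd r) (hb : b ∈ bd r)
    {x : V} (hx : x ∈ bd r) (hxa : x ≠ a) (hxb : x ≠ b) :
    side r P a b (ext r x) =
      cst r a + ind (idx r a < idx r x) + (cst r b + ind (idx r b < idx r x)) := by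
  have hne := hP.ne_nil
  have hfirst : P.head hne = a := by
    have := hP.first; rw [List.head?_eq_some_head hne] at this; simpa using this
  have hlast : P.getLast hne = b := by
    have := hP.last; rw [List.getLast?_eq_some_getLast hne] at this; simpa using this
  obtain ⟨u, l, rfl⟩ := List.exists_cons_of_ne_nil hne
  simp only [List.head_cons] at hfirst; subst hfirst
  have hsplit : ∀ p, par p (extend r (u :: l) u b) =
      cr p (ext r u) u + par p (u :: l) + cr p b (ext r b) := fun p => by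
    unfold extend
    rw [show (u :: l) ++ [ext r b] = u :: (l ++ [ext r b]) from rfl, par_cons_cons,
      ← List.cons_append, par_append_singleton (List.cons_ne_nil u l), hlast]
    ring
  have hinner : par (ext r x) (u :: l) =
      ind (¬ (x.2 = r ∨ x.1 = r ∨ x.2 = -(r : ℤ))) * (ind (u.2 ≤ x.2) + ind (b.2 ≤ x.2)) := by
    obtain ⟨x1, x2⟩ := x
    have hxb' := hx
    unfold bd box at hxb'; simp only [Set.mem_ofPred_eq] at hxb'
    unfold ext; simp only
    split_ifs with h1 h2 h3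
    · rw [par_eq_zero_top hP.walk fun z hz => by
        have := hsub z hz; unfold box at this; simp only [Set.mem_ofPred_eq] at this; simp only; omega]
      simp [ind, h1]
    · rw [par_eq_zero fun z hz => by
        have := hsub z hz; unfold box at this; simp only [Set.mem_ofPred_eq] at this; simp only; omega]
      simp [ind, h2]
    · rw [par_eq_zero' fun z hz => by
        have := hsub z hz; unfold box at this; simp only [Set.mem_ofPred_eq] at this; simp only; omega]
      simp [ind, h3]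
    · rw [row_parity x2 (-(r : ℤ) - 1) hP.walk fun z hz => by
        have := hsub z hz; unfold box at this; simp only [Set.mem_ofPred_eq] at this; omega, hlast]
      have : ¬ (x2 = (r : ℤ) ∨ x1 = r ∨ x2 = -(r : ℤ)) := by tauto
      simp [ind, this]
  have hcomm : cr (ext r x) (ext r u) u = cr (ext r x) u (ext r u) := by
    unfold cr ind; split_ifs <;> first | rfl | (exfalso; omega)
  have kA := ring_term ha hx (Ne.symm hxa)
  have kB := ring_term hb hx (Ne.symm hxb)
  unfold side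
  rw [hsplit, hinner, hcomm, ← kA, ← kB]
  ring

/-- **Crossing lemma.** Two walks in a square whose ends on the boundary are interlaced share a
lattice point. -/
theorem cross {Q : List V} {c d : V} (hP : Joins P a b) (hPsub : ∀ u ∈ P, u ∈ box r)
    (hQ : Joins Q c d) (hQsub : ∀ u ∈ Q, u ∈ box r) (ha : a ∈ bd r) (hb : b ∈ bd r)
    (hc : c ∈ bd r) (hd : d ∈ bd r)
    (h : Interl (idx r a) (idx r b) (idx r c) (idx r d)) : ∃ u ∈ P, u ∈ Q := by
  by_contra hno
  push Not at hno
  obtain ⟨hca, hcb, hda, hdb, hbtw⟩ := h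
  have nca : c ≠ a := fun h => hca (by rw [h])
  have ncb : c ≠ b := fun h => hcb (by rw [h])
  have nda : d ≠ a := fun h => hda (by rw [h])
  have ndb : d ≠ b := fun h => hdb (by rw [h])
  have hmem : ∀ z ∈ extend r Q c d, z ∈ box (r + 1) ∧ z ∉ extend r P a b := by
    intro z hz
    simp only [extend, List.mem_cons, List.mem_append, List.not_mem_nil, or_false] at hz ⊢
    rcases hz with rfl | hz | rfl
    · refine ⟨(ext_mem hc).1.1, ?_⟩
      rintro (h | h | h)
      · exact nca (ext_inj hc ha h)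
      · exact (ext_mem hc).2 (hPsub _ h)
      · exact ncb (ext_inj hc hb h)
    · refine ⟨box_mono (Nat.le_succ r) (hQsub z hz), ?_⟩
      rintro (rfl | h | rfl)
      · exact (ext_mem ha).2 (hQsub _ hz)
      · exact hno z h hz
      · exact (ext_mem hb).2 (hQsub _ hz)
    · refine ⟨(ext_mem hd).1.1, ?_⟩
      rintro (h | h | h)
      · exact nda (ext_inj hd ha h)
      · exact (ext_mem hd).2 (hPsub _ h)
      · exact ndb (ext_inj hd hb h)
  have heq := side_chain hP ha hb (extend_chain hQ hc hd) hmem (x := ext r c) (y := ext r d)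
    (by simp [extend]) (by simp [extend])
  rw [side_ring hP hPsub ha hb hc nca ncb, side_ring hP hPsub ha hb hd nda ndb] at heq
  generalize cst r a = A, cst r b = B at heq
  unfold Btw at hbtw; unfold ind at heq
  generalize idx r a = ia, idx r b = ib, idx r c = ic, idx r d = id' at *
  revert heq
  revert A B
  split_ifs <;> first | decide | (exfalso; omega)

end Vale.Agent.P158.Planar
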