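import Mathlib

/-!
P158: planar first-passage percolation, shared definitions.

The environment assigns a weight to every unordered pair of lattice points; only the weights of
nearest-neighbour pairs are ever used.
-/

open MeasureTheory

namespace Vale.Agent.P158

/-- Lattice points. -/
abbrev V := ℤ × ℤ

/-- An environment: a weight for each unordered pair of lattice points. -/
abbrev Env := Sym2 V → ℝ

/-- Nearest neighbours. -/
def Adj (x y : V) : Prop := (x.1 - y.1).natAbs + (x.2 - y.2).natAbs = 1

/-- The law of an environment with independent weights of law `G`. -/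
noncomputable def law (G : Measure ℝ) : Measure Env := Measure.infinitePi fun _ : Sym2 V => G

/-- The weight of a list of lattice points read as a walk. -/
def wt (t : Env) : List V → ℝ
  | [] => 0
  | [_] => 0
  | x :: y :: l => t s(x, y) + wt t (y :: l)

/-- `l` is a nearest-neighbour walk from `x` to `y`. -/
structure Joins (l : List V) (x y : V) : Prop where
  walk : l.IsChain Adj
  first : l.head? = some x
  last : l.getLast? = some y

/-- The passage time. -/
noncomputable def T (t : Env) (x y : V) : ℝ := sInf (wt t '' {l | Joins l x y})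

/-- The passage time by walks inside `A`. -/
noncomputable def Tin (t : Env) (A : Set V) (x y : V) : ℝ :=
  sInf (wt t '' {l | Joins l x y ∧ ∀ u ∈ l, u ∈ A})

/-- Environments without the null coincidences: positive weights, finitely many self-avoiding
walks of bounded weight from a point, and distinct weights of distinct self-avoiding walks with
common ends. -/
structure Nice (t : Env) : Prop where
  pos : ∀ e, 0 < t e
  fin : ∀ (x : V) (C : ℝ), {l : List V | l.IsChain Adj ∧ l.Nodup ∧ l.head? = some x ∧ wt t l ≤ C}.Finite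
  inj : ∀ l l' : List V, ∀ x y, Joins l x y → Joins l' x y → l.Nodup → l'.Nodup →
    wt t l = wt t l' → l = l'

/-- The weight of the segment of `γ` between the indices `i` and `j`. -/
noncomputable def seg (t : Env) (γ : ℤ → V) (i j : ℤ) : ℝ := ∑ k ∈ Finset.Ico i j, t s(γ k, γ (k + 1))

/-- A line, that is an indexed bigeodesic. -/
structure IsLine (t : Env) (γ : ℤ → V) : Prop where
  adj : ∀ i, Adj (γ i) (γ (i + 1))
  inj : Function.Injective γ
  geo : ∀ i j, i ≤ j → ∀ l, Joins l (γ i) (γ j) → seg t γ i j ≤ wt t l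

/-- The reversed line. -/
def rev (γ : ℤ → V) : ℤ → V := fun i => γ (-i)

/-- Avoiding the backward stretch of length `R` costs at least `M`. -/
def GoodB (t : Env) (γ : ℤ → V) (R : ℕ) (M : ℝ) : Prop :=
  ∀ (m n : ℤ) (l : List V), m < -(R : ℤ) → 0 ≤ n → Joins l (γ m) (γ n) →
    (∀ k : ℤ, -(R : ℤ) ≤ k → k ≤ -1 → γ k ∉ l) → M ≤ wt t l - seg t γ m n

/-- Avoiding either stretch of length `R` costs at least `M`. -/
def GoodTwo (t : Env) (γ : ℤ → V) (R : ℕ) (M : ℝ) : Prop :=
  GoodB t γ R M ∧ GoodB t (rev γ) R M

/-- Two lines with the same backward half and different next steps. -/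
structure IsBranch (t : Env) (γ γ' : ℤ → V) : Prop where
  left : IsLine t γ
  right : IsLine t γ'
  agree : ∀ k : ℤ, k ≤ 0 → γ k = γ' k
  split : γ 1 ≠ γ' 1

/-- A branch point whose shared half is good. -/
def BranchPt (t : Env) (v : V) (R : ℕ) (M : ℝ) : Prop :=
  ∃ γ γ', IsBranch t γ γ' ∧ γ 0 = v ∧ GoodB t γ R M ∧ GoodB t γ' R M

/-- A point on a line which is good on both sides. -/
def LinePt (t : Env) (v : V) (R : ℕ) (M : ℝ) : Prop :=
  ∃ γ, IsLine t γ ∧ γ 0 = v ∧ GoodTwo t γ R M

/-- No two lines share a half. -/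
def NoBranch (t : Env) : Prop := ∀ γ γ', ¬ IsBranch t γ γ'

/-- The two diagonal geodesics between far points of `γ` and `γ'` weigh at least as much as the
two lines themselves. -/
def MongePair (t : Env) (γ γ' : ℤ → V) : Prop :=
  ∃ K : ℤ, ∀ a b c d : ℤ, K ≤ a → K ≤ b → K ≤ c → K ≤ d →
    seg t γ' (-a) b + seg t γ (-c) d ≤ T t (γ' (-a)) (γ d) + T t (γ (-c)) (γ' b)

/-- The closed square of radius `r`. -/
def box (r : ℕ) : Set V := {x | x.1.natAbs ≤ r ∧ x.2.natAbs ≤ r}

/-- The boundary of the closed square of radius `r`. -/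
def bd (r : ℕ) : Set V := {x | x ∈ box r ∧ (x.1.natAbs = r ∨ x.2.natAbs = r)}

/-- The annulus between two squares. -/
def ann (r r' : ℕ) : Set V := box r' \ box r

/-- The position of a boundary point of the square of radius `r`, going round clockwise. -/
def idx (r : ℕ) (x : V) : ℕ :=
  if x.2 = r then (x.1 + r).toNat
  else if x.1 = r then (2 * r + (r - x.2)).toNat
  else if x.2 = -(r : ℤ) then (4 * r + (r - x.1)).toNat
  else (6 * r + (x.2 + r)).toNat

/-- `x` lies strictly between `p` and `q`. -/
def Btw (p q x : ℕ) : Prop := (p < x ∧ x < q) ∨ (q < x ∧ x < p)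

/-- The chords from `p` to `q` and from `p'` to `q'` of a circle are interlaced. -/
def Interl (p q p' q' : ℕ) : Prop :=
  p' ≠ p ∧ p' ≠ q ∧ q' ≠ p ∧ q' ≠ q ∧ (Btw p q p' ↔ ¬ Btw p q q')

/-- `i` is the last index before `0` and `j` the first one after `0` at which `γ` is on or
outside the boundary of the square of radius `r`. -/
def Exits (γ : ℤ → V) (r : ℕ) (i j : ℤ) : Prop :=
  i < 0 ∧ 0 < j ∧ γ i ∈ bd r ∧ γ j ∈ bd r ∧ ∀ k, i < k → k < j → γ k ∈ box r ∧ γ k ∉ bd r

/-- A walk in the annulus between radii `r1` and `r2` which separates them, of weight at most `S`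
and at most `N` points. -/
structure Ring (t : Env) (r1 r2 : ℕ) (S : ℝ) (N : ℕ) (c : List V) : Prop where
  walk : c.IsChain Adj
  sub : ∀ u ∈ c, u ∈ ann r1 r2
  sep : ∀ l x y, Joins l x y → x ∈ box r1 → y ∉ box r2 → ∃ u ∈ l, u ∈ c
  weight : wt t c ≤ S
  size : c.length ≤ N

end Vale.Agent.P158
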