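import Vale.Agent.P158.Lowering
import Vale.Agent.P158.CompactSup

/-!
P158: the excess of the backward stretch of a path, squeezed into `[0, 1]`, its semicontinuity and
its behaviour under lowering.
-/

open Filter
open scoped Topology

namespace Vale.Agent.P158.Key

/-- The squeeze. -/
noncomputable def sq (x : ℝ) : ℝ := 1 - Real.exp (-x)

lemma sq_lt_one (x : ℝ) : sq x < 1 := by simp [sq, Real.exp_pos]

lemma sq_mono {x y : ℝ} (h : x ≤ y) : sq x ≤ sq y := by
  have := Real.exp_le_exp.2 (neg_le_neg h)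
  simp only [sq]
  linarith

lemma sq_add (x κ : ℝ) : sq (x + κ) = sq x + (1 - sq x) * (1 - Real.exp (-κ)) := by
  simp only [sq, neg_add, Real.exp_add]
  ring

lemma le_of_sq_le {x y : ℝ} (h : sq x ≤ sq y) : x ≤ y := by
  simp only [sq] at h
  linarith [Real.exp_le_exp.1 (show Real.exp (-y) ≤ Real.exp (-x) by linarith)]

/-- The competitors of the backward stretch of length `R`. -/
def Cand (γ : ℤ → V) (R : ℕ) (m n : ℤ) (l : List V) : Prop :=
  m < -(R : ℤ) ∧ 0 ≤ n ∧ Joins l (γ m) (γ n) ∧ ∀ k : ℤ, -(R : ℤ) ≤ k → k ≤ -1 → γ k ∉ l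

/-- The squeezed excesses of the competitors, with `1` adjoined. -/
def vals (t : Env) (γ : ℤ → V) (R : ℕ) : Set ℝ :=
  insert 1 {y | ∃ m n l, Cand γ R m n l ∧ y = max 0 (sq (wt t l - seg t γ m n))}

/-- The squeezed excess of the backward stretch of length `R`. -/
noncomputable def gB (t : Env) (γ : ℤ → V) (R : ℕ) : ℝ := sInf (vals t γ R)

lemma vals_nonneg {t : Env} {γ : ℤ → V} {R : ℕ} : ∀ y ∈ vals t γ R, 0 ≤ y := by
  rintro y (rfl | ⟨m, n, l, -, rfl⟩)
  · exact zero_le_one
  · exact le_max_left _ _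

lemma gB_nonneg (t : Env) (γ : ℤ → V) (R : ℕ) : 0 ≤ gB t γ R :=
  le_csInf ⟨1, Set.mem_insert _ _⟩ vals_nonneg

lemma gB_le_one (t : Env) (γ : ℤ → V) (R : ℕ) : gB t γ R ≤ 1 :=
  csInf_le ⟨0, vals_nonneg⟩ (Set.mem_insert _ _)

lemma gB_le {t : Env} {γ : ℤ → V} {R : ℕ} {m n : ℤ} {l : List V} (h : Cand γ R m n l) :
    gB t γ R ≤ max 0 (sq (wt t l - seg t γ m n)) :=
  csInf_le ⟨0, vals_nonneg⟩ (.inr ⟨m, n, l, h, rfl⟩)

lemma le_gB {t : Env} {γ : ℤ → V} {R : ℕ} {y : ℝ} (h1 : y ≤ 1)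
    (h : ∀ m n l, Cand γ R m n l → y ≤ max 0 (sq (wt t l - seg t γ m n))) : y ≤ gB t γ R := by
  refine le_csInf ⟨1, Set.mem_insert _ _⟩ ?_
  rintro z (rfl | ⟨m, n, l, hc, rfl⟩)
  · exact h1
  · exact h m n l hc

lemma gB_lt_iff {t : Env} {γ : ℤ → V} {R : ℕ} {y : ℝ} : gB t γ R < y ↔
    1 < y ∨ ∃ m n l, Cand γ R m n l ∧ max 0 (sq (wt t l - seg t γ m n)) < y := by
  rw [gB, csInf_lt_iff ⟨0, vals_nonneg⟩ ⟨1, Set.mem_insert _ _⟩]
  constructor
  · rintro ⟨b, (rfl | ⟨m, n, l, hc, rfl⟩), hb⟩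
    · exact .inl hb
    · exact .inr ⟨m, n, l, hc, hb⟩
  · rintro (h | ⟨m, n, l, hc, hb⟩)
    · exact ⟨1, Set.mem_insert _ _, h⟩
    · exact ⟨_, .inr ⟨m, n, l, hc, rfl⟩, hb⟩

lemma gB_mono (t : Env) (γ : ℤ → V) : Monotone (gB t γ) := fun R R' h =>
  le_gB (gB_le_one t γ R) fun m n l ⟨hm, hn, hl, hav⟩ =>
    gB_le ⟨by omega, hn, hl, fun k hk hk' => hav k (by omega) hk'⟩

/-- A large squeezed excess gives a good stretch. -/
lemma goodB_of_lt {t : Env} {γ : ℤ → V} {R : ℕ} {M : ℝ} (hM : 0 ≤ M) (h : sq M < gB t γ R) :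
    GoodB t γ R M := fun m n l hm hn hl hav => by
  have h1 := h.trans_le (gB_le (t := t) ⟨hm, hn, hl, hav⟩)
  rcases le_total (sq (wt t l - seg t γ m n)) 0 with hz | hz
  · rw [max_eq_left hz] at h1
    have := sq_mono hM
    simp [sq] at this h1
    linarith
  · rw [max_eq_right hz] at h1
    exact le_of_sq_le h1.le

/-- The excess is semicontinuous in the environment and the path together. -/
lemma usc_gB (R : ℕ) :
    UpperSemicontinuous fun p : Env × (ℤ → V) => gB p.1 p.2 R := by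
  intro p y hy
  obtain ⟨t, γ⟩ := p
  change gB t γ R < y at hy
  rcases gB_lt_iff.1 hy with h1 | ⟨m, n, l, hc, hlt⟩
  · exact .of_forall fun q => gB_lt_iff.2 (.inl h1)
  have hloc : ∀ k : ℤ, ∀ᶠ q in 𝓝 ((t, γ) : Env × (ℤ → V)), q.2 k = γ k := fun k =>
    (((continuous_apply k).comp continuous_snd).tendsto (t, γ)).eventually
      (p := fun z => z = γ k) (by rw [nhds_discrete]; exact eventually_pure.2 rfl)
  set I : Finset ℤ := Finset.Icc m (max n (m + 1)) ∪ Finset.Icc (-(R : ℤ)) n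
  have hI : ∀ᶠ q in 𝓝 ((t, γ) : Env × (ℤ → V)), ∀ k ∈ I, q.2 k = γ k :=
    (I.eventually_all).2 fun k _ => hloc k
  have hcont : Continuous fun t' : Env => max 0 (sq (wt t' l - seg t' γ m n)) := by
    have hw : ∀ l : List V, Continuous fun t' : Env => wt t' l := by
      intro l
      induction l with
      | nil => exact continuous_const
      | cons x r ih =>
        cases r with
        | nil => exact continuous_const
        | cons z r' => exact (continuous_apply s(x, z)).add ih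
    have hs : Continuous fun t' : Env => seg t' γ m n :=
      continuous_finset_sum _ fun k _ => continuous_apply _
    exact continuous_const.max (continuous_const.sub
      (Real.continuous_exp.comp ((hw l).sub hs).neg))
  have hv := ((hcont.comp continuous_fst).tendsto ((t, γ) : Env × (ℤ → V))).eventually
    (eventually_lt_nhds hlt)
  filter_upwards [hI, hv] with q hq hq'
  obtain ⟨hm, hn, hl, hav⟩ := hc
  refine gB_lt_iff.2 (.inr ⟨m, n, l, ⟨hm, hn, ?_, ?_⟩, ?_⟩)
  · rwa [hq m (by simp [I]), hq n (by simp [I]; omega)]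
  · intro k hk hk'
    rw [hq k (by simp [I]; omega)]
    exact hav k hk hk'
  · have hseg : seg q.1 q.2 m n = seg q.1 γ m n := Finset.sum_congr rfl fun k hk => by
      simp only [Finset.mem_Ico] at hk
      rw [hq k (by simp [I]; omega), hq (k + 1) (by simp [I]; omega)]
    rw [hseg]
    exact hq'

variable {t : Env} {γ : ℤ → V} {k : ℤ} {s κ : ℝ}

/-- Lowering deep inside the stretch raises its excess. -/
lemma gB_raise (h : IsLine t γ) {R : ℕ} (hk : -(R : ℤ) ≤ k) (hk' : k ≤ -1) (hκ : 0 ≤ κ)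
    (hsle : s ≤ t s(γ k, γ (k + 1)) - κ) :
    gB t γ R + (1 - gB t γ R) * (1 - Real.exp (-κ)) ≤
      gB (Function.update t s(γ k, γ (k + 1)) s) γ R := by
  have hc0 : 0 ≤ 1 - Real.exp (-κ) := by
    have : Real.exp (-κ) ≤ 1 := Real.exp_le_one_iff.2 (by linarith)
    linarith
  have hc1 : 1 - Real.exp (-κ) ≤ 1 := by linarith [Real.exp_pos (-κ)]
  refine le_gB ?_ fun m n l hc => ?_
  · nlinarith [gB_le_one t γ R]
  · obtain ⟨hm, hn, hl, hav⟩ := hc
    have hg := gB_le (t := t) (⟨hm, hn, hl, hav⟩ : Cand γ R m n l)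
    have h0 : 0 ≤ wt t l - seg t γ m n := sub_nonneg.2 (h.geo m n (by omega) l hl)
    have hq0 : 0 ≤ sq (wt t l - seg t γ m n) := by
      have := sq_mono h0
      simpa [sq] using this
    rw [max_eq_right hq0] at hg
    rw [excess_raise h.inj (by omega) (by omega) (hav k hk hk')]
    refine le_trans ?_ ((sq_mono (show wt t l - seg t γ m n + κ ≤ wt t l - seg t γ m n +
      (t s(γ k, γ (k + 1)) - s) by linarith)).trans (le_max_right _ _))
    rw [sq_add]
    nlinarith

/-- Lowering on the other side of the point does not lower the excess. -/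
lemma gB_keep (ht : ∀ e, 0 ≤ t e) (h : IsLine t γ) (hs : 0 ≤ s)
    (hsle : s ≤ t s(γ k, γ (k + 1))) (hk : 0 ≤ k) (R : ℕ) :
    gB t γ R ≤ gB (Function.update t s(γ k, γ (k + 1)) s) γ R := by
  refine le_gB (gB_le_one t γ R) fun m n l ⟨hm, hn, hl, hav⟩ => ?_
  obtain ⟨n', l', hn', hl', hsub, hle⟩ := excess_keep ht h hs hsle hk (by omega : m ≤ 0) hn hl
  exact (gB_le ⟨hm, hn', hl', fun j hj hj' hmem => hav j hj hj' (hsub _ hmem)⟩).trans
    (max_le_max le_rfl (sq_mono hle))

/-- Raising an edge the line does not use keeps the line and does not lower the excess. -/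
lemma line_of_missing {e : Sym2 V} (hle : s ≤ t e) (hmiss : ∀ i, s(γ i, γ (i + 1)) ≠ e)
    (h : IsLine (Function.update t e s) γ) :
    IsLine t γ ∧ ∀ R, gB (Function.update t e s) γ R ≤ gB t γ R := by
  have hseg : ∀ a b, seg (Function.update t e s) γ a b = seg t γ a b := fun a b =>
    Finset.sum_congr rfl fun i _ => Function.update_of_ne (hmiss i) _ _
  have hwt : ∀ l : List V, wt (Function.update t e s) l ≤ wt t l := by
    intro l
    induction l with
    | nil => exact le_rfl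
    | cons x r ih =>
      cases r with
      | nil => exact le_rfl
      | cons z r' =>
        simp only [wt]
        exact add_le_add (update_le hle _) ih
  refine ⟨⟨h.adj, h.inj, fun i j hij l hl => ?_⟩, fun R => le_gB (gB_le_one _ _ _) fun m n l hc => ?_⟩
  · rw [← hseg]
    exact (h.geo i j hij l hl).trans (hwt l)
  · refine (gB_le hc).trans (max_le_max le_rfl (sq_mono ?_))
    rw [hseg]
    linarith [hwt l]

end Vale.Agent.P158.Key
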