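import Vale.Agent.P147.Resample

/-!
P158, key lemma layer, abstract part.  A bounded measurable function of an iid field cannot be
raised by a fixed amount by resampling one coordinate that lies outside an arbitrary finite set,
if the resampled coordinate can be recovered from the new field with bounded multiplicity.
-/

open MeasureTheory
open scoped ENNReal

namespace Vale.Agent.P158

open P147.Resample

variable {E α : Type*} [MeasurableSpace α] [DecidableEq E]
  (μ : Measure α) [IsProbabilityMeasure μ]

/-- The law of one resampled coordinate, inside the product. -/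
lemma prodLaw_piecewise_single (e : E) (ω : E → α) {T : Set (E → α)} (hT : MeasurableSet T) :
    prodLaw μ {η : E → α | ({e} : Finset E).piecewise η ω ∈ T} =
      μ {s | Function.update ω e s ∈ T} := by
  have hm : MeasurableSet {s : α | Function.update ω e s ∈ T} := measurable_update ω hT
  have h1 : {η : E → α | ({e} : Finset E).piecewise η ω ∈ T} =
      (fun η : E → α => η e) ⁻¹' {s | Function.update ω e s ∈ T} := by
    ext η
    simp only [Finset.piecewise_singleton, Set.mem_preimage, Set.mem_ofPred_eq]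
  rw [h1, ← Measure.map_apply (measurable_pi_apply e) hm, Measure.infinitePi_map_eval]

lemma measurable_update_slice (e : E) {T : Set (E → α)} (hT : MeasurableSet T) :
    Measurable fun ω : E → α => μ {s | Function.update ω e s ∈ T} := by
  have h : MeasurableSet
      ((fun p : (E → α) × (E → α) => ({e} : Finset E).piecewise p.2 p.1) ⁻¹' T) :=
    ((measurable_piecewise {e}).comp measurable_swap) hT
  have := measurable_measure_prodMk_left (ν := prodLaw μ) h
  simpa only [Set.preimage_preimage, Set.preimage, Set.mem_ofPred_eq,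
    prodLaw_piecewise_single μ e _ hT] using this

lemma lintegral_update_slice (e : E) {T : Set (E → α)} (hT : MeasurableSet T) :
    ∫⁻ ω, μ {s | Function.update ω e s ∈ T} ∂prodLaw μ = prodLaw μ T := by
  have h := measurePreserving_piecewise μ ({e} : Finset E)
  rw [← h.measure_preimage hT.nullMeasurableSet,
    Measure.prod_apply_symm (h.measurable hT)]
  refine lintegral_congr fun ω => ?_
  exact (prodLaw_piecewise_single μ e ω hT).symm

/-- A bounded measurable function is, off a set of small measure, decided on a grid of levels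
by finitely many coordinates: so it cannot go up by a grid step when the others are changed. -/
lemma exists_bad {Ψ : (E → α) → ℝ} (hΨ : Measurable Ψ) {K c : ℝ} (hK : ∀ ω, |Ψ ω| ≤ K)
    (hc : 0 < c) {η : ℝ≥0∞} (hη : 0 < η) :
    ∃ (B : Finset E) (Bad : Set (E → α)), MeasurableSet Bad ∧ prodLaw μ Bad ≤ η ∧
      ∀ ω ω', (∀ e ∈ B, ω' e = ω e) → ω ∉ Bad → Ψ ω + c ≤ Ψ ω' → ω' ∈ Bad := by
  classical
  obtain ⟨m, hm⟩ := exists_nat_ge (2 * K / c)
  set A : Fin (m + 1) → Set (E → α) := fun j => {ω | -K + j * c ≤ Ψ ω}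
  have hA : ∀ j, MeasurableSet (A j) := fun j => measurableSet_le measurable_const hΨ
  have happ : ∀ j, ∃ t ∈ measurableCylinders (fun _ : E => α),
      prodLaw μ (symmDiff t (A j)) < η / (m + 1 : ℕ) := fun j => by
    refine exists_measure_symmDiff_lt_of_generateFrom_isSetRing isSetRing_measurableCylinders
      ⟨{Set.univ}, Set.countable_singleton _,
        Set.singleton_subset_iff.2 (univ_mem_measurableCylinders _), by simp⟩
      generateFrom_measurableCylinders.symm (hA j) ?_
    exact ENNReal.div_pos hη.ne' (ENNReal.natCast_ne_top _)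
  choose t ht hlt using happ
  have ht' : ∀ j, ∃ s S, MeasurableSet S ∧ t j = cylinder (α := fun _ : E => α) s S :=
    fun j => (mem_measurableCylinders _).1 (ht j)
  choose s S hS htS using ht'
  have htm : ∀ j, MeasurableSet (t j) := fun j => MeasurableSet.of_mem_measurableCylinders (ht j)
  refine ⟨Finset.univ.biUnion s, ⋃ j, symmDiff (t j) (A j),
    MeasurableSet.iUnion fun j => (htm j).symmDiff (hA j), ?_, ?_⟩
  · calc prodLaw μ (⋃ j, symmDiff (t j) (A j))
        ≤ ∑ j, prodLaw μ (symmDiff (t j) (A j)) := measure_iUnion_fintype_le _ _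
      _ ≤ ∑ _j : Fin (m + 1), η / (m + 1 : ℕ) := Finset.sum_le_sum fun j _ => (hlt j).le
      _ = η := by
          rw [Finset.sum_const, Finset.card_univ, Fintype.card_fin, nsmul_eq_mul,
            ENNReal.mul_div_cancel (by simp) (ENNReal.natCast_ne_top _)]
  · intro ω ω' hag hω hup
    by_contra hω'
    simp only [Set.mem_iUnion, not_exists] at hω hω'
    have h1 := (abs_le.1 (hK ω)).1
    have h2 := (abs_le.1 (hK ω')).2
    set k : ℕ := ⌊(Ψ ω + K) / c⌋₊ + 1
    have hk1 : (Ψ ω + K) / c < k := by
      simpa [k] using Nat.lt_floor_add_one ((Ψ ω + K) / c)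
    have hk2 : (k : ℝ) ≤ (Ψ ω + K) / c + 1 := by
      have : ((⌊(Ψ ω + K) / c⌋₊ : ℕ) : ℝ) ≤ (Ψ ω + K) / c :=
        Nat.floor_le (div_nonneg (by linarith) hc.le)
      simp only [k, Nat.cast_add, Nat.cast_one]
      linarith
    rw [div_lt_iff₀ hc] at hk1
    have hk3 : (k : ℝ) * c ≤ Ψ ω + K + c := by
      have := mul_le_mul_of_nonneg_right hk2 hc.le
      rwa [add_mul, div_mul_cancel₀ _ hc.ne', one_mul] at this
    have hkm : k ≤ m := by
      have : (k : ℝ) ≤ 2 * K / c := by rw [le_div_iff₀ hc]; linarith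
      exact_mod_cast this.trans hm
    let j : Fin (m + 1) := ⟨k, Nat.lt_succ_of_le hkm⟩
    have hmem' : ω' ∈ A j := by
      show -K + (k : ℝ) * c ≤ Ψ ω'
      linarith
    have hnot : ω ∉ A j := by
      show ¬ -K + (k : ℝ) * c ≤ Ψ ω
      linarith
    have hsame : (ω' ∈ t j ↔ ω ∈ t j) := by
      rw [htS j, mem_cylinder, mem_cylinder]
      have : (s j).restrict ω' = (s j).restrict ω := by
        funext i
        exact hag i.1 (Finset.mem_biUnion.2 ⟨j, Finset.mem_univ _, i.2⟩)
      rw [this]
    have e1 : ω' ∈ t j := by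
      by_contra h
      exact hω' j (Or.inr ⟨hmem', h⟩)
    exact hω j (Or.inl ⟨hsame.1 e1, hnot⟩)

/-- **No gain from far coordinates.** Suppose that for every finite set `B` of coordinates there
are `n` families `T i` of measurable events, each family pairwise disjoint over the coordinates,
such that on `G` the pairs (coordinate `e` outside `B`, new value `s`) which land in `T i e` and
raise `Ψ` by `c` have total weight at least `q * n`.  Then `G` is null. -/
theorem measure_eq_zero_of_far_gain [Countable E] {Ψ : (E → α) → ℝ} (hΨ : Measurable Ψ)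
    {K : ℝ} (hK : ∀ ω, |Ψ ω| ≤ K) {c : ℝ} (hc : 0 < c) {G : Set (E → α)} {q : ℝ≥0∞} (hq : q ≠ 0)
    (h : ∀ B : Finset E, ∃ (n : ℕ) (T : Fin n → E → Set (E → α)), 0 < n ∧
      (∀ i e, MeasurableSet (T i e)) ∧ (∀ i, Pairwise (Function.onFun Disjoint (T i))) ∧
      ∀ ω ∈ G, q * n ≤ ∑ i, ∑' e, μ {s | e ∉ B ∧ Function.update ω e s ∈ T i e ∧
        Ψ ω + c ≤ Ψ (Function.update ω e s)}) :
    prodLaw μ G = 0 := by
  set q' := min q 1
  have hq0 : q' ≠ 0 := (lt_min (pos_iff_ne_zero.2 hq) zero_lt_one).ne'
  have hqt : q' ≠ ∞ := ne_top_of_le_ne_top ENNReal.one_ne_top (min_le_right _ _)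
  refine nonpos_iff_eq_zero.1 (le_of_forall_pos_le_add fun ε hε => ?_)
  rw [zero_add]
  -- choose the error of the approximation
  have h2 : 0 < q' * ε / 2 :=
    ENNReal.div_pos (mul_ne_zero hq0 hε.ne') (by norm_num)
  obtain ⟨B, Bad, hBad, hBadη, hgain⟩ := exists_bad μ hΨ hK hc h2
  obtain ⟨n, T, hn, hTm, hTd, hG⟩ := h B
  set L : (E → α) → ℝ≥0∞ := fun ω =>
    ∑ i, ∑' e, μ {s | Function.update ω e s ∈ T i e ∩ Bad}
  have hLm : Measurable L := Finset.measurable_sum _ fun i _ =>
    Measurable.tsum fun e => measurable_update_slice μ e ((hTm i e).inter hBad)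
  have hint : ∫⁻ ω, L ω ∂prodLaw μ ≤ n * prodLaw μ Bad := by
    rw [lintegral_finsetSum _ fun i _ => Measurable.tsum fun e =>
      measurable_update_slice μ e ((hTm i e).inter hBad)]
    calc _ ≤ ∑ _i : Fin n, prodLaw μ Bad := Finset.sum_le_sum fun i _ => by
            rw [lintegral_tsum fun e =>
              (measurable_update_slice μ e ((hTm i e).inter hBad)).aemeasurable]
            simp only [lintegral_update_slice μ _ ((hTm i _).inter hBad)]
            rw [← measure_iUnion (fun e e' hee => Disjoint.mono Set.inter_subset_left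
              Set.inter_subset_left (hTd i hee)) fun e => (hTm i e).inter hBad]
            exact measure_mono (Set.iUnion_subset fun e => Set.inter_subset_right)
      _ = _ := by simp
  have hsub : G ⊆ Bad ∪ {ω | q' * n ≤ L ω} := fun ω hω => by
    by_cases hb : ω ∈ Bad
    · exact Or.inl hb
    refine Or.inr ((mul_le_mul' (min_le_left _ _) le_rfl).trans ((hG ω hω).trans ?_))
    refine Finset.sum_le_sum fun i _ => ENNReal.tsum_le_tsum fun e => measure_mono ?_
    rintro s ⟨he, hT, hup⟩
    refine ⟨hT, hgain ω _ (fun e' he' => ?_) hb hup⟩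
    exact Function.update_of_ne (fun h : e' = e => he (h ▸ he')) _ _
  have hmk : q' * n * prodLaw μ {ω | q' * n ≤ L ω} ≤ n * prodLaw μ Bad :=
    (mul_meas_ge_le_lintegral hLm _).trans hint
  have hmk' : q' * prodLaw μ {ω | q' * n ≤ L ω} ≤ q' * ε / 2 := by
    refine le_trans ?_ hBadη
    rw [show q' * (n : ℝ≥0∞) * prodLaw μ {ω | q' * n ≤ L ω} =
        n * (q' * prodLaw μ {ω | q' * n ≤ L ω}) by ring] at hmk
    exact (ENNReal.mul_le_mul_iff_right (by exact_mod_cast hn.ne') (ENNReal.natCast_ne_top n)).1 hmk
  refine (ENNReal.mul_le_mul_iff_right hq0 hqt).1 ?_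
  calc q' * prodLaw μ G
      ≤ q' * (prodLaw μ Bad + prodLaw μ {ω | q' * n ≤ L ω}) :=
        mul_le_mul' le_rfl ((measure_mono hsub).trans (measure_union_le _ _))
    _ = q' * prodLaw μ Bad + q' * prodLaw μ {ω | q' * n ≤ L ω} := mul_add _ _ _
    _ ≤ q' * ε / 2 + q' * ε / 2 := by
        refine add_le_add ((mul_le_mul' (min_le_right _ _) le_rfl).trans ?_) hmk'
        rw [one_mul]
        exact hBadη
    _ = q' * ε := ENNReal.add_halves _

end Vale.Agent.P158
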