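import Mathlib

/-!
P158, key lemma layer: good weights and their density on every long path (Peierls count).
-/

open MeasureTheory Filter
open scoped ENNReal Topology

namespace Vale.Agent.P158

/-- For an atomless law there is a level which is exceeded with probability almost one and
below which, by a fixed amount, some mass still lies. -/
lemma exists_good_level (G : Measure ℝ) [IsProbabilityMeasure G] [NullSingletonClass G] {δ : ℝ≥0∞}
    (hδ0 : δ ≠ 0) (hδ1 : δ < 1) :
    ∃ a κ : ℝ, 0 < κ ∧ G (Set.Iio a) ≤ δ ∧ G (Set.Iic (a - κ)) ≠ 0 := by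
  set S : Set ℝ := {x | G (Set.Iic x) ≤ δ}
  have hbot : Tendsto (fun x : ℝ => G (Set.Iic x)) atBot (𝓝 0) := by
    have := tendsto_measure_iInter_atBot (μ := G) (s := fun x : ℝ => Set.Iic x)
      (fun x => measurableSet_Iic.nullMeasurableSet) (fun x y h => Set.Iic_subset_Iic.2 h)
      ⟨0, measure_ne_top _ _⟩
    have he : (⋂ x : ℝ, Set.Iic x) = ∅ := Set.eq_empty_iff_forall_notMem.2 fun y hy => by
      have := Set.mem_Iic.1 (Set.mem_iInter.1 hy (y - 1))
      linarith
    rwa [he, measure_empty] at this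
  have hne : S.Nonempty := by
    obtain ⟨x, hx⟩ := (hbot.eventually (eventually_le_nhds (pos_iff_ne_zero.2 hδ0))).exists
    exact ⟨x, hx⟩
  have htop : Tendsto (fun x : ℝ => G (Set.Iic x)) atTop (𝓝 1) := by
    simpa using tendsto_measure_Iic_atTop G
  obtain ⟨b, hb⟩ := eventually_atTop.1 (htop.eventually (eventually_gt_nhds hδ1))
  have hbdd : BddAbove S := ⟨b, fun x hx => le_of_not_gt fun h => absurd hx (not_le.2 (hb x h.le))⟩
  set a := sSup S
  have hlow : G (Set.Iio a) ≤ δ := by
    have hu : Set.Iio a = ⋃ n : ℕ, Set.Iic (a - 1 / (n + 1)) := by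
      ext x
      simp only [Set.mem_Iio, Set.mem_iUnion, Set.mem_Iic]
      constructor
      · intro hx
        obtain ⟨n, hn⟩ := exists_nat_one_div_lt (sub_pos.2 hx)
        exact ⟨n, by linarith⟩
      · rintro ⟨n, hn⟩
        have : (0 : ℝ) < 1 / (n + 1) := by positivity
        linarith
    rw [hu, Monotone.measure_iUnion fun m n h => Set.Iic_subset_Iic.2 (by gcongr)]
    refine iSup_le fun n => ?_
    obtain ⟨x, hx, hlt⟩ := exists_lt_of_lt_csSup hne
      (show a - 1 / ((n : ℝ) + 1) < a by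
        have : (0 : ℝ) < 1 / (n + 1) := by positivity
        linarith)
    exact (measure_mono (Set.Iic_subset_Iic.2 hlt.le)).trans hx
  have hhigh : δ ≤ G (Set.Iic a) := by
    have hi : Set.Iic a = ⋂ n : ℕ, Set.Iic (a + 1 / (n + 1)) := by
      ext x
      simp only [Set.mem_Iic, Set.mem_iInter]
      refine ⟨fun h n => h.trans (le_add_of_nonneg_right (by positivity)), fun h => ?_⟩
      by_contra hx
      obtain ⟨n, hn⟩ := exists_nat_one_div_lt (sub_pos.2 (not_le.1 hx))
      linarith [h n]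
    rw [hi, Antitone.measure_iInter (fun m n h => Set.Iic_subset_Iic.2 (by gcongr))
      (fun n => measurableSet_Iic.nullMeasurableSet) ⟨0, measure_ne_top _ _⟩]
    refine le_iInf fun n => (not_le.1 fun h => ?_).le
    have := le_csSup hbdd h
    have : (0 : ℝ) < 1 / (n + 1) := by positivity
    linarith
  refine ⟨a, ?_⟩
  have hpos : G (Set.Iio a) ≠ 0 := by
    rw [measure_congr Iio_ae_eq_Iic]
    exact (lt_of_lt_of_le (pos_iff_ne_zero.2 hδ0) hhigh).ne'
  have hu2 : Set.Iio a = ⋃ n : ℕ, Set.Iic (a - 1 / (n + 1)) := by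
    ext x
    simp only [Set.mem_Iio, Set.mem_iUnion, Set.mem_Iic]
    constructor
    · intro hx
      obtain ⟨n, hn⟩ := exists_nat_one_div_lt (sub_pos.2 hx)
      exact ⟨n, by linarith⟩
    · rintro ⟨n, hn⟩
      have : (0 : ℝ) < 1 / (n + 1) := by positivity
      linarith
  obtain ⟨n, hn⟩ : ∃ n : ℕ, G (Set.Iic (a - 1 / ((n : ℝ) + 1))) ≠ 0 := by
    by_contra h
    push Not at h
    exact hpos (by rw [hu2, measure_iUnion_null_iff]; exact h)
  exact ⟨1 / ((n : ℝ) + 1), by positivity, hlow, hn⟩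

variable {E α : Type*} [MeasurableSpace α] (μ : Measure α) [IsProbabilityMeasure μ]

/-- If there are at most `4 ^ n` candidate edge sets of size `n` and a weight is bad with
probability at most `16 ^ (-4)`, then almost surely, for all large `n`, every candidate set
has fewer than `n / 4` bad weights. -/
lemma ae_eventually_few_bad (P : ℕ → Finset (Finset E)) (hcard : ∀ n, (P n).card ≤ 4 ^ n)
    (hsize : ∀ n, ∀ s ∈ P n, s.card = n) {A : Set α} [DecidablePred (· ∈ A)]
    (hA : MeasurableSet A) (hμ : μ A ≤ (16⁻¹ : ℝ≥0∞) ^ 4) :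
    ∀ᵐ ω ∂Measure.infinitePi (fun _ : E => μ), ∀ᶠ n in atTop, ∀ s ∈ P n,
      4 * (s.filter fun e => ω e ∈ A).card < n := by
  classical
  set bad : ℕ → Set (E → α) := fun n =>
    ⋃ s ∈ P n, ⋃ t ∈ s.powerset.filter (fun t => n ≤ 4 * t.card), {ω | ∀ e ∈ t, ω e ∈ A}
  have hbound : ∀ n, Measure.infinitePi (fun _ : E => μ) (bad n) ≤ (2⁻¹ : ℝ≥0∞) ^ n := by
    intro n
    calc Measure.infinitePi (fun _ : E => μ) (bad n)
        ≤ ∑ s ∈ P n, ∑ t ∈ s.powerset.filter (fun t => n ≤ 4 * t.card),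
            Measure.infinitePi (fun _ : E => μ) {ω | ∀ e ∈ t, ω e ∈ A} :=
          (measure_biUnion_finset_le _ _).trans
            (Finset.sum_le_sum fun s _ => measure_biUnion_finset_le _ _)
      _ ≤ ∑ s ∈ P n, ∑ t ∈ s.powerset, ((16⁻¹ : ℝ≥0∞) ^ n) := by
          refine Finset.sum_le_sum fun s _ => ?_
          refine le_trans (Finset.sum_le_sum fun t ht => ?_)
            (Finset.sum_le_sum_of_subset (Finset.filter_subset _ _))
          have h1 : {ω : E → α | ∀ e ∈ t, ω e ∈ A} = Set.pi (t : Set E) fun _ => A := rfl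
          rw [h1, Measure.infinitePi_pi _ fun _ _ => hA, Finset.prod_const]
          calc μ A ^ t.card ≤ ((16⁻¹ : ℝ≥0∞) ^ 4) ^ t.card := pow_le_pow_left' hμ _
            _ = (16⁻¹ : ℝ≥0∞) ^ (4 * t.card) := (pow_mul _ _ _).symm
            _ ≤ _ := pow_le_pow_right_of_le_one' (by norm_num) (Finset.mem_filter.1 ht).2
      _ ≤ ∑ _s ∈ P n, ((2 : ℝ≥0∞) ^ n * (16⁻¹) ^ n) := by
          refine Finset.sum_le_sum fun s hs => ?_
          rw [Finset.sum_const, Finset.card_powerset, hsize n s hs, nsmul_eq_mul]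
          simp
      _ ≤ (4 : ℝ≥0∞) ^ n * ((2 : ℝ≥0∞) ^ n * (16⁻¹) ^ n) := by
          rw [Finset.sum_const, nsmul_eq_mul]
          refine mul_le_mul' ?_ le_rfl
          exact_mod_cast hcard n
      _ = (2⁻¹ : ℝ≥0∞) ^ n := by
          rw [← mul_pow, ← mul_pow]
          congr 1
          rw [show (16 : ℝ≥0∞) = 4 * 2 * 2 by norm_num,
            ENNReal.mul_inv (by norm_num) (by norm_num), ← mul_assoc, ← mul_assoc,
            ENNReal.mul_inv_cancel (by norm_num) (by finiteness), one_mul]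
  have hsum : ∑' n, Measure.infinitePi (fun _ : E => μ) (bad n) ≠ ∞ := by
    refine ne_top_of_le_ne_top ?_ (ENNReal.tsum_le_tsum hbound)
    rw [ENNReal.tsum_geometric, ENNReal.one_sub_inv_two, inv_inv]
    norm_num
  filter_upwards [ae_eventually_notMem hsum] with ω hω
  filter_upwards [hω] with n hn s hs
  by_contra h
  refine hn ?_
  simp only [bad, Set.mem_iUnion, Finset.mem_filter, Finset.mem_powerset, Set.mem_ofPred_eq]
  exact ⟨s, hs, s.filter (fun e => ω e ∈ A), ⟨Finset.filter_subset _ _, not_lt.1 h⟩,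
    fun e he => (Finset.mem_filter.1 he).2⟩

end Vale.Agent.P158
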