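import Mathlib

/-!
P158, counting layer: a sequence without alternations has variation at most four times its bound,
so finitely many such sequences have boundedly many classes.
-/

open MeasureTheory
open scoped ENNReal

namespace Vale.Agent.P158

/-- Two later values exceed two others, which alternate with them, or conversely. -/
def Alternates (f : ℕ → ℝ) : Prop :=
  ∃ a b c d : ℕ, a < b ∧ b < c ∧ c < d ∧
    ((f a < f b ∧ f a < f d ∧ f c < f b ∧ f c < f d) ∨
      (f b < f a ∧ f b < f c ∧ f d < f a ∧ f d < f c))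

/-- A level is crossed by at most two steps. -/
lemma card_crossings_le {f : ℕ → ℝ} (h : ¬ Alternates f) (n : ℕ) (l : ℝ) :
    ((Finset.range n).filter fun k => ¬((f k < l) ↔ (f (k + 1) < l))).card ≤ 2 := by
  classical
  by_contra hc
  set F := (Finset.range n).filter fun k => ¬((f k < l) ↔ (f (k + 1) < l))
  set e := F.orderEmbOfFin rfl
  have hmem : ∀ i, ¬((f (e i) < l) ↔ (f (e i + 1) < l)) := fun i =>
    (Finset.mem_filter.mp (F.orderEmbOfFin_mem rfl i)).2
  have h12 : e ⟨0, by omega⟩ < e ⟨1, by omega⟩ := e.strictMono (Fin.mk_lt_mk.mpr Nat.one_pos)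
  have h23 : e ⟨1, by omega⟩ < e ⟨2, by omega⟩ := e.strictMono (Fin.mk_lt_mk.mpr (by omega))
  have d1 := hmem ⟨0, by omega⟩
  have d2 := hmem ⟨1, by omega⟩
  have d3 := hmem ⟨2, by omega⟩
  set k1 := e ⟨0, by omega⟩
  set k2 := e ⟨1, by omega⟩
  set k3 := e ⟨2, by omega⟩
  -- third point: same side as the first; fourth: same side as the second
  obtain ⟨p3, hp3, hs3⟩ : ∃ p, (p = k2 ∨ p = k2 + 1) ∧ (f p < l ↔ f k1 < l) := by
    by_cases hk : f k2 < l ↔ f k1 < l
    · exact ⟨k2, Or.inl rfl, hk⟩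
    · exact ⟨k2 + 1, Or.inr rfl, by tauto⟩
  obtain ⟨p4, hp4, hs4⟩ : ∃ p, (p = k3 ∨ p = k3 + 1) ∧ (f p < l ↔ f (k1 + 1) < l) := by
    by_cases hk : f k3 < l ↔ f (k1 + 1) < l
    · exact ⟨k3, Or.inl rfl, hk⟩
    · exact ⟨k3 + 1, Or.inr rfl, by tauto⟩
  have n3 : k1 + 1 ≠ p3 := fun e => d1 (by rw [e]; exact hs3.symm)
  have n4 : p3 ≠ p4 := fun e => d1 (by rw [← e] at hs4; exact hs3.symm.trans hs4)
  have o3 : k1 + 1 < p3 := by omega
  have o4 : p3 < p4 := by omega
  refine h ⟨k1, k1 + 1, p3, p4, by omega, o3, o4, ?_⟩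
  by_cases hl : f k1 < l
  · have hm : l ≤ f (k1 + 1) := not_lt.mp fun h' => d1 (iff_of_true hl h')
    have h3 : f p3 < l := hs3.mpr hl
    have h4 : l ≤ f p4 := not_lt.mp fun h' => (not_lt.mpr hm) (hs4.mp h')
    exact Or.inl ⟨by linarith, by linarith, by linarith, by linarith⟩
  · rw [not_lt] at hl
    have hm : f (k1 + 1) < l := by
      by_contra h'
      exact d1 (iff_of_false (not_lt.mpr hl) h')
    have h3 : l ≤ f p3 := not_lt.mp fun h' => (not_lt.mpr hl) (hs3.mp h')
    have h4 : f p4 < l := hs4.mpr hm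
    exact Or.inr ⟨by linarith, by linarith, by linarith, by linarith⟩

/-- A bounded sequence without alternations has variation at most four times its bound. -/
theorem variation_le {f : ℕ → ℝ} {t : ℝ} (h : ¬ Alternates f) (hb : ∀ k, |f k| ≤ t) (n : ℕ) :
    ∑ k ∈ Finset.range n, |f (k + 1) - f k| ≤ 4 * t := by
  classical
  have ht : 0 ≤ t := (abs_nonneg _).trans (hb 0)
  have key : ∀ k, ∀ l, (Set.uIoc (f k) (f (k + 1))).indicator (fun _ : ℝ => (1 : ℝ≥0∞)) l =
      if ¬((f k < l) ↔ (f (k + 1) < l)) then 1 else 0 := by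
    intro k l
    rw [Set.indicator_apply]
    refine if_congr ?_ rfl rfl
    rw [Set.mem_uIoc]
    constructor
    · rintro (⟨h1, h2⟩ | ⟨h1, h2⟩) hi
      · exact absurd (hi.mp h1) (not_lt.mpr h2)
      · exact absurd (hi.mpr h1) (not_lt.mpr h2)
    · intro hi
      by_cases h1 : f k < l
      · exact Or.inl ⟨h1, not_lt.mp fun h2 => hi (iff_of_true h1 h2)⟩
      · refine Or.inr ⟨?_, not_lt.mp h1⟩
        by_contra h2
        exact hi (iff_of_false h1 h2)
  have hsum : ∑ k ∈ Finset.range n, ENNReal.ofReal |f (k + 1) - f k| ≤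
      ENNReal.ofReal (4 * t) := by
    calc ∑ k ∈ Finset.range n, ENNReal.ofReal |f (k + 1) - f k|
        = ∫⁻ l : ℝ, ∑ k ∈ Finset.range n,
            (Set.uIoc (f k) (f (k + 1))).indicator (fun _ => (1 : ℝ≥0∞)) l := by
          rw [lintegral_finsetSum _ fun k _ =>
            (measurable_const.indicator measurableSet_uIoc)]
          refine Finset.sum_congr rfl fun k _ => ?_
          rw [lintegral_indicator_const measurableSet_uIoc, one_mul, Real.volume_uIoc]
      _ ≤ ∫⁻ l : ℝ, (Set.Ioc (-t) t).indicator (fun _ => (2 : ℝ≥0∞)) l := by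
          refine lintegral_mono fun l => ?_
          by_cases hl : l ∈ Set.Ioc (-t) t
          · rw [Set.indicator_of_mem hl, Finset.sum_congr rfl fun k _ => key k l,
              ← Finset.sum_filter, Finset.sum_const, nsmul_eq_mul, mul_one]
            exact (Nat.cast_le.mpr (card_crossings_le h n l)).trans (le_of_eq (by norm_num))
          · rw [Finset.sum_eq_zero fun k _ => Set.indicator_of_notMem (fun hm => hl ?_) _]
            · exact zero_le
            obtain ⟨a1, a2⟩ := abs_le.mp (hb k)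
            obtain ⟨b1, b2⟩ := abs_le.mp (hb (k + 1))
            rcases Set.mem_uIoc.mp hm with ⟨h1, h2⟩ | ⟨h1, h2⟩ <;>
              exact ⟨by linarith, by linarith⟩
      _ = ENNReal.ofReal (4 * t) := by
          rw [lintegral_indicator_const measurableSet_Ioc, Real.volume_Ioc, ← ENNReal.ofReal_ofNat,
            ← ENNReal.ofReal_mul (by norm_num)]
          congr 1
          ring
  rw [← ENNReal.ofReal_sum_of_nonneg fun k _ => abs_nonneg _] at hsum
  exact (ENNReal.ofReal_le_ofReal_iff (by positivity)).mp hsum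

/-- Finitely many bounded sequences without alternations have a monotone class map with few
values, inside a class of which all sums over sets of steps move by less than `ε`. -/
theorem exists_classes {m : ℕ} (f : Fin m → ℕ → ℝ) {w : Fin m → ℝ} (h : ∀ s, ¬ Alternates (f s))
    (hb : ∀ s k, |f s k| ≤ w s) {ε : ℝ} (hε : 0 < ε) (n : ℕ) :
    ∃ cl : ℕ → ℕ, Monotone cl ∧ (∀ k ≤ n, cl k ≤ ⌊4 * (∑ s, w s) / ε⌋₊) ∧
      ∀ j k, cl j = cl k → ∀ S : Finset (Fin m), |∑ s ∈ S, (f s j - f s k)| < ε := by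
  set v : ℕ → ℝ := fun i => ∑ s, |f s (i + 1) - f s i|
  set Φ : ℕ → ℝ := fun k => ∑ i ∈ Finset.range k, v i
  have hv : ∀ i, 0 ≤ v i := fun i => Finset.sum_nonneg fun s _ => abs_nonneg _
  have hΦ : Monotone Φ := fun a b hab =>
    Finset.sum_le_sum_of_subset_of_nonneg (Finset.range_mono hab) fun i _ _ => hv i
  have hΦ0 : ∀ k, 0 ≤ Φ k := fun k => Finset.sum_nonneg fun i _ => hv i
  refine ⟨fun k => ⌊Φ k / ε⌋₊,
    fun a b hab => Nat.floor_le_floor ((div_le_div_iff_of_pos_right hε).mpr (hΦ hab)),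
    fun k _ => Nat.floor_le_floor ((div_le_div_iff_of_pos_right hε).mpr ?_), ?_⟩
  · simp only [Φ, v]
    rw [Finset.sum_comm, Finset.mul_sum]
    exact Finset.sum_le_sum fun s _ => variation_le (h s) (hb s) k
  intro j k hjk S
  wlog hle : j ≤ k generalizing j k
  · rw [← abs_neg, ← Finset.sum_neg_distrib]
    simpa only [neg_sub] using this k j hjk.symm (le_of_not_ge hle)
  have h1 : |∑ s ∈ S, (f s j - f s k)| ≤ Φ k - Φ j := by
    refine (Finset.abs_sum_le_sum_abs _ _).trans
      ((Finset.sum_le_univ_sum_of_nonneg fun s => abs_nonneg _).trans ?_)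
    simp only [Φ]
    rw [← Finset.sum_Ico_eq_sub _ hle]
    simp only [v]
    rw [Finset.sum_comm]
    refine Finset.sum_le_sum fun s _ => ?_
    rw [abs_sub_comm, ← Finset.sum_Ico_sub (f s) hle]
    exact Finset.abs_sum_le_sum_abs _ _
  refine h1.trans_lt ?_
  have a1 := Nat.floor_le (div_nonneg (hΦ0 j) hε.le)
  have a2 := Nat.lt_floor_add_one (Φ k / ε)
  simp only at hjk
  rw [← hjk] at a2
  have a3 : Φ k / ε - Φ j / ε < 1 := by linarith
  rw [← sub_div, div_lt_one hε] at a3
  exact a3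

end Vale.Agent.P158
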