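import Vale.Agent.P158.Basic
import Vale.Agent.P158.Variation

/-!
P158, counting layer: walks in a ring, cheapest walks in a set, and the classes of boundary
points with close profiles on a ring.
-/

open MeasureTheory

namespace Vale.Agent.P158

/-- The crossing lemma of the square, as a property of the radius. -/
def CrossAt (r : ℕ) : Prop :=
  ∀ (P Q : List V) (x y x' y' : V), Joins P x y → Joins Q x' y' → (∀ u ∈ P, u ∈ box r) →
    (∀ u ∈ Q, u ∈ box r) → x ∈ bd r → y ∈ bd r → x' ∈ bd r → y' ∈ bd r →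
    Interl (idx r x) (idx r y) (idx r x') (idx r y') → ∃ u, u ∈ P ∧ u ∈ Q

lemma box_mono {r r' : ℕ} (h : r ≤ r') : box r ⊆ box r' := fun _ hx =>
  ⟨hx.1.trans h, hx.2.trans h⟩

lemma bd_sub_ann {r1 r : ℕ} (h : r1 < r) : bd r ⊆ ann r1 r := fun x hx => by
  refine ⟨hx.1, fun h1 => ?_⟩
  obtain ⟨h1a, h1b⟩ := h1
  rcases hx.2 with e | e <;> omega

lemma bd_notMem_box {r1 r : ℕ} (h : r1 < r) {x : V} (hx : x ∈ bd r) : x ∉ box r1 :=
  (bd_sub_ann h hx).2

lemma idx_injOn (r : ℕ) : Set.InjOn (idx r) (bd r) := by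
  intro x hx y hy h
  obtain ⟨⟨hx1, hx2⟩, hx3⟩ := hx
  obtain ⟨⟨hy1, hy2⟩, hy3⟩ := hy
  unfold idx at h
  refine Prod.ext ?_ ?_ <;> (split_ifs at h <;> omega)

lemma bd_finite (r : ℕ) : (bd r).Finite := by
  refine ((Set.finite_Icc (-(r : ℤ)) r).prod (Set.finite_Icc (-(r : ℤ)) r)).subset fun x hx => ?_
  obtain ⟨⟨h1, h2⟩, -⟩ := hx
  exact ⟨⟨by omega, by omega⟩, ⟨by omega, by omega⟩⟩

/-- A cheapest walk in a set exists, and it is self-avoiding. -/
lemma exists_min_in {t : Env} (hn : Nice t) {A : Set V} {x y : V} {l0 : List V}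
    (h0 : Joins l0 x y) (hA0 : ∀ u ∈ l0, u ∈ A) :
    ∃ l, Joins l x y ∧ l.Nodup ∧ (∀ u ∈ l, u ∈ A) ∧
      ∀ l', Joins l' x y → (∀ u ∈ l', u ∈ A) → wt t l ≤ wt t l' := by
  set F := {l : List V | l.IsChain Adj ∧ l.Nodup ∧ l.head? = some x ∧ wt t l ≤ wt t l0} ∩
    {l | l.getLast? = some y ∧ ∀ u ∈ l, u ∈ A}
  have hF : F.Finite := (hn.fin x (wt t l0)).inter_of_left _
  obtain ⟨r0, hr0, hnd0, hsub0, hw0⟩ := h0.exists_simple hn.nonneg
  obtain ⟨r, ⟨⟨hc, hnd, hh, hwr⟩, hlast, hA⟩, hmin⟩ := hF.exists_minimalFor (wt t) F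
    ⟨r0, ⟨hr0.walk, hnd0, hr0.first, hw0⟩, hr0.last, fun u hu => hA0 u (hsub0 u hu)⟩
  refine ⟨r, ⟨hc, hh, hlast⟩, hnd, hA, fun l hl hAl => ?_⟩
  obtain ⟨s, hs, hnds, hsub, hws⟩ := hl.exists_simple hn.nonneg
  by_contra hlt
  have hs' : s ∈ F :=
    ⟨⟨hs.walk, hnds, hs.first, by linarith⟩, hs.last, fun u hu => hAl u (hsub u hu)⟩
  linarith [hmin hs' (by linarith)]

lemma Tin_le {t : Env} (hp : ∀ e, 0 ≤ t e) {A : Set V} {x y : V} {l : List V} (h : Joins l x y)
    (hA : ∀ u ∈ l, u ∈ A) : Tin t A x y ≤ wt t l :=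
  csInf_le ⟨0, by rintro _ ⟨m, -, rfl⟩; exact wt_nonneg hp m⟩ ⟨l, ⟨h, hA⟩, rfl⟩

/-- There is a walk in `A` from `x` to `y`. -/
def Linked (A : Set V) (x y : V) : Prop := ∃ l, Joins l x y ∧ ∀ u ∈ l, u ∈ A

lemma exists_Tin {t : Env} (hn : Nice t) {A : Set V} {x y : V} (h : Linked A x y) :
    ∃ l, Joins l x y ∧ (∀ u ∈ l, u ∈ A) ∧ wt t l = Tin t A x y := by
  obtain ⟨l0, h0, hA0⟩ := h
  obtain ⟨l, hl, -, hA, hmin⟩ := exists_min_in hn h0 hA0
  refine ⟨l, hl, hA, le_antisymm (le_csInf ⟨_, l, ⟨hl, hA⟩, rfl⟩ ?_) (Tin_le hn.nonneg hl hA)⟩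
  rintro _ ⟨m, ⟨hm, hmA⟩, rfl⟩
  exact hmin m hm hmA

/-- An edge moves the cost to a target by at most its weight. -/
lemma Tin_edge {t : Env} (hn : Nice t) {A : Set V} {x b b' : V} (hx : Linked A x b)
    (hab : Adj b b') (hb : b ∈ A) (hb' : b' ∈ A) :
    Tin t A x b' ≤ Tin t A x b + t s(b, b') := by
  obtain ⟨l, hl, hA, hw⟩ := exists_Tin hn hx
  obtain ⟨r, hr, hwr, hmem⟩ := hl.exists_trans t (Joins.pair hab)
  refine (Tin_le hn.nonneg hr fun u hu => ?_).trans (by rw [hwr, hw]; simp)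
  rcases (hmem u).mp hu with h | h
  · exact hA u h
  · rcases List.mem_cons.mp h with rfl | h
    · exact hb
    · rw [List.mem_singleton] at h; exact h ▸ hb'

lemma Linked.trans {A : Set V} {x y z : V} (h : Linked A x y) (h' : Linked A y z) :
    Linked A x z := by
  obtain ⟨l, hl, hA⟩ := h
  obtain ⟨m, hm, hA'⟩ := h'
  obtain ⟨r, hr, -, hmem⟩ := hl.exists_trans (fun _ => 0) hm
  exact ⟨r, hr, fun u hu => ((hmem u).mp hu).elim (hA u) (hA' u)⟩

/-- Two points of a walk are joined along it. -/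
lemma exists_between {t : Env} (hp : ∀ e, 0 ≤ t e) {c : List V} {x y a b : V} (hc : Joins c x y)
    (ha : a ∈ c) (hb : b ∈ c) :
    ∃ l, Joins l a b ∧ (∀ u ∈ l, u ∈ c) ∧ wt t l ≤ wt t c := by
  obtain ⟨p, q, rfl⟩ := List.mem_iff_append.mp ha
  have hp' := hc.split_left
  have hq' := hc.split_right
  have hw := wt_split t p a q
  have hpw := wt_nonneg hp (p ++ [a])
  have hqw := wt_nonneg hp (a :: q)
  have hps : ∀ v ∈ p ++ [a], v ∈ p ++ a :: q := fun v hv => by
    simp only [List.mem_append, List.mem_cons, List.not_mem_nil, or_false] at hv ⊢; tauto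
  have hqs : ∀ v ∈ a :: q, v ∈ p ++ a :: q := fun v hv => List.mem_append_right _ hv
  rcases List.mem_append.mp hb with h | h
  replace h : b ∈ p ++ [a] := List.mem_append_left _ h
  · obtain ⟨p', q', -, hq'', hw', -, hqs'⟩ := hp'.exists_split t h
    exact ⟨q'.reverse, hq''.symm, fun u hu => hps u (hqs' u (by simpa using hu)),
      by rw [wt_reverse]; linarith [wt_nonneg hp p']⟩
  · obtain ⟨p', q', hp'', -, hw', hps', -⟩ := hq'.exists_split t h
    exact ⟨p', hp'', fun u hu => hqs u (hps' u hu), by linarith [wt_nonneg hp q']⟩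

/-- The weight of a walk as a sum over its steps. -/
lemma wt_eq_sum_steps (t : Env) : ∀ l : List V,
    wt t l = ∑ s : Fin (l.length - 1), t s(l.getD s 0, l.getD (s + 1) 0)
  | [] => by simp
  | [_] => by simp
  | x :: y :: l => by
      rw [wt_cons_cons, wt_eq_sum_steps t (y :: l)]
      change _ = ∑ s : Fin (l.length + 1), t s((x :: y :: l).getD s 0, (x :: y :: l).getD (s + 1) 0)
      rw [Fin.sum_univ_succ]
      simp

/-- The difference of the costs to the two ends of an edge does not alternate round the square. -/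
lemma not_alternates {t : Env} (hn : Nice t) {r : ℕ} (hcross : CrossAt r) {A : Set V}
    (hA : A ⊆ box r) {b b' : V} {g : ℕ → V} (hg : ∀ k, g k ∈ bd r)
    (hmono : Monotone fun k => idx r (g k)) (hl : ∀ k, Linked A (g k) b ∧ Linked A (g k) b') :
    ¬ Alternates fun k => Tin t A (g k) b' - Tin t A (g k) b := by
  set f := fun k => Tin t A (g k) b' - Tin t A (g k) b
  rintro ⟨k1, k2, k3, k4, h12, h23, h34, halt⟩
  have hlt : ∀ {i j : ℕ}, i < j → f i ≠ f j → idx r (g i) < idx r (g j) := by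
    intro i j hij hne
    refine lt_of_le_of_ne (hmono hij.le) fun e => hne ?_
    simp only [f]
    rw [idx_injOn r (hg i) (hg j) e]
  -- the two low points joined through `b'` meet the two high points joined through `b`
  have key : ∀ L L' H H' : ℕ, Interl (idx r (g L)) (idx r (g L')) (idx r (g H)) (idx r (g H')) →
      f L < f H → f L < f H' → f L' < f H → f L' < f H' → False := by
    intro L L' H H' hI h1 h2 h3 h4
    obtain ⟨a, ha, haA, haw⟩ := exists_Tin hn (hl L).2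
    obtain ⟨a', ha', ha'A, ha'w⟩ := exists_Tin hn (hl L').2
    obtain ⟨d, hd, hdA, hdw⟩ := exists_Tin hn (hl H).1
    obtain ⟨d', hd', hd'A, hd'w⟩ := exists_Tin hn (hl H').1
    obtain ⟨P, hP, -, hPm⟩ := ha.exists_trans t ha'.symm
    obtain ⟨Q, hQ, -, hQm⟩ := hd.exists_trans t hd'.symm
    obtain ⟨q, hqP, hqQ⟩ := hcross P Q _ _ _ _ hP hQ
      (fun u hu => hA (((hPm u).mp hu).elim (haA u) fun h => ha'A u (by simpa using h)))
      (fun u hu => hA (((hQm u).mp hu).elim (hdA u) fun h => hd'A u (by simpa using h)))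
      (hg L) (hg L') (hg H) (hg H') hI
    have step : ∀ (i j : ℕ) (lo hi : List V), Joins lo (g i) b' → (∀ u ∈ lo, u ∈ A) →
        wt t lo = Tin t A (g i) b' → Joins hi (g j) b → (∀ u ∈ hi, u ∈ A) →
        wt t hi = Tin t A (g j) b → q ∈ lo → q ∈ hi → f j ≤ f i := by
      intro i j lo hi hlo hloA hlow hhi hhiA hhiw hqlo hqhi
      obtain ⟨p1, s1, hp1, hs1, hw1, hp1s, hs1s⟩ := hlo.exists_split t hqlo
      obtain ⟨p2, s2, hp2, hs2, hw2, hp2s, hs2s⟩ := hhi.exists_split t hqhi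
      obtain ⟨u1, hu1, hwu1, hm1⟩ := hp1.exists_trans t hs2
      obtain ⟨u2, hu2, hwu2, hm2⟩ := hp2.exists_trans t hs1
      have e1 := Tin_le hn.nonneg hu1 fun u hu =>
        ((hm1 u).mp hu).elim (fun h => hloA u (hp1s u h)) fun h => hhiA u (hs2s u h)
      have e2 := Tin_le hn.nonneg hu2 fun u hu =>
        ((hm2 u).mp hu).elim (fun h => hhiA u (hp2s u h)) fun h => hloA u (hs1s u h)
      simp only [f]
      linarith
    rcases (hPm q).mp hqP with hq | hq <;> rcases (hQm q).mp hqQ with hq' | hq'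
    · linarith [step L H a d ha haA haw hd hdA hdw hq hq']
    · linarith [step L H' a d' ha haA haw hd' hd'A hd'w hq (by simpa using hq')]
    · linarith [step L' H a' d ha' ha'A ha'w hd hdA hdw (by simpa using hq) hq']
    · linarith [step L' H' a' d' ha' ha'A ha'w hd' hd'A hd'w (by simpa using hq) (by simpa using hq')]
  rcases halt with ⟨e1, e2, e3, e4⟩ | ⟨e1, e2, e3, e4⟩
  · have i12 := hlt h12 e1.ne
    have i23 := hlt h23 e3.ne'
    have i34 := hlt h34 e4.ne
    refine key k1 k3 k2 k4 ⟨?_, ?_, ?_, ?_, ?_⟩ e1 e2 e3 e4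
    all_goals first | omega | (unfold Btw; omega)
  · have i12 := hlt h12 e1.ne'
    have i23 := hlt h23 e2.ne
    have i34 := hlt h34 e4.ne'
    refine key k2 k4 k1 k3 ⟨?_, ?_, ?_, ?_, ?_⟩ e1 e2 e3 e4
    all_goals first | omega | (unfold Btw; omega)

/-- **Classes.**  Finitely many boundary points fall into at most `4 S / δ + 1` classes, monotone
round the square, inside which the profiles on the ring differ by less than `δ`. -/
theorem exists_class_map {t : Env} (hn : Nice t) {r : ℕ} (hcross : CrossAt r) {A : Set V}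
    (hA : A ⊆ box r) {c : List V} (hc : c.IsChain Adj) (hcA : ∀ a ∈ c, a ∈ A) {S : ℝ}
    (hS : wt t c ≤ S) (U : Finset V) (hU : ∀ u ∈ U, u ∈ bd r ∧ ∀ a ∈ c, Linked A u a) {δ : ℝ}
    (hδ : 0 < δ) :
    ∃ cl : V → ℕ, (∀ u ∈ U, cl u ≤ ⌊4 * S / δ⌋₊) ∧
      (∀ u ∈ U, ∀ w ∈ U, idx r u ≤ idx r w → cl u ≤ cl w) ∧
      ∀ u ∈ U, ∀ w ∈ U, cl u = cl w → ∀ a ∈ c, ∀ b ∈ c,
        |(Tin t A u a - Tin t A w a) - (Tin t A u b - Tin t A w b)| < δ := by
  classical
  rcases U.eq_empty_or_nonempty with rfl | hne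
  · exact ⟨fun _ => 0, by simp, by simp, by simp⟩
  obtain ⟨u0, hu0, hmin0⟩ := U.exists_min_image (idx r) hne
  -- the step map
  have hg : ∀ k : ℕ, ∃ u, u ∈ U ∧ (idx r u0 ≤ k → idx r u ≤ k ∧ ∀ w ∈ U, idx r w ≤ k → idx r w ≤ idx r u) ∧
      (k < idx r u0 → u = u0) := by
    intro k
    by_cases hk : idx r u0 ≤ k
    · obtain ⟨u, hu, hmax⟩ := (U.filter fun w => idx r w ≤ k).exists_max_image (idx r)
        ⟨u0, Finset.mem_filter.mpr ⟨hu0, hk⟩⟩
      rw [Finset.mem_filter] at hu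
      exact ⟨u, hu.1, fun _ => ⟨hu.2, fun w hw hwk => hmax w (Finset.mem_filter.mpr ⟨hw, hwk⟩)⟩,
        fun h => absurd hk (not_le.mpr h)⟩
    · exact ⟨u0, hu0, fun h => absurd h hk, fun _ => rfl⟩
  choose g hgU hgmax hglow using hg
  have hgmono : Monotone fun k => idx r (g k) := by
    intro j k hjk
    change idx r (g j) ≤ idx r (g k)
    by_cases hj : idx r u0 ≤ j
    · exact (hgmax k (hj.trans hjk)).2 _ (hgU j) ((hgmax j hj).1.trans hjk)
    · rw [hglow j (not_le.mp hj)]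
      exact hmin0 _ (hgU k)
  have hgid : ∀ u ∈ U, g (idx r u) = u := by
    intro u hu
    obtain ⟨h1, h2⟩ := hgmax (idx r u) (hmin0 u hu)
    exact idx_injOn r (hU _ (hgU _)).1 (hU u hu).1 (le_antisymm h1 (h2 u hu le_rfl))
  -- the steps of the ring
  set m := c.length - 1
  set p : ℕ → V := fun s => c.getD s 0
  have hp : ∀ s, s < c.length → p s ∈ c := fun s hs => by
    simp only [p]; rw [List.getD_eq_getElem _ _ hs]; exact List.getElem_mem hs
  set f : Fin m → ℕ → ℝ := fun s k => Tin t A (g k) (p (s + 1)) - Tin t A (g k) (p s)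
  have hlink : ∀ k s, s < c.length → Linked A (g k) (p s) := fun k s hs =>
    (hU _ (hgU k)).2 _ (hp s hs)
  have halt : ∀ s, ¬ Alternates (f s) := fun s =>
    not_alternates hn hcross hA (fun k => (hU _ (hgU k)).1) hgmono fun k =>
      ⟨hlink k s (by omega), hlink k (s + 1) (by omega)⟩
  have hadj : ∀ s : Fin m, Adj (p s) (p (s + 1)) := by
    intro s
    have hs : (s : ℕ) + 1 < c.length := by omega
    simp only [p]
    rw [List.getD_eq_getElem _ _ hs, List.getD_eq_getElem _ _ (by omega : (s : ℕ) < c.length)]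
    exact List.isChain_iff_getElem.mp hc s hs
  have hb : ∀ s k, |f s k| ≤ t s(p (s : Fin m), p ((s : ℕ) + 1)) := by
    intro s k
    have h1 : (s : ℕ) + 1 < c.length := by omega
    have e1 := Tin_edge hn (hlink k s (by omega)) (hadj s) (hcA _ (hp _ (by omega)))
      (hcA _ (hp _ h1))
    have e2 := Tin_edge hn (hlink k (s + 1) h1) (hadj s).symm (hcA _ (hp _ h1))
      (hcA _ (hp _ (by omega)))
    rw [Sym2.eq_swap] at e2
    simp only [f]
    rw [abs_le]
    exact ⟨by linarith, by linarith⟩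
  obtain ⟨n, hn'⟩ : ∃ n, ∀ u ∈ U, idx r u ≤ n := ⟨U.sup (idx r), fun u hu => Finset.le_sup hu⟩
  obtain ⟨cl, hmono, hle, hclose⟩ := exists_classes f halt hb hδ n
  refine ⟨fun u => cl (idx r u), fun u hu => (hle _ (hn' u hu)).trans (Nat.floor_le_floor ?_),
    fun u _ w _ h => hmono h, fun u hu w hw e a ha b hb' => ?_⟩
  · refine (div_le_div_iff_of_pos_right hδ).mpr (mul_le_mul_of_nonneg_left ?_ (by norm_num))
    exact (le_of_eq (wt_eq_sum_steps t c).symm).trans hS
  obtain ⟨i, hi, rfl⟩ := List.getElem_of_mem ha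
  obtain ⟨j, hj, rfl⟩ := List.getElem_of_mem hb'
  have hD : ∀ (i j : ℕ), i ≤ j → j < c.length →
      |(Tin t A u (p j) - Tin t A w (p j)) - (Tin t A u (p i) - Tin t A w (p i))| < δ := by
    intro i j hij hj
    have := hclose _ _ e (Finset.univ.filter fun s : Fin m => i ≤ s ∧ (s : ℕ) < j)
    convert this using 2
    set D : ℕ → ℝ := fun s => Tin t A u (p s) - Tin t A w (p s)
    change D j - D i = _
    rw [← Finset.sum_Ico_sub D hij]
    refine Finset.sum_bij' (fun s hs => (⟨s, by simp only [Finset.mem_Ico] at hs; omega⟩ : Fin m))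
      (fun s _ => (s : ℕ)) ?_ ?_ ?_ ?_ ?_
    · intro s hs; simpa using hs
    · intro s hs; simpa using hs
    · intro s _; rfl
    · intro s _; rfl
    · intro s _
      simp only [f, D, hgid u hu, hgid w hw]
      ring
  rw [← List.getD_eq_getElem _ (0 : V) hi, ← List.getD_eq_getElem _ (0 : V) hj]
  rcases le_total i j with h | h
  · rw [abs_sub_comm]; exact hD i j h hj
  · exact hD j i h hi

end Vale.Agent.P158
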