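import Vale.Agent.P158.Count
import Vale.Agent.P158.Profile

/-!
P158, counting layer: where lines meet a ring, and which walks must meet their good stretches.
-/

open MeasureTheory

namespace Vale.Agent.P158

variable {t : Env} {r1 r2 r N L R : ℕ} {S M δ : ℝ} {c : List V} {γ : ℤ → V}

lemma exists_first {α : Type*} {P : α → Prop} : ∀ {l : List α}, (∃ z ∈ l, P z) →
    ∃ p z s, l = p ++ z :: s ∧ P z ∧ ∀ u ∈ p, ¬ P u
  | [], h => by simp at h
  | a :: l, h => by
      by_cases ha : P a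
      · exact ⟨[], a, l, rfl, ha, by simp⟩
      · obtain ⟨z, hz, hPz⟩ := h
        obtain ⟨p, z', s, e, hz', hp⟩ := exists_first (P := P)
          ⟨z, (List.mem_cons.mp hz).resolve_left (fun e => ha (e ▸ hPz)), hPz⟩
        exact ⟨a :: p, z', s, by rw [e, List.cons_append], hz',
          fun u hu => (List.mem_cons.mp hu).elim (fun e => e ▸ ha) (hp u)⟩

lemma Ring.mem_ann (hc : Ring t r1 r2 S N c) (hr : r2 ≤ r) {u : V} (hu : u ∈ c) : u ∈ ann r1 r :=
  ⟨box_mono hr (hc.sub u hu).1, (hc.sub u hu).2⟩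

lemma Ring.bd_notMem (hc : Ring t r1 r2 S N c) (hr : r2 < r) {u : V} (hu : u ∈ bd r) : u ∉ c :=
  fun h => bd_notMem_box hr hu (hc.sub u h).1

lemma Ring.chain_joins (hc : Ring t r1 r2 S N c) {a : V} (ha : a ∈ c) :
    ∃ x y, Joins c x y := by
  have hne := List.ne_nil_of_mem ha
  exact ⟨c.head hne, c.getLast hne, hc.walk, (List.head?_eq_some_head hne),
    (List.getLast?_eq_some_getLast hne)⟩

/-- Two points of the ring are joined in it. -/
lemma Ring.linked (hc : Ring t r1 r2 S N c) (hn : Nice t) (hr : r2 ≤ r) {a b : V} (ha : a ∈ c)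
    (hb : b ∈ c) : Linked (ann r1 r) a b := by
  obtain ⟨x, y, hxy⟩ := hc.chain_joins ha
  obtain ⟨l, hl, hsub, -⟩ := exists_between hn.nonneg hxy ha hb
  exact ⟨l, hl, fun u hu => hc.mem_ann hr (hsub u hu)⟩

lemma Ring.T_le (hc : Ring t r1 r2 S N c) (hn : Nice t) {a b : V} (ha : a ∈ c) (hb : b ∈ c) :
    T t a b ≤ S := by
  obtain ⟨x, y, hxy⟩ := hc.chain_joins ha
  obtain ⟨l, hl, -, hw⟩ := exists_between hn.nonneg hxy ha hb
  exact ((P158.T_le hn.nonneg hl).trans hw).trans hc.weight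

/-- A walk from the outer square which comes to the ring or inside it first meets the ring. -/
lemma Ring.first_hit (hc : Ring t r1 r2 S N c) (hr : r2 < r) {l : List V} {x y : V}
    (hl : Joins l x y) (hbox : ∀ u ∈ l, u ∈ box r) (hx : x ∈ bd r)
    (hz : ∃ z ∈ l, z ∈ c ∨ z ∈ box r1) :
    ∃ p q s, l = p ++ q :: s ∧ q ∈ c ∧ ∀ u ∈ p ++ [q], u ∈ ann r1 r := by
  obtain ⟨p, q, s, rfl, hq, hp⟩ := exists_first hz
  have hqc : q ∈ c := hq.resolve_right fun hq1 => by
    obtain ⟨u, hu, huc⟩ := hc.sep _ q x hl.split_left.symm hq1 (bd_notMem_box hr hx)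
    rw [List.mem_reverse, List.mem_append, List.mem_singleton] at hu
    rcases hu with h | rfl
    · exact hp u h (Or.inl huc)
    · exact (hc.sub u huc).2 hq1
  refine ⟨p, q, s, rfl, hqc, fun u hu => ?_⟩
  rcases List.mem_append.mp hu with h | h
  · exact ⟨hbox u (List.mem_append_left _ h), fun h1 => hp u h (Or.inr h1)⟩
  · rw [List.mem_singleton] at h; exact h ▸ hc.mem_ann hr.le hqc

/-- A line cannot run further from its origin than its index. -/
lemma mem_box_index (hγ : IsLine t γ) (h0 : γ 0 ∈ box L) (k : ℤ) : γ k ∈ box (L + k.natAbs) := by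
  have key : ∀ n : ℕ, γ n ∈ box (L + n) ∧ γ (-(n : ℤ)) ∈ box (L + n) := by
    intro n
    induction n with
    | zero => simpa using h0
    | succ n ih =>
      obtain ⟨⟨a1, a2⟩, b1, b2⟩ := ih
      have h1 := hγ.adj n
      have h2 := hγ.adj (-((n + 1 : ℕ) : ℤ))
      rw [show -((n + 1 : ℕ) : ℤ) + 1 = -(n : ℤ) by push_cast; ring] at h2
      rw [show ((n + 1 : ℕ) : ℤ) = (n : ℤ) + 1 by push_cast; ring] at h2 ⊢
      simp only [Adj] at h1 h2
      refine ⟨⟨?_, ?_⟩, ?_, ?_⟩ <;> omega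
  obtain ⟨n, rfl | rfl⟩ := Int.eq_nat_or_neg k
  · simpa using (key n).1
  · simpa using (key n).2

lemma mem_inner_of_index (hγ : IsLine t γ) (h0 : γ 0 ∈ box L) (hLR : L + R < r1) {k : ℤ}
    (hk : k.natAbs ≤ R) : γ k ∈ box r1 :=
  box_mono (by omega) (mem_box_index hγ h0 k)

/-- An exit from a large square lies beyond the stretch. -/
lemma exit_beyond (hγ : IsLine t γ) (h0 : γ 0 ∈ box L) (hLR : L + R < r1) (hr : r1 < r) {i : ℤ}
    (hi : γ i ∈ bd r) : R < i.natAbs :=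
  lt_of_not_ge fun h => bd_notMem_box hr hi (mem_inner_of_index hγ h0 hLR h)

lemma Exits.mem_chord {i j : ℤ} (h : Exits γ r i j) {k : ℤ} (hik : i ≤ k) (hkj : k ≤ j) :
    γ k ∈ box r := by
  rcases eq_or_lt_of_le hik with rfl | hik
  · exact h.2.2.1.1
  rcases eq_or_lt_of_le hkj with rfl | hkj
  · exact h.2.2.2.1.1
  exact (h.2.2.2.2 k hik hkj).1

lemma Exits.reverse {i j : ℤ} (h : Exits γ r i j) : Exits (rev γ) r (-j) (-i) := by
  obtain ⟨h1, h2, h3, h4, h5⟩ := h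
  exact ⟨by omega, by omega, by simpa [rev] using h4, by simpa [rev] using h3,
    fun k hk1 hk2 => h5 (-k) (by omega) (by omega)⟩

lemma GoodTwo.reverse (h : GoodTwo t γ R M) : GoodTwo t (rev γ) R M :=
  ⟨h.2, by rw [rev_rev]; exact h.1⟩

/-- The backward exit reaches the ring along the line, as cheaply as possible in the annulus. -/
lemma Ring.back_hit (hc : Ring t r1 r2 S N c) (hn : Nice t) (hr : r2 < r) (hγ : IsLine t γ)
    {i j : ℤ} (hij : Exits γ r i j) (h0 : γ 0 ∈ box r1) :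
    ∃ k, i < k ∧ k < 0 ∧ γ k ∈ c ∧ Linked (ann r1 r) (γ i) (γ k) ∧
      Tin t (ann r1 r) (γ i) (γ k) = seg t γ i k := by
  have hij0 := hij
  obtain ⟨hi0, h0j, hib, -, -⟩ := hij
  obtain ⟨k, ⟨hik, hk⟩, hmin⟩ := Int.exists_least_of_bdd
    (P := fun k => i ≤ k ∧ (γ k ∈ c ∨ γ k ∈ box r1)) ⟨i, fun z hz => hz.1⟩ ⟨0, hi0.le, Or.inr h0⟩
  have hk0 : k ≤ 0 := hmin 0 ⟨hi0.le, Or.inr h0⟩
  have hl := hγ.joins hik
  have hkc : γ k ∈ c := hk.resolve_right fun hk1 => by
    obtain ⟨u, hu, huc⟩ := hc.sep _ _ _ hl.symm hk1 (bd_notMem_box hr hib)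
    rw [List.mem_reverse] at hu
    obtain ⟨k', h1, h2, rfl⟩ := mem_segList.mp hu
    have := hmin k' ⟨h1, Or.inl huc⟩
    have hkk : k' = k := by omega
    subst hkk
    exact (hc.sub _ huc).2 hk1
  have hsub : ∀ u ∈ segList γ i (k - i).toNat, u ∈ ann r1 r := by
    intro u hu
    obtain ⟨k', h1, h2, rfl⟩ := mem_segList.mp hu
    have h2' : k' ≤ k := by omega
    rcases eq_or_lt_of_le h2' with rfl | h2'
    · exact hc.mem_ann hr.le hkc
    · refine ⟨hij0.mem_chord h1 (by omega), fun h => ?_⟩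
      have := hmin k' ⟨h1, Or.inr h⟩
      omega
  refine ⟨k, lt_of_le_of_ne hik fun e => hc.bd_notMem hr hib (e ▸ hkc),
    lt_of_le_of_ne hk0 fun e => (hc.sub _ hkc).2 (e ▸ h0), hkc, ⟨_, hl, hsub⟩, ?_⟩
  refine le_antisymm ((Tin_le hn.nonneg hl hsub).trans (hγ.wt_joins hik).le) ?_
  refine le_csInf ⟨_, _, ⟨hl, hsub⟩, rfl⟩ ?_
  rintro _ ⟨m, ⟨hm, -⟩, rfl⟩
  exact hγ.geo i k hik m hm

/-- The forward exit reaches the ring along the line. -/
lemma Ring.front_hit (hc : Ring t r1 r2 S N c) (hn : Nice t) (hr : r2 < r) (hγ : IsLine t γ)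
    {i j : ℤ} (hij : Exits γ r i j) (h0 : γ 0 ∈ box r1) :
    ∃ k, 0 < k ∧ k < j ∧ γ k ∈ c ∧ Linked (ann r1 r) (γ j) (γ k) ∧
      Tin t (ann r1 r) (γ j) (γ k) = seg t γ k j := by
  obtain ⟨k, h1, h2, h3, h4, h5⟩ := hc.back_hit hn hr hγ.reverse hij.reverse (by simpa [rev] using h0)
  refine ⟨-k, by omega, by omega, h3, ?_, ?_⟩
  · simpa [rev] using h4
  · rw [seg_rev, neg_neg] at h5
    simpa [rev] using h5

lemma Ring.linked_exit (hc : Ring t r1 r2 S N c) (hn : Nice t) (hr : r2 < r) (hγ : IsLine t γ)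
    {i j : ℤ} (hij : Exits γ r i j) (h0 : γ 0 ∈ box r1) {a : V} (ha : a ∈ c) :
    Linked (ann r1 r) (γ i) a ∧ Linked (ann r1 r) (γ j) a := by
  obtain ⟨k, -, -, hk, hl, -⟩ := hc.back_hit hn hr hγ hij h0
  obtain ⟨k', -, -, hk', hl', -⟩ := hc.front_hit hn hr hγ hij h0
  exact ⟨hl.trans (hc.linked hn hr.le hk ha), hl'.trans (hc.linked hn hr.le hk' ha)⟩

/-- A segment of a line passes its intermediate steps. -/
lemma follows_segList : ∀ (k : ℕ) (p : ℤ) (m : ℕ),
    Follows (segList γ p (k + (m + 1))) (γ (p + k)) (γ (p + k + 1))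
  | 0, p, m => by
      refine ⟨[], ?_⟩
      rw [Nat.zero_add, Nat.cast_zero, add_zero]
      rcases m with _ | m
      · exact ⟨[], rfl⟩
      · exact ⟨segList γ (p + 1 + 1) m, rfl⟩
  | k + 1, p, m => by
      obtain ⟨a, b, e⟩ := follows_segList k (p + 1) m
      refine ⟨γ p :: a, b, ?_⟩
      rw [show k + 1 + (m + 1) = k + (m + 1) + 1 by ring, segList, e, List.cons_append,
        show p + ((k + 1 : ℕ) : ℤ) = p + 1 + k by push_cast; ring]

/-- A cheapest walk in the big square from a point with nearly the profile of the backward exit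
to the first ring point of an arm passes through the two steps at the origin. -/
theorem arm_follows (hn : Nice t) (hc : Ring t r1 r2 S N c) (hr1 : r1 < r) (hr : r2 < r)
    (hLR : L + R < r1) (hγ : IsLine t γ) (h0 : γ 0 ∈ box L) (hgood : GoodB t γ R M) {i j : ℤ}
    (hij : Exits γ r i j) {u0 : V} (hu0 : u0 ∈ bd r) (hlink : ∀ a ∈ c, Linked (ann r1 r) u0 a)
    (hclose : ∀ a ∈ c, ∀ b ∈ c, |(Tin t (ann r1 r) (γ i) a - Tin t (ann r1 r) u0 a) -
      (Tin t (ann r1 r) (γ i) b - Tin t (ann r1 r) u0 b)| < M) :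
    ∃ a ∈ c, ∀ l, Joins l u0 a → l.Nodup → (∀ u ∈ l, u ∈ box r) →
      (∀ l', Joins l' u0 a → (∀ u ∈ l', u ∈ box r) → wt t l ≤ wt t l') →
      Follows l (γ 0) (γ 1) := by
  have h0' : γ 0 ∈ box r1 := box_mono (by omega) h0
  obtain ⟨k1, hk1i, hk10, hk1c, -, hk1T⟩ := hc.back_hit hn hr hγ hij h0'
  obtain ⟨n, hn0, hnj, hnc, -, -⟩ := hc.front_hit hn hr hγ hij h0'
  refine ⟨γ n, hnc, fun l hl hnd hbox hmin => ?_⟩
  -- the cheapest walk is not dearer than passing through the line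
  obtain ⟨w0, hw0, hw0A, hw0w⟩ := exists_Tin hn (hlink _ hk1c)
  obtain ⟨w1, hw1, hw1w, hw1m⟩ := hw0.exists_trans t (hγ.joins (show k1 ≤ n by omega))
  have hup : wt t l ≤ Tin t (ann r1 r) u0 (γ k1) + seg t γ k1 n := by
    refine (hmin w1 hw1 fun u hu => ?_).trans (by rw [hw1w, hw0w, hγ.wt_joins (by omega)])
    rcases (hw1m u).mp hu with h | h
    · exact (hw0A u h).1
    · obtain ⟨k, e1, e2, rfl⟩ := mem_segList.mp h
      exact hij.mem_chord (by omega) (by omega)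
  -- replace its first part by a walk from the exit
  obtain ⟨p, q, s, hlsplit, hqc, hpA⟩ := hc.first_hit hr hl hbox hu0 ⟨γ n, hl.last_mem, Or.inl hnc⟩
  obtain ⟨w2, hw2, hw2A, hw2w⟩ := exists_Tin hn ((hc.linked_exit hn hr hγ hij h0' hqc).1)
  have hls : Joins (q :: s) q (γ n) := (hlsplit ▸ hl).split_right
  have hlp : Tin t (ann r1 r) u0 q ≤ wt t (p ++ [q]) :=
    Tin_le hn.nonneg (hlsplit ▸ hl).split_left hpA
  have hwl : wt t l = wt t (p ++ [q]) + wt t (q :: s) := by rw [hlsplit, wt_split]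
  obtain ⟨w, hw, hww, hwm⟩ := hw2.exists_trans t hls
  have hcl := abs_lt.mp (hclose q hqc (γ k1) hk1c)
  have hseg : seg t γ i n = seg t γ i k1 + seg t γ k1 n := seg_add hk1i.le (by omega)
  have hlt : wt t w < seg t γ i n + M := by rw [hww, hw2w]; linarith
  -- so the good stretch is met
  obtain ⟨k, hk1, hk2, hkl⟩ : ∃ k : ℤ, -(R : ℤ) ≤ k ∧ k ≤ -1 ∧ γ k ∈ l := by
    by_contra hcon
    push Not at hcon
    have hiR := exit_beyond hγ h0 hLR hr1 hij.2.2.1
    have := hgood i n w (by have := hij.1; omega) hn0.le hw fun k e1 e2 hk => by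
      rcases (hwm (γ k)).mp hk with h | h
      · exact (hw2A _ h).2 (mem_inner_of_index hγ h0 hLR (by omega))
      · exact hcon k e1 e2 (by rw [hlsplit]; exact List.mem_append_right _ h)
    linarith
  -- from there on it is the line
  obtain ⟨p', s', hl'⟩ := List.mem_iff_append.mp hkl
  have hsj : Joins (γ k :: s') (γ k) (γ n) := (hl' ▸ hl).split_right
  have hpj : Joins (p' ++ [γ k]) u0 (γ k) := (hl' ▸ hl).split_left
  have hpw := wt_split t p' (γ k) s'
  obtain ⟨w3, hw3, hw3w, hw3m⟩ := hpj.exists_trans t (hγ.joins (show k ≤ n by omega))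
  have hle : wt t (γ k :: s') ≤ seg t γ k n := by
    have := hmin w3 hw3 fun u hu => by
      rcases (hw3m u).mp hu with h | h
      · refine hbox u ?_
        rw [hl']
        simp only [List.mem_append, List.mem_cons, List.not_mem_nil, or_false] at h ⊢
        tauto
      · obtain ⟨k', e1, e2, rfl⟩ := mem_segList.mp h
        have := hij.1
        exact hij.mem_chord (by have := exit_beyond hγ h0 hLR hr1 hij.2.2.1; omega) (by omega)
    rw [hl', hpw, hw3w, hγ.wt_joins (by omega)] at this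
    linarith
  have he := hγ.eq_segList hn (by omega) hsj hle
  obtain ⟨a, b, hab⟩ := follows_segList (γ := γ) (-k).toNat k (n - 1).toNat
  rw [show (-k).toNat + ((n - 1).toNat + 1) = (n - k).toNat by omega,
    show k + ((-k).toNat : ℤ) = 0 by omega, ← he, show (0 : ℤ) + 1 = 1 by norm_num] at hab
  exact ⟨p' ++ a, b, by rw [hl', hab, List.append_assoc]⟩

/-- A geodesic splits at each of its points into two geodesics. -/
lemma geo_split (hn : Nice t) {l : List V} {a b z : V} (hl : Joins l a b) (hw : wt t l ≤ T t a b)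
    (hz : z ∈ l) :
    ∃ p q, Joins p a z ∧ Joins q z b ∧ wt t p ≤ T t a z ∧ wt t q ≤ T t z b ∧
      ∀ u, u ∈ l ↔ u ∈ p ∨ u ∈ q := by
  obtain ⟨p, q, rfl⟩ := List.mem_iff_append.mp hz
  have h1 := hl.split_left
  have h2 := hl.split_right
  have e1 := P158.T_le hn.nonneg h1
  have e2 := P158.T_le hn.nonneg h2
  have e3 := T_triangle hn.nonneg a z b
  rw [wt_split] at hw
  refine ⟨p ++ [z], z :: q, h1, h2, by linarith, by linarith, fun u => ?_⟩
  simp only [List.mem_append, List.mem_cons, List.not_mem_nil, or_false]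
  tauto

/-- A geodesic through two points of a line passes the points between. -/
lemma mem_of_geo (hn : Nice t) (hγ : IsLine t γ) {l : List V} {a b : V} (hl : Joins l a b)
    (hw : wt t l ≤ T t a b) {p q : ℤ} (hp : γ p ∈ l) (hq : γ q ∈ l) {k : ℤ} (hpk : p ≤ k)
    (hkq : k ≤ q) : γ k ∈ l := by
  have hmid : ∀ m, Joins m (γ p) (γ q) → wt t m ≤ T t (γ p) (γ q) → γ k ∈ m := by
    intro m hm hmw
    rw [← hγ.seg_eq_T hn.nonneg (hpk.trans hkq)] at hmw
    rw [hγ.eq_segList hn (hpk.trans hkq) hm hmw]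
    exact mem_segList.mpr ⟨k, hpk, by omega, rfl⟩
  obtain ⟨l1, l2, h1, h2, hw1, hw2, hmem⟩ := geo_split hn hl hw hp
  rcases (hmem _).mp hq with h | h
  · obtain ⟨m1, m2, -, hm2, -, hm2w, hm⟩ := geo_split hn h1 hw1 h
    have := hmid m2.reverse hm2.symm (by rw [wt_reverse, T_comm hn.nonneg]; exact hm2w)
    exact (hmem _).mpr (Or.inl ((hm _).mpr (Or.inr (by simpa using this))))
  · obtain ⟨m1, m2, hm1, -, hm1w, -, hm⟩ := geo_split hn h2 hw2 h
    exact (hmem _).mpr (Or.inr ((hm _).mpr (Or.inl (hmid m1 hm1 hm1w))))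

/-- The geodesic between the best ring points for nearly the profiles of the two exits passes
through the origin of a line which is good on both sides. -/
theorem origin_mem (hn : Nice t) (hc : Ring t r1 r2 S N c) (hr1 : r1 < r) (hr : r2 < r)
    (hLR : L + R < r1) (hγ : IsLine t γ) (h0 : γ 0 ∈ box L) (hgood : GoodTwo t γ R M) {i j : ℤ}
    (hij : Exits γ r i j) {u0 w0 : V}
    (hcu : ∀ a ∈ c, ∀ b ∈ c, |(Tin t (ann r1 r) (γ i) a - Tin t (ann r1 r) u0 a) -
      (Tin t (ann r1 r) (γ i) b - Tin t (ann r1 r) u0 b)| < M / 2)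
    (hcw : ∀ a ∈ c, ∀ b ∈ c, |(Tin t (ann r1 r) (γ j) a - Tin t (ann r1 r) w0 a) -
      (Tin t (ann r1 r) (γ j) b - Tin t (ann r1 r) w0 b)| < M / 2)
    {a b : V} (ha : a ∈ c) (hb : b ∈ c)
    (hmin : ∀ a' ∈ c, ∀ b' ∈ c, Tin t (ann r1 r) u0 a + T t a b + Tin t (ann r1 r) w0 b ≤
      Tin t (ann r1 r) u0 a' + T t a' b' + Tin t (ann r1 r) w0 b')
    {l : List V} (hl : Joins l a b) (hw : wt t l ≤ T t a b) : γ 0 ∈ l := by
  have h0' : γ 0 ∈ box r1 := box_mono (by omega) h0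
  obtain ⟨k1, hk1i, hk10, hk1c, -, hk1T⟩ := hc.back_hit hn hr hγ hij h0'
  obtain ⟨n, hn0, hnj, hnc, -, hnT⟩ := hc.front_hit hn hr hγ hij h0'
  obtain ⟨wu, hwu, hwuA, hwuw⟩ := exists_Tin hn (hc.linked_exit hn hr hγ hij h0' ha).1
  obtain ⟨wv, hwv, hwvA, hwvw⟩ := exists_Tin hn (hc.linked_exit hn hr hγ hij h0' hb).2
  obtain ⟨w1, hw1, hw1w, hw1m⟩ := hwu.exists_trans t hl
  obtain ⟨w, hwj, hww, hwm⟩ := hw1.exists_trans t hwv.symm
  have hcl := abs_lt.mp (hcu a ha (γ k1) hk1c)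
  have hcl' := abs_lt.mp (hcw b hb (γ n) hnc)
  have hm := hmin _ hk1c _ hnc
  rw [← hγ.seg_eq_T hn.nonneg (show k1 ≤ n by omega)] at hm
  have hseg : seg t γ i j = seg t γ i k1 + seg t γ k1 n + seg t γ n j := by
    rw [seg_add hk1i.le (show k1 ≤ j by omega), seg_add (show k1 ≤ n by omega) hnj.le]; ring
  have hlt : wt t w < seg t γ i j + M := by
    rw [hww, hw1w, wt_reverse, hwuw, hwvw]; linarith
  have hiR := exit_beyond hγ h0 hLR hr1 hij.2.2.1
  have hjR := exit_beyond hγ h0 hLR hr1 hij.2.2.2.1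
  have hi0 := hij.1
  have hj0 := hij.2.1
  have hmem : ∀ {k : ℤ}, k.natAbs ≤ R → γ k ∈ w → γ k ∈ l := by
    intro k hk hkw
    rcases (hwm _).mp hkw with h | h
    · rcases (hw1m _).mp h with h | h
      · exact absurd (mem_inner_of_index hγ h0 hLR hk) (hwuA _ h).2
      · exact h
    · exact absurd (mem_inner_of_index hγ h0 hLR hk) (hwvA _ (by simpa using h)).2
  obtain ⟨p, hp1, hp2, hpl⟩ : ∃ k : ℤ, -(R : ℤ) ≤ k ∧ k ≤ -1 ∧ γ k ∈ w := by
    by_contra hcon
    push Not at hcon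
    have := hgood.1 i j w (by omega) hj0.le hwj hcon
    linarith
  obtain ⟨q, hq1, hq2, hql⟩ : ∃ k : ℤ, -(R : ℤ) ≤ k ∧ k ≤ -1 ∧ rev γ k ∈ w := by
    by_contra hcon
    push Not at hcon
    have := hgood.2 (-j) (-i) w.reverse (by omega) (by omega) (by simpa [rev] using hwj.symm)
      (fun k e1 e2 => by simpa using hcon k e1 e2)
    rw [seg_rev, wt_reverse, neg_neg, neg_neg] at this
    linarith
  exact mem_of_geo hn hγ hl hw (hmem (by omega) hpl) (hmem (k := -q) (by omega) hql)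
    (by omega) (by omega)

end Vale.Agent.P158
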