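import Vale.Agent.P158.KeyLemma
import Vale.Agent.P158.Config

/-!
P158, key lemma applied: almost surely, a point on a line is arbitrarily good on both sides, and
a branch point is arbitrarily good on the shared half, at some finite radius.
-/

open MeasureTheory Filter
open scoped Topology ENNReal

namespace Vale.Agent.P158

namespace Key

/-- The configurations of a branch at `v` with previous point `u`. -/
def BranchConf (v u : V) : Set (Env × (Seq0 v × Seq0 v)) :=
  {q | IsLine q.1 q.2.1.1 ∧ IsLine q.1 q.2.2.1 ∧ (∀ k : ℤ, k ≤ 0 → q.2.1.1 k = q.2.2.1 k) ∧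
    q.2.1.1 1 ≠ q.2.2.1 1 ∧ q.2.1.1 (-1) = u}

/-- The configurations of a line through `u`, `v`, `w`. -/
def LineConf (v u w : V) : Set (Env × Seq0 v) :=
  {q | IsLine q.1 q.2.1 ∧ q.2.1 (-1) = u ∧ q.2.1 1 = w}

lemma continuous_seq {v : V} (k : ℤ) : Continuous fun γ : Seq0 v => γ.1 k :=
  (continuous_apply k).comp continuous_subtype_val

lemma isClosed_branchConf (v u : V) : IsClosed (BranchConf v u) := by
  have h1 : Continuous fun q : Env × (Seq0 v × Seq0 v) => (q.1, q.2.1.1) :=
    continuous_fst.prodMk (continuous_subtype_val.comp (continuous_fst.comp continuous_snd))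
  have h2 : Continuous fun q : Env × (Seq0 v × Seq0 v) => (q.1, q.2.2.1) :=
    continuous_fst.prodMk (continuous_subtype_val.comp (continuous_snd.comp continuous_snd))
  have ha : ∀ k, Continuous fun q : Env × (Seq0 v × Seq0 v) => (q.2.1.1 k, q.2.2.1 k) := fun k =>
    ((continuous_seq k).comp (continuous_fst.comp continuous_snd)).prodMk
      ((continuous_seq k).comp (continuous_snd.comp continuous_snd))
  have hs : BranchConf v u = (fun q : Env × (Seq0 v × Seq0 v) => (q.1, q.2.1.1)) ⁻¹' {q | IsLine q.1 q.2} ∩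
      ((fun q : Env × (Seq0 v × Seq0 v) => (q.1, q.2.2.1)) ⁻¹' {q | IsLine q.1 q.2} ∩
      ((⋂ (k : ℤ) (_ : k ≤ 0), (fun q : Env × (Seq0 v × Seq0 v) => (q.2.1.1 k, q.2.2.1 k)) ⁻¹' {p | p.1 = p.2}) ∩
      ((fun q : Env × (Seq0 v × Seq0 v) => (q.2.1.1 1, q.2.2.1 1)) ⁻¹' {p | p.1 ≠ p.2} ∩
      (fun q : Env × (Seq0 v × Seq0 v) => (q.2.1.1 (-1), q.2.2.1 (-1))) ⁻¹' {p | p.1 = u}))) := by
    ext q
    simp [BranchConf]
  rw [hs]
  exact (isClosed_isLine.preimage h1).inter ((isClosed_isLine.preimage h2).inter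
    ((isClosed_iInter fun k => isClosed_iInter fun _ => (isClosed_discrete _).preimage (ha k)).inter
      (((isClosed_discrete _).preimage (ha 1)).inter ((isClosed_discrete _).preimage (ha (-1))))))

lemma isClosed_lineConf (v u w : V) : IsClosed (LineConf v u w) := by
  have h1 : Continuous fun q : Env × Seq0 v => (q.1, q.2.1) :=
    continuous_fst.prodMk (continuous_subtype_val.comp continuous_snd)
  have hs : LineConf v u w = (fun q : Env × Seq0 v => (q.1, q.2.1)) ⁻¹' {q | IsLine q.1 q.2} ∩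
      (fun q : Env × Seq0 v => (q.2.1 (-1), q.2.1 1)) ⁻¹' {(u, w)} := by
    ext q
    simp [LineConf]
  rw [hs]
  exact (isClosed_isLine.preimage h1).inter ((isClosed_discrete _).preimage
    (((continuous_seq (-1)).comp continuous_snd).prodMk ((continuous_seq 1).comp continuous_snd)))

lemma usc_gB_comp {X : Type*} [TopologicalSpace X] (R : ℕ) {f : X → Env × (ℤ → V)}
    (hf : Continuous f) : UpperSemicontinuous fun x => gB (f x).1 (f x).2 R := by
  intro x y hy
  exact hf.continuousAt.eventually (usc_gB R (f x) y hy)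

open Classical in
/-- One plus the smaller excess of the shared half, on branches. -/
noncomputable def FB (v u : V) (R : ℕ) (t : Env) (c : Seq0 v × Seq0 v) : ℝ :=
  if (t, c) ∈ BranchConf v u then 1 + min (gB t c.1.1 R) (gB t c.2.1 R) else -1

open Classical in
/-- One plus both excesses, on lines. -/
noncomputable def FL (v u w : V) (R : ℕ) (t : Env) (c : Seq0 v) : ℝ :=
  if (t, c) ∈ LineConf v u w then 1 + gB t c.1 R + gB t (rev c.1) R else -1

lemma usc_FB (v u : V) (R : ℕ) :
    UpperSemicontinuous fun q : Env × (Seq0 v × Seq0 v) => FB v u R q.1 q.2 := by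
  classical
  have h : UpperSemicontinuous fun q : Env × (Seq0 v × Seq0 v) =>
      1 + min (gB q.1 q.2.1.1 R) (gB q.1 q.2.2.1 R) := by
    intro q y hy
    have hy' : min (gB q.1 q.2.1.1 R) (gB q.1 q.2.2.1 R) < y - 1 := by linarith
    rcases min_lt_iff.1 hy' with h1 | h1
    · filter_upwards [usc_gB_comp R (f := fun q : Env × (Seq0 v × Seq0 v) => (q.1, q.2.1.1))
        (continuous_fst.prodMk (continuous_subtype_val.comp (continuous_fst.comp continuous_snd)))
        q (y - 1) h1] with q' hq'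
      have := min_le_left (gB q'.1 q'.2.1.1 R) (gB q'.1 q'.2.2.1 R)
      linarith
    · filter_upwards [usc_gB_comp R (f := fun q : Env × (Seq0 v × Seq0 v) => (q.1, q.2.2.1))
        (continuous_fst.prodMk (continuous_subtype_val.comp (continuous_snd.comp continuous_snd)))
        q (y - 1) h1] with q' hq'
      have := min_le_right (gB q'.1 q'.2.1.1 R) (gB q'.1 q'.2.2.1 R)
      linarith
  exact usc_ite (isClosed_branchConf v u) h fun q => by
    have := gB_nonneg q.1 q.2.1.1 R; have := gB_nonneg q.1 q.2.2.1 R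
    positivity

lemma usc_FL (v u w : V) (R : ℕ) :
    UpperSemicontinuous fun q : Env × Seq0 v => FL v u w R q.1 q.2 := by
  classical
  have h : UpperSemicontinuous fun q : Env × Seq0 v =>
      1 + gB q.1 q.2.1 R + gB q.1 (rev q.2.1) R :=
    (upperSemicontinuous_const.add (usc_gB_comp R (f := fun q : Env × Seq0 v => (q.1, q.2.1))
      (continuous_fst.prodMk (continuous_subtype_val.comp continuous_snd)))).add
      (usc_gB_comp R (f := fun q : Env × Seq0 v => (q.1, rev q.2.1))
        (continuous_fst.prodMk (continuous_rev.comp (continuous_subtype_val.comp continuous_snd))))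
  exact usc_ite (isClosed_lineConf v u w) h fun q => by
    have := gB_nonneg q.1 q.2.1 R; have := gB_nonneg q.1 (rev q.2.1) R
    positivity

lemma FB_abs_le (v u : V) (R : ℕ) (t : Env) (c : Seq0 v × Seq0 v) : |FB v u R t c| ≤ 2 := by
  unfold FB
  split_ifs
  · have := gB_nonneg t c.1.1 R; have := gB_nonneg t c.2.1 R
    have := gB_le_one t c.1.1 R; have := min_le_left (gB t c.1.1 R) (gB t c.2.1 R)
    rw [abs_of_nonneg (by positivity)]
    linarith
  · norm_num

lemma FL_abs_le (v u w : V) (R : ℕ) (t : Env) (c : Seq0 v) : |FL v u w R t c| ≤ 3 := by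
  unfold FL
  split_ifs
  · have := gB_nonneg t c.1 R; have := gB_nonneg t (rev c.1) R
    have := gB_le_one t c.1 R; have := gB_le_one t (rev c.1) R
    rw [abs_of_nonneg (by positivity)]
    linarith
  · norm_num

/-- The two orientations of a sequence. -/
def side (γ : ℤ → V) : Bool → ℤ → V
  | false => γ
  | true => rev γ

lemma isLine_side {t : Env} {γ : ℤ → V} (h : IsLine t γ) : ∀ i, IsLine t (side γ i)
  | false => h
  | true => isLine_rev h

lemma rev_rev' (γ : ℤ → V) : rev (rev γ) = γ := by funext i; simp [rev]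

lemma gB_side_add (t : Env) (γ : ℤ → V) (R : ℕ) : ∀ i,
    gB t γ R + gB t (rev γ) R = gB t (side γ i) R + gB t (rev (side γ i)) R
  | false => rfl
  | true => by rw [side, rev_rev', add_comm]

variable {G : Measure ℝ} [IsProbabilityMeasure G] [NullSingletonClass G]

theorem branch_top (hnn : G (Set.Iio 0) = 0) (hNice : ∀ᵐ t ∂law G, Nice t) (v u : V) :
    ∀ᵐ t ∂law G, 0 < top (FB v u) t → 2 ≤ top (FB v u) t := by
  refine key_lemma (μ := G) hnn (F := FB v u) (usc_FB v u) (FB_abs_le v u) (ι := Unit)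
    (fun c _ p => bEdge c.1.1 p) (fun i p e => (isClosed_bEdge_ne p e).preimage
      (continuous_subtype_val.comp continuous_fst))
    (stretches v) (card_stretches v) (size_stretches v) (Gen := Nice) hNice fun κ hκ δ hδ => ?_
  have hη : 0 < 1 - Real.exp (-κ) := by
    have : Real.exp (-κ) < 1 := Real.exp_lt_one_iff.2 (by linarith)
    linarith
  refine ⟨δ * (1 - Real.exp (-κ)) / 2, by positivity, fun t ht h0 h1 => ?_⟩
  obtain ⟨⟨R, c⟩, hc⟩ := exists_lt_of_lt_ciSup
    (f := fun p : ℕ × (Seq0 v × Seq0 v) => FB v u p.1 t p.2)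
    (show max (top (FB v u) t - δ * (1 - Real.exp (-κ)) / 2) 0 < top (FB v u) t from
      max_lt (by linarith [mul_pos hδ hη]) h0)
  change _ < FB v u R t c at hc
  have hmem : (t, c) ∈ BranchConf v u := by
    by_contra h
    simp only [FB, h, if_false] at hc
    linarith [le_max_right (top (FB v u) t - δ * (1 - Real.exp (-κ)) / 2) 0]
  obtain ⟨hl1, hl2, hag, hsp, hu⟩ := hmem
  dsimp only at hl1 hl2 hag hsp hu
  have ht0 : ∀ e, 0 ≤ t e := fun e => (ht.pos e).le
  refine ⟨c, (), fun n => mem_stretches c.1.2.1 c.1.2.2 hl1.inj n, ?_⟩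
  filter_upwards [eventually_ge_atTop R] with p hp s hs hsle hgen
  set k : ℤ := -(p : ℤ) - 1 with hk
  set e : Sym2 V := bEdge c.1.1 p with he
  have hse : s ≤ t e := by linarith
  have he2 : e = s(c.2.1 k, c.2.1 (k + 1)) := by
    rw [he, bEdge, hag _ (by omega), hag _ (by omega)]
  have hm1 : IsLine (Function.update t e s) c.1.1 := isLine_lower ht0 hl1 hs hse
  have hm2 : IsLine (Function.update t e s) c.2.1 := by
    rw [he2] at hse ⊢
    exact isLine_lower ht0 hl2 hs hse
  have hr1 := gB_raise hl1 (R := p + 1) (k := k) (s := s) (κ := κ) (by push_cast; omega)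
    (by omega) hκ.le hsle
  have hr2 := gB_raise hl2 (R := p + 1) (k := k) (s := s) (κ := κ) (by push_cast; omega)
    (by omega) hκ.le (by rw [← he2]; exact hsle)
  rw [← he2] at hr2
  change _ ≤ gB (Function.update t e s) c.1.1 (p + 1) at hr1
  have hnew : (Function.update t e s, c) ∈ BranchConf v u := ⟨hm1, hm2, hag, hsp, hu⟩
  have hgain : top (FB v u) t + δ * (1 - Real.exp (-κ)) / 2 ≤
      top (FB v u) (Function.update t e s) := by
    refine le_trans ?_ (le_top (fun R t c => (abs_le.1 (FB_abs_le v u R t c)).2) (p + 1) _ c)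
    have hold : FB v u R t c = 1 + min (gB t c.1.1 R) (gB t c.2.1 R) :=
      if_pos ⟨hl1, hl2, hag, hsp, hu⟩
    simp only [FB, hnew, if_true]
    set m := min (gB t c.1.1 R) (gB t c.2.1 R)
    have hη1 : 1 - Real.exp (-κ) ≤ 1 := by linarith [Real.exp_pos (-κ)]
    have hm_1 : m ≤ gB t c.1.1 (p + 1) := (min_le_left _ _).trans (gB_mono t _ (by omega))
    have hm_2 : m ≤ gB t c.2.1 (p + 1) := (min_le_right _ _).trans (gB_mono t _ (by omega))
    have hmtop : 1 + m ≤ 2 - δ :=
      hold ▸ (le_top (fun R t c => (abs_le.1 (FB_abs_le v u R t c)).2) R t c).trans h1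
    have hkey : m + δ * (1 - Real.exp (-κ)) ≤
        min (gB (Function.update t e s) c.1.1 (p + 1)) (gB (Function.update t e s) c.2.1 (p + 1)) :=
      le_min (le_trans (by nlinarith) hr1) (le_trans (by nlinarith) hr2)
    linarith [le_max_left (top (FB v u) t - δ * (1 - Real.exp (-κ)) / 2) 0]
  refine ⟨hgain, fun c' R' hlt => ?_⟩
  have hmem' : (Function.update t e s, c') ∈ BranchConf v u := by
    by_contra h
    simp only [FB, h, if_false] at hlt
    linarith [mul_pos hδ hη]
  obtain ⟨gl1, gl2, gag, gsp, gu⟩ := hmem'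
  dsimp only at gl1 gl2 gag gsp gu
  by_cases hno : (∀ i, s(c'.1.1 i, c'.1.1 (i + 1)) ≠ e) ∧ ∀ i, s(c'.2.1 i, c'.2.1 (i + 1)) ≠ e
  · exfalso
    obtain ⟨p1, q1⟩ := line_of_missing hse hno.1 gl1
    obtain ⟨p2, q2⟩ := line_of_missing hse hno.2 gl2
    have hle := le_top (fun R t c => (abs_le.1 (FB_abs_le v u R t c)).2) R' t c'
    simp only [FB, show (t, c') ∈ BranchConf v u from ⟨p1, p2, gag, gsp, gu⟩, if_true] at hle
    simp only [FB, show (Function.update t e s, c') ∈ BranchConf v u from ⟨gl1, gl2, gag, gsp, gu⟩,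
      if_true] at hlt
    linarith [min_le_min (q1 R') (q2 R'), mul_pos hδ hη]
  · -- some component contains the left end of the edge
    have hpt : ∃ j, c'.1.1 j = c.1.1 k ∨ c'.2.1 j = c.1.1 k := by
      rw [not_and_or] at hno
      rcases hno with h | h <;> push Not at h <;> obtain ⟨i, hi⟩ := h <;>
        rcases Sym2.eq_iff.1 hi with ⟨a, -⟩ | ⟨-, b⟩
      · exact ⟨i, .inl a⟩
      · exact ⟨i + 1, .inl b⟩
      · exact ⟨i, .inr a⟩
      · exact ⟨i + 1, .inr b⟩
    have hkey : ∀ j (d : Seq0 v), IsLine (Function.update t e s) d.1 → d.1 (-1) = u →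
        d.1 j = c.1.1 k → bEdge d.1 p = e := by
      intro j d hd hdu hj
      obtain ⟨-, hall⟩ := agree_back hgen hm1 hd (c.1.2.1.trans d.2.1.symm) (hu.trans hdu.symm)
        (show k < 0 by omega) hj.symm
      rw [he, bEdge, bEdge, hall _ le_rfl (by omega), hall (k + 1) (by omega) (by omega)]
    obtain ⟨j, hj | hj⟩ := hpt
    · exact hkey j c'.1 gl1 gu hj
    · change bEdge c'.1.1 p = e
      rw [bEdge, gag _ (by omega), gag _ (by omega)]
      exact hkey j c'.2 gl2 ((gag (-1) (by omega)).symm.trans gu) hj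

theorem line_top (hnn : G (Set.Iio 0) = 0) (hNice : ∀ᵐ t ∂law G, Nice t) (v u w : V) :
    ∀ᵐ t ∂law G, 0 < top (FL v u w) t → 3 ≤ top (FL v u w) t := by
  refine key_lemma (μ := G) hnn (F := FL v u w) (usc_FL v u w) (FL_abs_le v u w) (ι := Bool)
    (fun c i p => bEdge (side c.1 i) p) (fun i p e => ?_)
    (stretches v) (card_stretches v) (size_stretches v) (Gen := Nice) hNice fun κ hκ δ hδ => ?_
  · refine (isClosed_bEdge_ne p e).preimage ?_
    cases i
    · exact continuous_subtype_val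
    · exact continuous_rev.comp continuous_subtype_val
  have hη : 0 < 1 - Real.exp (-κ) := by
    have : Real.exp (-κ) < 1 := Real.exp_lt_one_iff.2 (by linarith)
    linarith
  refine ⟨δ * (1 - Real.exp (-κ)) / 4, by positivity, fun t ht h0 h1 => ?_⟩
  obtain ⟨⟨R, c⟩, hc⟩ := exists_lt_of_lt_ciSup (f := fun p : ℕ × Seq0 v => FL v u w p.1 t p.2)
    (show max (top (FL v u w) t - δ * (1 - Real.exp (-κ)) / 4) 0 < top (FL v u w) t from
      max_lt (by linarith [mul_pos hδ hη]) h0)
  change _ < FL v u w R t c at hc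
  have hmem : (t, c) ∈ LineConf v u w := by
    by_contra h
    simp only [FL, h, if_false] at hc
    linarith [le_max_right (top (FL v u w) t - δ * (1 - Real.exp (-κ)) / 4) 0]
  obtain ⟨hl, hu, hw⟩ := hmem
  dsimp only at hl hu hw
  have ht0 : ∀ e, 0 ≤ t e := fun e => (ht.pos e).le
  have hsum : ∀ R', 1 + gB t c.1 R' + gB t (rev c.1) R' ≤ 3 - δ := fun R' => by
    have := le_top (fun R t c => (abs_le.1 (FL_abs_le v u w R t c)).2) R' t c
    simp only [FL, show (t, c) ∈ LineConf v u w from ⟨hl, hu, hw⟩, if_true] at this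
    linarith
  obtain ⟨i, hi⟩ : ∃ i, ∀ R', gB t (side c.1 i) R' ≤ 1 - δ / 2 := by
    by_contra hall
    push Not at hall
    obtain ⟨R1, h1'⟩ := hall false
    obtain ⟨R2, h2'⟩ := hall true
    simp only [side] at h1' h2'
    linarith [hsum (max R1 R2), gB_mono t c.1 (le_max_left R1 R2),
      gB_mono t (rev c.1) (le_max_right R1 R2)]
  set σ := side c.1 i with hσ
  have hlσ : IsLine t σ := isLine_side hl i
  have hσ0 : σ 0 = v := by cases i <;> simp [hσ, side, rev, c.2.1]
  refine ⟨c, i, fun n => mem_stretches hσ0 hlσ.adj hlσ.inj n, ?_⟩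
  filter_upwards [eventually_ge_atTop R] with p hp s hs hsle hgen
  set k : ℤ := -(p : ℤ) - 1 with hk
  set e : Sym2 V := bEdge σ p with he
  have hse : s ≤ t e := by linarith
  have hmσ : IsLine (Function.update t e s) σ := isLine_lower ht0 hlσ hs hse
  have hmc : IsLine (Function.update t e s) c.1 := by
    have h' := isLine_side hmσ i
    cases i
    · exact h'
    · simpa [hσ, side, rev_rev'] using h'
  have hraise := gB_raise hlσ (R := p + 1) (k := k) (s := s) (κ := κ) (by push_cast; omega)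
    (by omega) hκ.le hsle
  change _ ≤ gB (Function.update t e s) σ (p + 1) at hraise
  have he2 : e = s(rev σ p, rev σ ((p : ℤ) + 1)) := by
    rw [he, ← bEdge_rev, rev_rev']
  have hkeep : gB t (rev σ) (p + 1) ≤ gB (Function.update t e s) (rev σ) (p + 1) := by
    rw [he2] at hse ⊢
    exact gB_keep ht0 (isLine_rev hlσ) hs hse (by omega) _
  have hgain : top (FL v u w) t + δ * (1 - Real.exp (-κ)) / 4 ≤
      top (FL v u w) (Function.update t e s) := by
    refine le_trans ?_ (le_top (fun R t c => (abs_le.1 (FL_abs_le v u w R t c)).2) (p + 1) _ c)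
    simp only [FL, show (Function.update t e s, c) ∈ LineConf v u w from ⟨hmc, hu, hw⟩, if_true]
    simp only [FL, show (t, c) ∈ LineConf v u w from ⟨hl, hu, hw⟩, if_true] at hc
    rw [add_assoc, gB_side_add (Function.update t e s) c.1 (p + 1) i]
    rw [add_assoc, gB_side_add t c.1 R i] at hc
    rw [← hσ] at hc ⊢
    have hη1 : 1 - Real.exp (-κ) ≤ 1 := by linarith [Real.exp_pos (-κ)]
    have ha := gB_mono t σ (show R ≤ p + 1 by omega)
    have hb := gB_mono t (rev σ) (show R ≤ p + 1 by omega)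
    have := le_max_left (top (FL v u w) t - δ * (1 - Real.exp (-κ)) / 4) 0
    nlinarith [hi (p + 1)]
  refine ⟨hgain, fun c' R' hlt => ?_⟩
  have hmem' : (Function.update t e s, c') ∈ LineConf v u w := by
    by_contra h
    simp only [FL, h, if_false] at hlt
    linarith [mul_pos hδ hη]
  obtain ⟨gl, gu, gw⟩ := hmem'
  dsimp only at gl gu gw
  by_cases hno : ∀ j, s(c'.1 j, c'.1 (j + 1)) ≠ e
  · exfalso
    obtain ⟨p1, q1⟩ := line_of_missing hse hno gl
    have hno' : ∀ j, s(rev c'.1 j, rev c'.1 (j + 1)) ≠ e := fun j => by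
      have := hno (-(j + 1))
      simpa [rev, show -(j + 1) + 1 = -j by ring, Sym2.eq_swap] using this
    obtain ⟨-, q2⟩ := line_of_missing hse hno' (isLine_rev gl)
    have hle := le_top (fun R t c => (abs_le.1 (FL_abs_le v u w R t c)).2) R' t c'
    simp only [FL, show (t, c') ∈ LineConf v u w from ⟨p1, gu, gw⟩, if_true] at hle
    simp only [FL, show (Function.update t e s, c') ∈ LineConf v u w from ⟨gl, gu, gw⟩, if_true] at hlt
    linarith [q1 R', q2 R', mul_pos hδ hη]
  · push Not at hno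
    obtain ⟨j0, hj0⟩ := hno
    obtain ⟨j, hj⟩ : ∃ j, c'.1 j = σ k := by
      rcases Sym2.eq_iff.1 hj0 with ⟨a, -⟩ | ⟨-, b⟩
      · exact ⟨j0, a⟩
      · exact ⟨j0 + 1, b⟩
    have hd : IsLine (Function.update t e s) (side c'.1 i) := isLine_side gl i
    have hd1 : σ (-1) = side c'.1 i (-1) := by
      cases i <;> simp [hσ, side, rev, hu, hw, gu, gw]
    have hd0 : σ 0 = side c'.1 i 0 := by
      cases i <;> simp [hσ, side, rev, c.2.1, c'.2.1]
    obtain ⟨j', hj'⟩ : ∃ j', σ k = side c'.1 i j' := by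
      cases i
      · exact ⟨j, hj.symm⟩
      · exact ⟨-j, by simp [side, rev, hj]⟩
    obtain ⟨-, hall⟩ := agree_back hgen hmσ hd hd0 hd1 (show k < 0 by omega) hj'
    change bEdge (side c'.1 i) p = e
    rw [he, bEdge, bEdge, hall _ le_rfl (by omega), hall (k + 1) (by omega) (by omega)]

end Key

variable {G : Measure ℝ} [IsProbabilityMeasure G]

open Key in
/-- **Key lemma, branches.** -/
theorem branch_good (hna : ∀ x, G {x} = 0) (hnn : G (Set.Iio 0) = 0)
    (hNice : ∀ᵐ t ∂law G, Nice t) :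
    ∀ᵐ t ∂law G, ∀ γ γ', IsBranch t γ γ' → ∀ M, ∃ R, BranchPt t (γ 0) R M := by
  have : NullSingletonClass G := ⟨hna⟩
  have h := ae_all_iff.2 fun v : V => ae_all_iff.2 fun u : V => branch_top hnn hNice v u
  filter_upwards [h] with t ht γ γ' hb M
  let c : Seq0 (γ 0) × Seq0 (γ 0) :=
    (⟨γ, rfl, hb.left.adj⟩, ⟨γ', (hb.agree 0 le_rfl).symm, hb.right.adj⟩)
  have hmem : (t, c) ∈ BranchConf (γ 0) (γ (-1)) := ⟨hb.left, hb.right, hb.agree, hb.split, rfl⟩
  have hle := le_top (fun R t c => (abs_le.1 (FB_abs_le (γ 0) (γ (-1)) R t c)).2) 0 t c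
  have hpos : 0 < top (FB (γ 0) (γ (-1))) t := by
    refine lt_of_lt_of_le ?_ hle
    simp only [FB, hmem, if_true]
    linarith [le_min (gB_nonneg t c.1.1 0) (gB_nonneg t c.2.1 0)]
  obtain ⟨⟨R, d⟩, hd⟩ := exists_lt_of_lt_ciSup
    (f := fun p : ℕ × (Seq0 (γ 0) × Seq0 (γ 0)) => FB (γ 0) (γ (-1)) p.1 t p.2)
    (show 1 + Key.sq (max M 0) < top (FB (γ 0) (γ (-1))) t by
      linarith [ht _ _ hpos, Key.sq_lt_one (max M 0)])
  dsimp only at hd
  by_cases hdm : (t, d) ∈ BranchConf (γ 0) (γ (-1))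
  · simp only [FB, hdm, if_true] at hd
    obtain ⟨l1, l2, ag, sp, -⟩ := hdm
    have hmin := lt_min_iff.1 (show Key.sq (max M 0) < min (gB t d.1.1 R) (gB t d.2.1 R) by linarith)
    have g1 := Key.goodB_of_lt (le_max_right M 0) hmin.1
    have g2 := Key.goodB_of_lt (le_max_right M 0) hmin.2
    exact ⟨R, d.1.1, d.2.1, ⟨l1, l2, ag, sp⟩, d.1.2.1,
      fun m n l hm hn hl hav => (le_max_left M 0).trans (g1 m n l hm hn hl hav),
      fun m n l hm hn hl hav => (le_max_left M 0).trans (g2 m n l hm hn hl hav)⟩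
  · simp only [FB, hdm, if_false] at hd
    have := Key.sq_mono (le_max_right M 0)
    simp only [Key.sq, neg_zero, Real.exp_zero, sub_self] at this hd
    linarith

open Key in
/-- **Key lemma, lines.** -/
theorem line_good (hna : ∀ x, G {x} = 0) (hnn : G (Set.Iio 0) = 0)
    (hNice : ∀ᵐ t ∂law G, Nice t) :
    ∀ᵐ t ∂law G, ∀ γ, IsLine t γ → ∀ M, ∃ R, LinePt t (γ 0) R M := by
  have : NullSingletonClass G := ⟨hna⟩
  have h := ae_all_iff.2 fun v : V => ae_all_iff.2 fun u : V => ae_all_iff.2 fun w : V =>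
    line_top hnn hNice v u w
  filter_upwards [h] with t ht γ hγ M
  let c : Seq0 (γ 0) := ⟨γ, rfl, hγ.adj⟩
  have hmem : (t, c) ∈ LineConf (γ 0) (γ (-1)) (γ 1) := ⟨hγ, rfl, rfl⟩
  have hle := le_top (fun R t c => (abs_le.1 (FL_abs_le (γ 0) (γ (-1)) (γ 1) R t c)).2) 0 t c
  have hpos : 0 < top (FL (γ 0) (γ (-1)) (γ 1)) t := by
    refine lt_of_lt_of_le ?_ hle
    simp only [FL, hmem, if_true]
    linarith [gB_nonneg t c.1 0, gB_nonneg t (rev c.1) 0]
  obtain ⟨⟨R, d⟩, hd⟩ := exists_lt_of_lt_ciSup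
    (f := fun p : ℕ × Seq0 (γ 0) => FL (γ 0) (γ (-1)) (γ 1) p.1 t p.2)
    (show 2 + Key.sq (max M 0) < top (FL (γ 0) (γ (-1)) (γ 1)) t by
      linarith [ht _ _ _ hpos, Key.sq_lt_one (max M 0)])
  dsimp only at hd
  by_cases hdm : (t, d) ∈ LineConf (γ 0) (γ (-1)) (γ 1)
  · simp only [FL, hdm, if_true] at hd
    obtain ⟨l1, -, -⟩ := hdm
    have g1 := Key.goodB_of_lt (le_max_right M 0)
      (show Key.sq (max M 0) < gB t d.1 R by linarith [gB_le_one t (rev d.1) R])
    have g2 := Key.goodB_of_lt (le_max_right M 0)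
      (show Key.sq (max M 0) < gB t (rev d.1) R by linarith [gB_le_one t d.1 R])
    exact ⟨R, d.1, l1, d.2.1,
      fun m n l hm hn hl hav => (le_max_left M 0).trans (g1 m n l hm hn hl hav),
      fun m n l hm hn hl hav => (le_max_left M 0).trans (g2 m n l hm hn hl hav)⟩
  · simp only [FL, hdm, if_false] at hd
    have := Key.sq_mono (le_max_right M 0)
    simp only [Key.sq, neg_zero, Real.exp_zero, sub_self] at this hd
    linarith

end Vale.Agent.P158
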