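import Vale.Agent.P158.Assembly
import Vale.Agent.P158.FarChange

/-!
P158: almost every environment is nice; long self-avoiding walks have few bad weights and are heavy.
-/

open MeasureTheory Filter
open scoped ENNReal Topology

namespace Vale.Agent.P158

/-- The edges of a walk, in order. -/
def edges : List V → List (Sym2 V)
  | [] => []
  | [_] => []
  | x :: y :: l => s(x, y) :: edges (y :: l)

lemma wt_eq_edges_sum (t : Env) : ∀ l : List V, wt t l = ((edges l).map t).sum
  | [] => by simp [edges]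
  | [_] => by simp [edges]
  | x :: y :: l => by simp [edges, wt_eq_edges_sum t (y :: l)]

lemma length_edges : ∀ l : List V, (edges l).length = l.length - 1
  | [] => rfl
  | [_] => rfl
  | x :: y :: l => by simp [edges, length_edges (y :: l)]

lemma mem_of_mem_edges {u : V} {e : Sym2 V} : ∀ {l : List V}, e ∈ edges l → u ∈ e → u ∈ l
  | [], h, _ => by simp [edges] at h
  | [_], h, _ => by simp [edges] at h
  | x :: y :: l, h, hu => by
    rcases List.mem_cons.1 (by simpa [edges] using h : e ∈ s(x, y) :: edges (y :: l)) with rfl | h'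
    · rcases Sym2.mem_iff.1 hu with rfl | rfl <;> simp
    · exact List.mem_cons_of_mem _ (mem_of_mem_edges h' hu)

lemma edges_nodup : ∀ {l : List V}, l.Nodup → (edges l).Nodup
  | [], _ => by simp [edges]
  | [_], _ => by simp [edges]
  | x :: y :: l, h => by
    rw [edges, List.nodup_cons]
    exact ⟨fun hm => (List.nodup_cons.1 h).1 (mem_of_mem_edges hm (Sym2.mem_mk_left x y)),
      edges_nodup (List.nodup_cons.1 h).2⟩

/-- A self-avoiding walk is determined by its first point and its set of edges. -/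
lemma eq_of_edges : ∀ {l l' : List V}, l.Nodup → l'.Nodup → l.head? = l'.head? →
    (edges l).toFinset = (edges l').toFinset → l = l'
  | [], [], _, _, _, _ => rfl
  | [], _ :: _, _, _, h, _ => by simp at h
  | _ :: _, [], _, _, h, _ => by simp at h
  | [a], [b], _, _, h, _ => by simpa using h
  | [a], b :: c :: r, _, _, _, h => by
    simp [edges] at h
    exact absurd h.symm (Finset.insert_ne_empty _ _)
  | a :: c :: r, [b], _, _, _, h => by simp [edges] at h
  | a :: b :: r, a' :: b' :: r', hd, hd', hh, he => by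
    obtain rfl : a = a' := by simpa using hh
    have hb : b = b' := by
      have : s(a, b) ∈ edges (a :: b' :: r') := by
        rw [← List.mem_toFinset, ← he]; simp [edges]
      rcases List.mem_cons.1 (by simpa [edges] using this :
          s(a, b) ∈ s(a, b') :: edges (b' :: r')) with h1 | h1
      · exact Sym2.congr_right.1 h1
      · exact absurd (mem_of_mem_edges h1 (Sym2.mem_mk_left a b)) (List.nodup_cons.1 hd').1
    subst hb
    have h1 : s(a, b) ∉ edges (b :: r) :=
      fun hm => (List.nodup_cons.1 hd).1 (mem_of_mem_edges hm (Sym2.mem_mk_left a b))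
    have h2 : s(a, b) ∉ edges (b :: r') :=
      fun hm => (List.nodup_cons.1 hd').1 (mem_of_mem_edges hm (Sym2.mem_mk_left a b))
    have := congrArg (fun s : Finset (Sym2 V) => s.erase s(a, b)) he
    simp only [edges, List.toFinset_cons] at this
    rw [Finset.erase_insert (by simpa using h1), Finset.erase_insert (by simpa using h2)] at this
    rw [eq_of_edges (List.nodup_cons.1 hd).2 (List.nodup_cons.1 hd').2 rfl this]

lemma wt_eq_finsetSum (t : Env) {l : List V} (h : l.Nodup) :
    wt t l = ∑ e ∈ (edges l).toFinset, t e := by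
  rw [wt_eq_edges_sum, List.sum_toFinset _ (edges_nodup h)]

lemma card_filter_edges {l : List V} (h : l.Nodup) (p : Sym2 V → Prop) [DecidablePred p] :
    ((edges l).toFinset.filter p).card = (edges l).countP (fun e => decide (p e)) := by
  rw [List.countP_eq_length_filter, ← List.toFinset_card_of_nodup ((edges_nodup h).filter _)]
  congr 1
  ext e
  simp

/-- The neighbours of a point. -/
def nbrs (x : V) : Finset V := {(x.1 + 1, x.2), (x.1 - 1, x.2), (x.1, x.2 + 1), (x.1, x.2 - 1)}

lemma mem_nbrs {x y : V} : y ∈ nbrs x ↔ Adj x y := by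
  simp only [nbrs, Finset.mem_insert, Finset.mem_singleton, Prod.ext_iff, Adj]
  omega

/-- The walks of `n` steps from a point. -/
def walks : V → ℕ → Finset (List V)
  | x, 0 => {[x]}
  | x, n + 1 => (nbrs x).biUnion fun y => (walks y n).image (List.cons x)

lemma mem_walks : ∀ {n : ℕ} {x : V} {l : List V},
    l ∈ walks x n ↔ l.IsChain Adj ∧ l.head? = some x ∧ l.length = n + 1
  | 0, x, l => by
    rw [walks, Finset.mem_singleton]
    constructor
    · rintro rfl; simp
    · rintro ⟨-, h, hl⟩
      obtain ⟨a, rfl⟩ := List.length_eq_one_iff.1 hl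
      simpa using h
  | n + 1, x, l => by
    simp only [walks, Finset.mem_biUnion, Finset.mem_image, mem_walks, mem_nbrs]
    constructor
    · rintro ⟨y, hy, r, ⟨hc, hh, hl⟩, rfl⟩
      obtain ⟨q, rfl⟩ := List.head?_eq_some_iff.1 hh
      exact ⟨List.isChain_cons_cons.2 ⟨hy, hc⟩, rfl, by simpa using hl⟩
    · rintro ⟨hc, hh, hl⟩
      obtain ⟨q, rfl⟩ := List.head?_eq_some_iff.1 hh
      cases q with
      | nil => simp at hl
      | cons y q =>
        exact ⟨y, (List.isChain_cons_cons.1 hc).1, y :: q,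
          ⟨(List.isChain_cons_cons.1 hc).2, rfl, by simpa using hl⟩, rfl⟩

lemma card_walks_le : ∀ (n : ℕ) (x : V), (walks x n).card ≤ 4 ^ n
  | 0, x => by simp [walks]
  | n + 1, x => by
    refine Finset.card_biUnion_le.trans ((Finset.sum_le_sum fun y _ =>
      Finset.card_image_le.trans (card_walks_le n y)).trans ?_)
    rw [Finset.sum_const, smul_eq_mul, pow_succ']
    exact Nat.mul_le_mul_right _ Finset.card_le_four

/-- The edge sets of the self-avoiding walks of `n` steps from a point. -/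
def walkEdges (x : V) (n : ℕ) : Finset (Finset (Sym2 V)) :=
  ((walks x n).filter List.Nodup).image fun l => (edges l).toFinset

lemma card_walkEdges_le (x : V) (n : ℕ) : (walkEdges x n).card ≤ 4 ^ n :=
  Finset.card_image_le.trans ((Finset.card_filter_le _ _).trans (card_walks_le n x))

lemma card_of_mem_walkEdges {x : V} {n : ℕ} {s : Finset (Sym2 V)} (hs : s ∈ walkEdges x n) :
    s.card = n := by
  obtain ⟨l, hl, rfl⟩ := Finset.mem_image.1 hs
  obtain ⟨h1, h2⟩ := Finset.mem_filter.1 hl
  rw [List.toFinset_card_of_nodup (edges_nodup h2), length_edges, (mem_walks.1 h1).2.2]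
  omega

lemma mem_walkEdges {x : V} {n : ℕ} {l : List V} (hc : l.IsChain Adj) (hh : l.head? = some x)
    (hl : l.length = n + 1) (hd : l.Nodup) : (edges l).toFinset ∈ walkEdges x n :=
  Finset.mem_image.2 ⟨l, Finset.mem_filter.2 ⟨mem_walks.2 ⟨hc, hh, hl⟩, hd⟩, rfl⟩

/-- Some self-avoiding walk of `n` steps from `x` has at least an eighth of its weights in `Bad`. -/
def ManyBad (Bad : Set ℝ) (x : V) (n : ℕ) : Set Env :=
  {t | ∃ s ∈ walkEdges x n, ∃ u ⊆ s, n ≤ 8 * u.card ∧ ∀ e ∈ u, t e ∈ Bad}

section law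

variable (G : Measure ℝ) [IsProbabilityMeasure G]

omit [IsProbabilityMeasure G] in
lemma law_eq : law G = P147.Resample.prodLaw G := rfl

lemma measure_manyBad {Bad : Set ℝ} (hB : MeasurableSet Bad) (hq : G Bad ≤ (16⁻¹ : ℝ≥0∞) ^ 8)
    (x : V) (n : ℕ) : law G (ManyBad Bad x n) ≤ (2⁻¹ : ℝ≥0∞) ^ n := by
  have hsub : ManyBad Bad x n ⊆ ⋃ s ∈ walkEdges x n,
      ⋃ u ∈ s.powerset.filter (fun u => n ≤ 8 * u.card), Set.pi (u : Set (Sym2 V)) fun _ => Bad := by
    rintro t ⟨s, hs, u, hu, hn, hb⟩
    simp only [Set.mem_iUnion, Finset.mem_filter, Finset.mem_powerset]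
    exact ⟨s, hs, u, ⟨hu, hn⟩, hb⟩
  calc law G (ManyBad Bad x n)
      ≤ ∑ s ∈ walkEdges x n, ∑ u ∈ s.powerset.filter (fun u => n ≤ 8 * u.card),
          law G (Set.pi (u : Set (Sym2 V)) fun _ => Bad) :=
        (measure_mono hsub).trans <| (measure_biUnion_finset_le _ _).trans
          (Finset.sum_le_sum fun s _ => measure_biUnion_finset_le _ _)
    _ ≤ ∑ s ∈ walkEdges x n, ∑ _u ∈ s.powerset, ((16⁻¹ : ℝ≥0∞) ^ n) := by
        refine Finset.sum_le_sum fun s _ => le_trans (Finset.sum_le_sum fun u hu => ?_)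
          (Finset.sum_le_sum_of_subset (Finset.filter_subset _ _))
        rw [law, Measure.infinitePi_pi _ fun _ _ => hB, Finset.prod_const]
        calc G Bad ^ u.card ≤ ((16⁻¹ : ℝ≥0∞) ^ 8) ^ u.card := pow_le_pow_left' hq _
          _ = (16⁻¹ : ℝ≥0∞) ^ (8 * u.card) := (pow_mul _ _ _).symm
          _ ≤ _ := pow_le_pow_right_of_le_one' (by norm_num) (Finset.mem_filter.1 hu).2
    _ ≤ ∑ _s ∈ walkEdges x n, ((2 : ℝ≥0∞) ^ n * (16⁻¹) ^ n) := by
        refine Finset.sum_le_sum fun s hs => ?_
        rw [Finset.sum_const, Finset.card_powerset, card_of_mem_walkEdges hs, nsmul_eq_mul]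
        simp
    _ ≤ (4 : ℝ≥0∞) ^ n * ((2 : ℝ≥0∞) ^ n * (16⁻¹) ^ n) := by
        rw [Finset.sum_const, nsmul_eq_mul]
        refine mul_le_mul' ?_ le_rfl
        exact_mod_cast card_walkEdges_le x n
    _ = (2⁻¹ : ℝ≥0∞) ^ n := by
        rw [← mul_pow, ← mul_pow]
        congr 1
        rw [show (16 : ℝ≥0∞) = 4 * 2 * 2 by norm_num,
          ENNReal.mul_inv (by norm_num) (by norm_num), ← mul_assoc, ← mul_assoc,
          ENNReal.mul_inv_cancel (by norm_num) (by finiteness), one_mul]

/-- **Few bad weights.** If `Bad` is unlikely then almost surely, from every point, all long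
self-avoiding walks have at most an eighth of their weights in `Bad`. -/
theorem few_bad {Bad : Set ℝ} [DecidablePred (· ∈ Bad)] (hB : MeasurableSet Bad)
    (hq : G Bad ≤ (16⁻¹ : ℝ≥0∞) ^ 8) :
    ∀ᵐ t ∂law G, ∀ v : V, ∃ n0, ∀ n, n0 ≤ n →
      (∀ s ∈ walkEdges v n, 8 * (s.filter fun e => t e ∈ Bad).card ≤ n) ∧
      ∀ l : List V, l.IsChain Adj → l.head? = some v → l.Nodup → l.length = n + 1 →
        8 * (edges l).countP (fun e => decide (t e ∈ Bad)) ≤ n := by
  refine ae_all_iff.2 fun v => ?_
  have hsum : ∑' n, law G (ManyBad Bad v n) ≠ ∞ := by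
    refine ne_top_of_le_ne_top ?_ (ENNReal.tsum_le_tsum fun n => measure_manyBad G hB hq v n)
    rw [ENNReal.tsum_geometric, ENNReal.one_sub_inv_two, inv_inv]
    norm_num
  filter_upwards [ae_eventually_notMem hsum] with t ht
  obtain ⟨n0, hn0⟩ := eventually_atTop.1 ht
  refine ⟨n0, fun n hn => ?_⟩
  have h1 : ∀ s ∈ walkEdges v n, 8 * (s.filter fun e => t e ∈ Bad).card ≤ n := fun s hs =>
    le_of_not_gt fun h => hn0 n hn ⟨s, hs, s.filter (fun e => t e ∈ Bad), Finset.filter_subset _ _,
      h.le, fun e he => (Finset.mem_filter.1 he).2⟩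
  refine ⟨h1, fun l hc hh hd hl => ?_⟩
  have := h1 _ (mem_walkEdges hc hh hl hd)
  rwa [card_filter_edges hd] at this

variable {G}

lemma ae_forall_pos (hna : ∀ x, G {x} = 0) (hnn : G (Set.Iio 0) = 0) :
    ∀ᵐ t ∂law G, ∀ e, 0 < t e := by
  refine ae_all_iff.2 fun e => ?_
  have h0 : ∀ᵐ s ∂G, 0 < s := by
    refine ae_iff.2 (measure_mono_null (t := Set.Iio 0 ∪ {0}) (fun s hs => ?_)
      (measure_union_null hnn (hna 0)))
    rcases lt_or_eq_of_le (not_lt.1 hs) with h | h
    · exact Or.inl h
    · exact Or.inr h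
  exact (measurePreserving_eval_infinitePi (fun _ : Sym2 V => G) e).quasiMeasurePreserving.ae h0

/-- A positive level below which there is little mass. -/
lemma exists_small_level (hna : ∀ x, G {x} = 0) (hnn : G (Set.Iio 0) = 0) {q : ℝ≥0∞} (hq : 0 < q) :
    ∃ a : ℝ, 0 < a ∧ G (Set.Iio a) ≤ q := by
  have hle : G (Set.Iic 0) = 0 := by
    rw [← Set.Iio_insert, Set.insert_eq]
    exact measure_union_null (hna 0) hnn
  have h := tendsto_measure_iInter_atTop (μ := G) (s := fun n : ℕ => Set.Iio (1 / (n + 1) : ℝ))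
    (fun n => measurableSet_Iio.nullMeasurableSet)
    (fun m n h => Set.Iio_subset_Iio (by gcongr)) ⟨0, measure_ne_top _ _⟩
  have he : (⋂ n : ℕ, Set.Iio (1 / ((n : ℝ) + 1))) = Set.Iic 0 := by
    ext x
    simp only [Set.mem_iInter, Set.mem_Iio, Set.mem_Iic]
    refine ⟨fun h => le_of_not_gt fun hx => ?_, fun h n => h.trans_lt (by positivity)⟩
    obtain ⟨n, hn⟩ := exists_nat_one_div_lt hx
    exact lt_asymm (h n) hn
  rw [he, hle] at h
  obtain ⟨n, hn⟩ := (h.eventually (eventually_le_nhds hq)).exists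
  exact ⟨1 / ((n : ℝ) + 1), by positivity, hn⟩

/-- Few small weights make a walk heavy. -/
lemma wt_ge_of_few {t : Env} (hn : ∀ e, 0 ≤ t e) (a : ℝ) (l : List V) :
    a * ((edges l).length - ((edges l).countP (fun e => decide (t e < a)) : ℝ)) ≤ wt t l := by
  rw [wt_eq_edges_sum]
  induction edges l with
  | nil => simp
  | cons e r ih =>
    simp only [List.map_cons, List.sum_cons, List.length_cons, List.countP_cons]
    by_cases h : t e < a
    · simp only [h, decide_true, if_true, Nat.cast_add, Nat.cast_one]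
      linarith [hn e]
    · simp only [h, decide_false, Bool.false_eq_true, if_false, Nat.cast_add, Nat.cast_one,
        add_zero]
      linarith [not_lt.1 h]

/-- Almost surely the bounded-weight self-avoiding walks from each point are finitely many. -/
lemma ae_fin (hna : ∀ x, G {x} = 0) (hnn : G (Set.Iio 0) = 0) :
    ∀ᵐ t ∂law G, ∀ (x : V) (C : ℝ),
      {l : List V | l.IsChain Adj ∧ l.Nodup ∧ l.head? = some x ∧ wt t l ≤ C}.Finite := by
  obtain ⟨a, ha, hG⟩ := exists_small_level hna hnn (q := (16⁻¹ : ℝ≥0∞) ^ 8) (by simp [pos_iff_ne_zero])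
  filter_upwards [few_bad G measurableSet_Iio hG, ae_forall_pos hna hnn] with t hfew hpos x C
  obtain ⟨n0, hn0⟩ := hfew x
  obtain ⟨n1, hn1⟩ := exists_nat_gt (C / (a / 2))
  refine (Set.Finite.subset ((Finset.range (max n0 n1 + 1)).biUnion (walks x)).finite_toSet ?_)
  rintro l ⟨hc, hd, hh, hw⟩
  simp only [Finset.coe_biUnion, Finset.mem_coe, Set.mem_iUnion, Finset.mem_range]
  obtain ⟨r, rfl⟩ := List.head?_eq_some_iff.1 hh
  refine ⟨r.length, ?_, mem_walks.2 ⟨hc, hh, by simp⟩⟩
  by_contra hlt
  have h8 := (hn0 r.length (by omega)).2 _ hc hh hd (by simp)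
  have h1 := wt_ge_of_few (fun e => (hpos e).le) a (x :: r)
  rw [length_edges, show (x :: r).length - 1 = r.length by simp] at h1
  simp only [Set.mem_Iio] at h8
  have hr : (n1 : ℝ) ≤ r.length := by exact_mod_cast (by omega : n1 ≤ r.length)
  have h8' : 8 * ((edges (x :: r)).countP (fun e => decide (t e < a)) : ℝ) ≤ r.length := by
    exact_mod_cast h8
  rw [div_lt_iff₀ (by positivity)] at hn1
  nlinarith

/-- Almost surely distinct self-avoiding walks with common ends have distinct weights. -/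
lemma ae_inj (hna : ∀ x, G {x} = 0) :
    ∀ᵐ t ∂law G, ∀ l l' : List V, ∀ x y, Joins l x y → Joins l' x y → l.Nodup → l'.Nodup →
      wt t l = wt t l' → l = l' := by
  refine ae_all_iff.2 fun l => ae_all_iff.2 fun l' => ae_all_iff.2 fun x => ae_all_iff.2 fun y => ?_
  by_cases h : Joins l x y ∧ Joins l' x y ∧ l.Nodup ∧ l'.Nodup ∧ l ≠ l'
  swap
  · refine ae_of_all _ fun t h1 h2 h3 h4 _ => ?_
    by_contra h5
    exact h ⟨h1, h2, h3, h4, h5⟩
  obtain ⟨h1, h2, h3, h4, h5⟩ := h
  have : NullSingletonClass G := ⟨hna⟩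
  set S := (edges l).toFinset
  set S' := (edges l').toFinset
  have hne : S ≠ S' := fun he => h5 (eq_of_edges h3 h4 (h1.first.trans h2.first.symm) he)
  set A : Set Env := {t | ∑ e ∈ S, t e = ∑ e ∈ S', t e}
  have hA : MeasurableSet A :=
    measurableSet_eq_fun (Finset.measurable_sum _ fun e _ => measurable_pi_apply e)
      (Finset.measurable_sum _ fun e _ => measurable_pi_apply e)
  obtain ⟨e, he⟩ : (symmDiff S S').Nonempty :=
    Finset.nonempty_iff_ne_empty.2 fun h0 => hne (symmDiff_eq_bot.1 h0)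
  have hzero : law G A = 0 := by
    rw [law_eq, ← lintegral_update_slice G e hA]
    refine (lintegral_congr fun ω => ?_).trans lintegral_zero
    refine Set.Subsingleton.measure_zero (fun s hs s' hs' => ?_) G
    simp only [A, Set.mem_ofPred_eq] at hs hs'
    rcases Finset.mem_symmDiff.1 he with ⟨hin, hout⟩ | ⟨hin, hout⟩
    · rw [← Finset.add_sum_erase _ _ hin, Function.update_self] at hs hs'
      rw [Finset.sum_update_of_notMem hout] at hs hs'
      rw [Finset.sum_update_of_notMem (Finset.notMem_erase e S)] at hs hs'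
      linarith
    · rw [← Finset.add_sum_erase _ _ hin, Function.update_self] at hs hs'
      rw [Finset.sum_update_of_notMem hout] at hs hs'
      rw [Finset.sum_update_of_notMem (Finset.notMem_erase e S')] at hs hs'
      linarith
  filter_upwards [measure_eq_zero_iff_ae_notMem.1 hzero] with t ht _ _ _ _ hw
  exact absurd (by rw [wt_eq_finsetSum t h3, wt_eq_finsetSum t h4] at hw; exact hw) ht

/-- **Almost every environment is nice.** -/
theorem nice_ae (hna : ∀ x, G {x} = 0) (hnn : G (Set.Iio 0) = 0) : ∀ᵐ t ∂law G, Nice t := by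
  filter_upwards [ae_forall_pos hna hnn, ae_fin hna hnn, ae_inj hna] with t h1 h2 h3
  exact ⟨h1, h2, h3⟩

/-- **Long walks are heavy.** -/
theorem long_paths (hna : ∀ x, G {x} = 0) (hnn : G (Set.Iio 0) = 0) :
    ∃ c : ℝ, 0 < c ∧ ∀ ε : ℝ, 0 < ε → ∃ L₀ : ℕ, ∀ L, L₀ ≤ L →
      law G (CheapPath c L) ≤ ENNReal.ofReal ε := by
  classical
  obtain ⟨a, ha, hG⟩ := exists_small_level hna hnn (q := (16⁻¹ : ℝ≥0∞) ^ 8) (by simp [pos_iff_ne_zero])
  refine ⟨a / 4, by positivity, fun ε hε => ?_⟩
  have hlim : Tendsto (fun L : ℕ => (81 * (L : ℝ≥0∞) ^ 2) * (2 * 2⁻¹ ^ L)) atTop (𝓝 0) := by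
    have h := (tendsto_pow_const_mul_const_pow_of_abs_lt_one 2 (r := (2⁻¹ : ℝ))
      (by norm_num)).const_mul 162
    rw [mul_zero] at h
    have := ENNReal.tendsto_ofReal h
    rw [ENNReal.ofReal_zero] at this
    refine this.congr fun L => ?_
    rw [ENNReal.ofReal_mul (by norm_num), ENNReal.ofReal_mul (by positivity),
      ENNReal.ofReal_pow (by positivity), ENNReal.ofReal_pow (by norm_num),
      ENNReal.ofReal_natCast, ENNReal.ofReal_inv_of_pos (by norm_num),
      show ENNReal.ofReal 162 = 81 * 2 by norm_num]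
    simp only [ENNReal.ofReal_ofNat]
    ring
  obtain ⟨L₀, hL₀⟩ := eventually_atTop.1
    (hlim.eventually (eventually_le_nhds (ENNReal.ofReal_pos.2 hε)))
  refine ⟨L₀ + 1, fun L hL => le_trans ?_ (hL₀ L (by omega))⟩
  have hcard : (boxFin (4 * L)).card ≤ 81 * L ^ 2 := by
    rw [card_boxFin]
    calc (2 * (4 * L) + 1) ^ 2 ≤ (9 * L) ^ 2 := Nat.pow_le_pow_left (by omega) 2
      _ = 81 * L ^ 2 := by ring
  calc law G (CheapPath (a / 4) L)
      ≤ law G ({t | ¬ ∀ e, 0 < t e} ∪
          ⋃ v ∈ boxFin (4 * L), ⋃ k : ℕ, ManyBad (Set.Iio a) v (L + k)) := by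
        refine measure_mono ?_
        rintro t ⟨v, l, hv, hc, hh, hd, hlen, hw⟩
        by_cases hp : ∀ e, 0 < t e
        swap
        · exact Or.inl hp
        refine Or.inr ?_
        obtain ⟨n, hl⟩ : ∃ n, l.length = n + 1 := ⟨l.length - 1, by omega⟩
        simp only [Set.mem_iUnion]
        refine ⟨v, mem_boxFin.2 hv, n - L, ?_⟩
        rw [show L + (n - L) = n by omega]
        refine ⟨_, mem_walkEdges hc hh hl hd, _,
          Finset.filter_subset (fun e => t e ∈ Set.Iio a) _, ?_,
          fun e he => (Finset.mem_filter.1 he).2⟩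
        rw [card_filter_edges hd]
        by_contra hlt
        have h1 := wt_ge_of_few (fun e => (hp e).le) a l
        rw [length_edges, hl, show n + 1 - 1 = n by omega] at h1
        rw [hl] at hw
        simp only [Set.mem_Iio, not_le] at hlt
        have h8 : 8 * ((edges l).countP (fun e => decide (t e < a)) : ℝ) < n := by exact_mod_cast hlt
        have hn1 : (1 : ℝ) ≤ n := by exact_mod_cast (by omega : 1 ≤ n)
        push_cast at hw
        nlinarith
    _ ≤ 0 + ∑ v ∈ boxFin (4 * L), ∑' k : ℕ, law G (ManyBad (Set.Iio a) v (L + k)) := by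
        refine (measure_union_le _ _).trans (add_le_add (ae_iff.1 (ae_forall_pos hna hnn)).le ?_)
        exact (measure_biUnion_finset_le _ _).trans
          (Finset.sum_le_sum fun v _ => measure_iUnion_le _)
    _ ≤ ∑ _v ∈ boxFin (4 * L), 2 * (2⁻¹ : ℝ≥0∞) ^ L := by
        rw [zero_add]
        refine Finset.sum_le_sum fun v _ =>
          (ENNReal.tsum_le_tsum fun k => measure_manyBad G measurableSet_Iio hG v _).trans ?_
        simp only [pow_add, ENNReal.tsum_mul_left, ENNReal.tsum_geometric, ENNReal.one_sub_inv_two,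
          inv_inv]
        rw [mul_comm]
    _ ≤ _ := by
        rw [Finset.sum_const, nsmul_eq_mul]
        refine mul_le_mul' ?_ le_rfl
        exact_mod_cast hcard

end law

end Vale.Agent.P158
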