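import Vale.Agent.P158.Key
import Vale.Agent.P158.NiceAE

/-!
P158: the events of good points are measurable and translation invariant; the two consequences
of the key lemma used by the box comparison.
-/

open MeasureTheory Filter
open scoped Topology ENNReal

namespace Vale.Agent.P158

namespace Key

lemma goodB_mono {t : Env} {γ : ℤ → V} {R R' : ℕ} {M : ℝ} (h : GoodB t γ R M) (hR : R ≤ R') :
    GoodB t γ R' M := fun m n l hm hn hl hav =>
  h m n l (by omega) hn hl fun k hk hk' => hav k (by omega) hk'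

lemma isClosed_goodB (R : ℕ) (M : ℝ) :
    IsClosed {q : Env × (ℤ → V) | GoodB q.1 q.2 R M} := by
  rw [← isOpen_compl_iff, isOpen_iff_mem_nhds]
  rintro ⟨t, γ⟩ hbad
  simp only [Set.mem_compl_iff, Set.mem_ofPred_eq, GoodB, not_forall, not_le] at hbad
  obtain ⟨m, n, l, hm, hn, hl, hav, hlt⟩ := hbad
  have hloc : ∀ k : ℤ, ∀ᶠ q in 𝓝 ((t, γ) : Env × (ℤ → V)), q.2 k = γ k := fun k =>
    (((continuous_apply k).comp continuous_snd).tendsto (t, γ)).eventually
      (p := fun z => z = γ k) (by rw [nhds_discrete]; exact eventually_pure.2 rfl)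
  set I : Finset ℤ := Finset.Icc m (max n (m + 1)) ∪ Finset.Icc (-(R : ℤ)) n
  have hI : ∀ᶠ q in 𝓝 ((t, γ) : Env × (ℤ → V)), ∀ k ∈ I, q.2 k = γ k :=
    (I.eventually_all).2 fun k _ => hloc k
  have hcont : Continuous fun t' : Env => wt t' l - seg t' γ m n := by
    have hw : ∀ l : List V, Continuous fun t' : Env => wt t' l := by
      intro l
      induction l with
      | nil => exact continuous_const
      | cons x r ih =>
        cases r with
        | nil => exact continuous_const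
        | cons z r' => exact (continuous_apply s(x, z)).add ih
    exact (hw l).sub (continuous_finsetSum _ fun k _ => continuous_apply _)
  have hv := ((hcont.comp continuous_fst).tendsto ((t, γ) : Env × (ℤ → V))).eventually
    (eventually_lt_nhds hlt)
  filter_upwards [hI, hv] with q hq hq' hgood
  refine absurd (hgood m n l hm hn ?_ ?_) (not_le.2 ?_)
  · rwa [hq m (by simp [I]), hq n (by simp [I]; omega)]
  · intro k hk hk'
    rw [hq k (by simp [I]; omega)]
    exact hav k hk hk'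
  · have hseg : seg q.1 q.2 m n = seg q.1 γ m n := Finset.sum_congr rfl fun k hk => by
      simp only [Finset.mem_Ico] at hk
      rw [hq k (by simp [I]; omega), hq (k + 1) (by simp [I]; omega)]
    rw [hseg]
    exact hq'

/-- The environment seen from `a`. -/
def sh (a : V) (t : Env) : Env := fun e => t (e.map (· + a))

/-- A sequence moved by `a`. -/
def tr (a : V) (γ : ℤ → V) : ℤ → V := fun i => γ i + a

lemma wt_sh (a : V) (t : Env) : ∀ l : List V, wt (sh a t) l = wt t (l.map (· + a))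
  | [] => rfl
  | [_] => rfl
  | x :: y :: r => by simp only [wt, List.map_cons, wt_sh a t (y :: r), sh, Sym2.map_mk]

lemma seg_sh (a : V) (t : Env) (γ : ℤ → V) (i j : ℤ) : seg (sh a t) γ i j = seg t (tr a γ) i j := by
  simp only [seg, sh, tr, Sym2.map_mk]

lemma adj_add {a x y : V} : Adj (x + a) (y + a) ↔ Adj x y := by simp [Adj]

lemma joins_map {a x y : V} {l : List V} (h : Joins l x y) :
    Joins (l.map (· + a)) (x + a) (y + a) :=
  ⟨by rw [List.isChain_map]; exact h.walk.imp fun _ _ hxy => adj_add.2 hxy,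
    by simp [List.head?_map, h.first], by simp [List.getLast?_map, h.last]⟩

lemma isLine_sh {a : V} {t : Env} {γ : ℤ → V} (h : IsLine t (tr a γ)) : IsLine (sh a t) γ :=
  ⟨fun i => adj_add.1 (h.adj i), fun i j hij => h.inj (by simp [tr, hij]),
    fun i j hij l hl => by rw [seg_sh, wt_sh]; exact h.geo i j hij _ (joins_map hl)⟩

lemma goodB_sh {a : V} {t : Env} {γ : ℤ → V} {R : ℕ} {M : ℝ} (h : GoodB t (tr a γ) R M) :
    GoodB (sh a t) γ R M := fun m n l hm hn hl hav => by
  rw [seg_sh, wt_sh]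
  exact h m n _ hm hn (joins_map hl) fun k hk hk' => by
    simpa [tr] using hav k hk hk'

lemma sh_neg (a : V) (t : Env) : sh (-a) (sh a t) = t := by
  funext e
  simp only [sh, Sym2.map_map]
  have : ((fun x : V => x + a) ∘ fun x => x + -a) = id := by funext x; simp
  rw [this, Sym2.map_id, id_eq]

lemma tr_rev (a : V) (γ : ℤ → V) : rev (tr a γ) = tr a (rev γ) := rfl

lemma branchPt_sh {a v : V} {t : Env} {R : ℕ} {M : ℝ} (h : BranchPt t (v + a) R M) :
    BranchPt (sh a t) v R M := by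
  obtain ⟨γ, γ', hb, h0, g1, g2⟩ := h
  have e : ∀ δ : ℤ → V, tr a (tr (-a) δ) = δ := fun δ => by funext i; simp [tr]
  rw [← e γ] at g1
  rw [← e γ'] at g2
  refine ⟨tr (-a) γ, tr (-a) γ', ⟨isLine_sh (by rw [e]; exact hb.left),
    isLine_sh (by rw [e]; exact hb.right), fun k hk => by simp [tr, hb.agree k hk],
    fun h => hb.split (by simpa [tr] using h)⟩, by simp [tr, h0], goodB_sh g1, goodB_sh g2⟩

lemma linePt_sh {a v : V} {t : Env} {R : ℕ} {M : ℝ} (h : LinePt t (v + a) R M) :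
    LinePt (sh a t) v R M := by
  obtain ⟨γ, hl, h0, g1, g2⟩ := h
  have e : ∀ δ : ℤ → V, tr a (tr (-a) δ) = δ := fun δ => by funext i; simp [tr]
  rw [← e γ] at g1
  rw [← e γ, tr_rev] at g2
  exact ⟨tr (-a) γ, isLine_sh (by rw [e]; exact hl), by simp [tr, h0], goodB_sh g1, goodB_sh g2⟩

variable {G : Measure ℝ} [IsProbabilityMeasure G]

/-- The law is invariant under translations, also on sets that are not measurable. -/
lemma law_sh (a : V) (S : Set Env) : law G (sh a ⁻¹' S) = law G S := by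
  let σ : Sym2 V ≃ Sym2 V :=
    { toFun := Sym2.map (· + -a)
      invFun := Sym2.map (· + a)
      left_inv := fun e => by
        rw [Sym2.map_map]
        have : ((fun x : V => x + a) ∘ fun x => x + -a) = id := by funext x; simp
        rw [this, Sym2.map_id, id_eq]
      right_inv := fun e => by
        rw [Sym2.map_map]
        have : ((fun x : V => x + -a) ∘ fun x => x + a) = id := by funext x; simp
        rw [this, Sym2.map_id, id_eq] }
  let F : Env ≃ᵐ Env := MeasurableEquiv.piCongrLeft (fun _ : Sym2 V => ℝ) σ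
  have hF : (F : Env → Env) = sh a := by
    funext t e
    obtain ⟨x, rfl⟩ := σ.surjective e
    simp only [F, MeasurableEquiv.coe_piCongrLeft, Equiv.piCongrLeft_apply_apply, sh]
    exact congrArg t (σ.left_inv x).symm
  have hmap : (law G).map F = law G := Measure.infinitePi_map_piCongrLeft (fun _ => G) σ
  calc law G (sh a ⁻¹' S) = law G (F ⁻¹' S) := by rw [hF]
    _ = (law G).map F S := (F.map_apply S).symm
    _ = law G S := by rw [hmap]

end Key

variable {G : Measure ℝ} [IsProbabilityMeasure G]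

open Key in
lemma law_branchPt (v : V) (R : ℕ) (M : ℝ) :
    law G {t | BranchPt t v R M} = law G {t | BranchPt t 0 R M} := by
  rw [← law_sh v {t | BranchPt t 0 R M}]
  refine congrArg _ (Set.ext fun t => ⟨fun h => branchPt_sh (by rwa [zero_add]), fun h => ?_⟩)
  have := branchPt_sh (a := -v) (v := v) (t := sh v t) (R := R) (M := M)
    (by rw [add_neg_cancel]; exact h)
  rwa [sh_neg] at this

open Key in
lemma law_linePt (v : V) (R : ℕ) (M : ℝ) :
    law G {t | LinePt t v R M} = law G {t | LinePt t 0 R M} := by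
  rw [← law_sh v {t | LinePt t 0 R M}]
  refine congrArg _ (Set.ext fun t => ⟨fun h => linePt_sh (by rwa [zero_add]), fun h => ?_⟩)
  have := linePt_sh (a := -v) (v := v) (t := sh v t) (R := R) (M := M)
    (by rw [add_neg_cancel]; exact h)
  rwa [sh_neg] at this

open Key in
lemma measurableSet_branchPt (v : V) (R : ℕ) (M : ℝ) : MeasurableSet {t | BranchPt t v R M} := by
  have hc : IsClosed {q : Env × (Seq0 v × Seq0 v) | (∃ u, q ∈ BranchConf v u) ∧
      GoodB q.1 q.2.1.1 R M ∧ GoodB q.1 q.2.2.1 R M} := by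
    have h1 : {q : Env × (Seq0 v × Seq0 v) | ∃ u, q ∈ BranchConf v u} =
        ⋃ u ∈ (Finset.Icc (v.1 - 1) (v.1 + 1) ×ˢ Finset.Icc (v.2 - 1) (v.2 + 1) : Finset V),
          BranchConf v u := by
      ext q
      simp only [Set.mem_ofPred_eq, Set.mem_iUnion, exists_prop]
      refine ⟨fun ⟨u, hu⟩ => ⟨u, ?_, hu⟩, fun ⟨u, _, hu⟩ => ⟨u, hu⟩⟩
      have := walk_bound q.2.1.2.1 q.2.1.2.2 (-1)
      rw [hu.2.2.2.2] at this
      simpa using this
    have h2 : IsClosed {q : Env × (Seq0 v × Seq0 v) | ∃ u, q ∈ BranchConf v u} := by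
      rw [h1]
      exact isClosed_biUnion_finset fun u _ => isClosed_branchConf v u
    exact h2.inter
      ((IsClosed.preimage (f := fun q : Env × (Seq0 v × Seq0 v) => (q.1, q.2.1.1))
        (continuous_fst.prodMk (continuous_subtype_val.comp (continuous_fst.comp continuous_snd)))
        (isClosed_goodB R M)).inter
      (IsClosed.preimage (f := fun q : Env × (Seq0 v × Seq0 v) => (q.1, q.2.2.1))
        (continuous_fst.prodMk (continuous_subtype_val.comp (continuous_snd.comp continuous_snd)))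
        (isClosed_goodB R M)))
  refine IsClosed.measurableSet ?_
  convert isClosedMap_fst_of_compactSpace _ hc using 1
  ext t
  constructor
  · rintro ⟨γ, γ', hb, h0, g1, g2⟩
    exact ⟨(t, ⟨γ, h0, hb.left.adj⟩, ⟨γ', (hb.agree 0 le_rfl).symm.trans h0, hb.right.adj⟩),
      ⟨⟨γ (-1), hb.left, hb.right, hb.agree, hb.split, rfl⟩, g1, g2⟩, rfl⟩
  · rintro ⟨⟨t', c⟩, ⟨⟨u, l1, l2, ag, sp, -⟩, g1, g2⟩, rfl⟩
    exact ⟨c.1.1, c.2.1, ⟨l1, l2, ag, sp⟩, c.1.2.1, g1, g2⟩

open Key in
lemma measurableSet_linePt (v : V) (R : ℕ) (M : ℝ) : MeasurableSet {t | LinePt t v R M} := by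
  have hc : IsClosed {q : Env × Seq0 v | IsLine q.1 q.2.1 ∧ GoodB q.1 q.2.1 R M ∧
      GoodB q.1 (rev q.2.1) R M} := by
    have hf : Continuous fun q : Env × Seq0 v => (q.1, q.2.1) :=
      continuous_fst.prodMk (continuous_subtype_val.comp continuous_snd)
    have hg : Continuous fun q : Env × Seq0 v => (q.1, rev q.2.1) :=
      continuous_fst.prodMk (continuous_rev.comp (continuous_subtype_val.comp continuous_snd))
    exact (IsClosed.preimage (f := fun q : Env × Seq0 v => (q.1, q.2.1)) hf isClosed_isLine).inter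
      ((IsClosed.preimage (f := fun q : Env × Seq0 v => (q.1, q.2.1)) hf (isClosed_goodB R M)).inter
      (IsClosed.preimage (f := fun q : Env × Seq0 v => (q.1, rev q.2.1)) hg (isClosed_goodB R M)))
  refine IsClosed.measurableSet ?_
  convert isClosedMap_fst_of_compactSpace _ hc using 1
  ext t
  constructor
  · rintro ⟨γ, hl, h0, g1, g2⟩
    exact ⟨(t, ⟨γ, h0, hl.adj⟩), ⟨hl, g1, g2⟩, rfl⟩
  · rintro ⟨⟨t', c⟩, ⟨l1, g1, g2⟩, rfl⟩
    exact ⟨c.1, l1, c.2.1, g1, g2⟩

/-- A monotone family that covers, up to a null set, a non-null set has a member of mass at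
least half of it. -/
lemma exists_half {μ : Measure Env} [IsProbabilityMeasure μ] {A : Set Env} (hA : μ A ≠ 0)
    {S : ℕ → Set Env} (hS : Monotone S) (h : ∀ᵐ t ∂μ, t ∈ A → ∃ R, t ∈ S R) :
    ∃ R, μ A / 2 ≤ μ (S R) := by
  have h1 : μ A ≤ ⨆ R, μ (S R) := by
    rw [← hS.measure_iUnion]
    exact measure_mono_ae (h.mono fun t ht hm => Set.mem_iUnion.2 (ht hm))
  obtain ⟨R, hR⟩ := lt_iSup_iff.1 ((ENNReal.half_lt_self hA (measure_ne_top _ _)).trans_le h1)
  exact ⟨R, hR.le⟩

theorem key_branch (hna : ∀ x, G {x} = 0) (hnn : G (Set.Iio 0) = 0)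
    (h : ¬ ∀ᵐ t ∂law G, NoBranch t) :
    ∃ β : ℝ≥0∞, 0 < β ∧ ∀ M : ℝ, ∃ R : ℕ, β ≤ law G {t | BranchPt t 0 R M} := by
  have hgood := branch_good hna hnn (nice_ae hna hnn)
  obtain ⟨v, hv⟩ : ∃ v, law G {t | ∃ γ γ', IsBranch t γ γ' ∧ γ 0 = v} ≠ 0 := by
    by_contra hall
    push Not at hall
    refine h (ae_iff.2 (measure_mono_null (fun t ht => ?_) (measure_iUnion_null hall)))
    simp only [NoBranch, Set.mem_ofPred_eq, not_forall, not_not] at ht
    obtain ⟨γ, γ', hb⟩ := ht
    exact Set.mem_iUnion.2 ⟨γ 0, γ, γ', hb, rfl⟩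
  refine ⟨_, ENNReal.half_pos hv, fun M => ?_⟩
  obtain ⟨R, hR⟩ := exists_half (μ := law G) hv (S := fun R => {t | BranchPt t v R M})
    (fun R R' hRR t ⟨γ, γ', hb, h0, g1, g2⟩ =>
      ⟨γ, γ', hb, h0, Key.goodB_mono g1 hRR, Key.goodB_mono g2 hRR⟩)
    (by filter_upwards [hgood] with t ht ⟨γ, γ', hb, h0⟩
        exact h0 ▸ ht γ γ' hb M)
  exact ⟨R, hR.trans_eq (law_branchPt v R M)⟩

theorem key_line (hna : ∀ x, G {x} = 0) (hnn : G (Set.Iio 0) = 0)
    (h : ¬ ∀ᵐ t ∂law G, ∀ γ, ¬ IsLine t γ) :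
    ∃ β : ℝ≥0∞, 0 < β ∧ ∀ M : ℝ, ∃ R : ℕ, β ≤ law G {t | LinePt t 0 R M} := by
  have hgood := line_good hna hnn (nice_ae hna hnn)
  obtain ⟨v, hv⟩ : ∃ v, law G {t | ∃ γ, IsLine t γ ∧ γ 0 = v} ≠ 0 := by
    by_contra hall
    push Not at hall
    refine h (ae_iff.2 (measure_mono_null (fun t ht => ?_) (measure_iUnion_null hall)))
    simp only [Set.mem_ofPred_eq, not_forall, not_not] at ht
    obtain ⟨γ, hb⟩ := ht
    exact Set.mem_iUnion.2 ⟨γ 0, γ, hb, rfl⟩
  refine ⟨_, ENNReal.half_pos hv, fun M => ?_⟩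
  obtain ⟨R, hR⟩ := exists_half (μ := law G) hv (S := fun R => {t | LinePt t v R M})
    (fun R R' hRR t ⟨γ, hl, h0, g1, g2⟩ =>
      ⟨γ, hl, h0, Key.goodB_mono g1 hRR, Key.goodB_mono g2 hRR⟩)
    (by filter_upwards [hgood] with t ht ⟨γ, hl, h0⟩
        exact h0 ▸ ht γ hl M)
  exact ⟨R, hR.trans_eq (law_linePt v R M)⟩

end Vale.Agent.P158
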