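import Vale.Agent.P158.FarChange
import Vale.Agent.P158.CompactSup
import Vale.Agent.P158.GoodEdges

/-!
P158: the key lemma for configurations.  A configuration (one line, or two lines with a common
half) carries finitely many lowerable stretches; `edgeAt γ i p` is the edge at position `p` of
stretch `i`.  If lowering a far edge on some stretch of a near maximiser always gains, and every
new near maximiser passes that edge at that position, then the supremum is almost surely
maximal as soon as it is positive.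
-/

open MeasureTheory Filter
open scoped ENNReal Topology

namespace Vale.Agent.P158

open P147.Resample

variable {E : Type*} [Countable E] [DecidableEq E]

/-- Resampling any one coordinate keeps an almost sure property. -/
lemma ae_update_of_ae (μ : Measure ℝ) [IsProbabilityMeasure μ] {Q : (E → ℝ) → Prop}
    (hQ : ∀ᵐ ω ∂prodLaw μ, Q ω) :
    ∀ᵐ ω ∂prodLaw μ, ∀ e : E, ∀ᵐ s ∂μ, Q (Function.update ω e s) := by
  obtain ⟨T, hsub, hT, hnull⟩ := exists_measurable_superset_of_null (ae_iff.1 hQ)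
  refine ae_all_iff.2 fun e => ?_
  have h0 : ∫⁻ ω, μ {s | Function.update ω e s ∈ T} ∂prodLaw μ = 0 := by
    rw [lintegral_update_slice μ e hT, hnull]
  rw [lintegral_eq_zero_iff (measurable_update_slice μ e hT)] at h0
  filter_upwards [h0] with ω hω
  exact measure_mono_null (fun s hs => hsub hs) hω

/-- **Key lemma.** -/
theorem key_lemma (μ : Measure ℝ) [IsProbabilityMeasure μ] [NullSingletonClass μ]
    (hsupp : μ (Set.Iio 0) = 0)
    {Γ : Type*} [TopologicalSpace Γ] [CompactSpace Γ] [Nonempty Γ]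
    {F : ℕ → (E → ℝ) → Γ → ℝ}
    (hF : ∀ R, UpperSemicontinuous fun p : (E → ℝ) × Γ => F R p.1 p.2)
    {K : ℝ} (hFK : ∀ R ω γ, |F R ω γ| ≤ K)
    {ι : Type*} [Fintype ι] (edgeAt : Γ → ι → ℕ → E)
    (hclopen : ∀ i p e, IsClosed {γ : Γ | edgeAt γ i p ≠ e})
    (P : ℕ → Finset (Finset E)) (hcard : ∀ n, (P n).card ≤ 4 ^ n)
    (hsize : ∀ n, ∀ s ∈ P n, s.card = n)
    {Gen : (E → ℝ) → Prop} (hGen : ∀ᵐ ω ∂prodLaw μ, Gen ω) {top' : ℝ}
    (hgain : ∀ κ > 0, ∀ δ > 0, ∃ c > 0, ∀ ω, Gen ω → 0 < top F ω → top F ω ≤ top' - δ →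
      ∃ (γ : Γ) (i : ι), (∀ n, (Finset.range n).image (edgeAt γ i) ∈ P n) ∧
        ∀ᶠ p in atTop, ∀ s, 0 ≤ s → s ≤ ω (edgeAt γ i p) - κ →
          Gen (Function.update ω (edgeAt γ i p) s) →
            top F ω + c ≤ top F (Function.update ω (edgeAt γ i p) s) ∧
            ∀ γ' R, top F ω + c / 2 < F R (Function.update ω (edgeAt γ i p) s) γ' →
              edgeAt γ' i p = edgeAt γ i p) :
    ∀ᵐ ω ∂prodLaw μ, 0 < top F ω → top' ≤ top F ω := by
  classical
  obtain ⟨a, κ, hκ, hlow, hpos⟩ := exists_good_level μ (δ := (16⁻¹ : ℝ≥0∞) ^ 4)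
    (by norm_num) (by exact pow_lt_one₀ zero_le (by norm_num) (by norm_num))
  set q0 := μ (Set.Iic (a - κ))
  have hFK' : ∀ R ω γ, F R ω γ ≤ K := fun R ω γ => (abs_le.1 (hFK R ω γ)).2
  have hΨm : Measurable (top F) := measurable_top hF hFK'
  obtain ⟨γ0⟩ := (inferInstance : Nonempty Γ)
  have hΨK : ∀ ω, |top F ω| ≤ K := fun ω => abs_le.2
    ⟨(abs_le.1 (hFK 0 ω γ0)).1.trans (le_top hFK' 0 ω γ0), ciSup_le fun p => hFK' _ _ _⟩
  have hfew := ae_eventually_few_bad (E := E) μ P hcard hsize measurableSet_Iio hlow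
  have hup := ae_update_of_ae μ hGen
  -- it is enough to treat one margin and one threshold
  suffices h : ∀ (m N : ℕ), prodLaw μ {ω | Gen ω ∧ (∀ e : E, ∀ᵐ s ∂μ, Gen (Function.update ω e s)) ∧
      (∀ n ≥ N, ∀ s ∈ P n, 4 * (s.filter fun e => ω e ∈ Set.Iio a).card < n) ∧
      0 < top F ω ∧ top F ω ≤ top' - 1 / (m + 1) ∧
      ∃ (γ : Γ) (i : ι), (∀ n, (Finset.range n).image (edgeAt γ i) ∈ P n) ∧
        ∀ p ≥ N, ∀ s, 0 ≤ s → s ≤ ω (edgeAt γ i p) - κ →
          Gen (Function.update ω (edgeAt γ i p) s) →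
            top F ω + (hgain κ hκ (1 / (m + 1)) Nat.one_div_pos_of_nat).choose ≤
              top F (Function.update ω (edgeAt γ i p) s) ∧
            ∀ γ' R, top F ω + (hgain κ hκ (1 / (m + 1)) Nat.one_div_pos_of_nat).choose / 2 <
              F R (Function.update ω (edgeAt γ i p) s) γ' → edgeAt γ' i p = edgeAt γ i p} = 0 by
    have hall : ∀ m : ℕ, ∀ᵐ ω ∂prodLaw μ, ¬ (0 < top F ω ∧ top F ω ≤ top' - 1 / (m + 1)) := by
      intro m
      have hnull := ae_all_iff.2 fun N : ℕ => measure_eq_zero_iff_ae_notMem.1 (h m N)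
      filter_upwards [hnull, hGen, hup, hfew] with ω hω hg hu hf ⟨h0, h1⟩
      obtain ⟨γ, i, hP, hev⟩ :=
        (hgain κ hκ (1 / (m + 1)) Nat.one_div_pos_of_nat).choose_spec.2 ω hg h0 h1
      obtain ⟨N1, hN1⟩ := eventually_atTop.1 hev
      obtain ⟨N2, hN2⟩ := eventually_atTop.1 hf
      exact hω (max N1 N2) ⟨hg, hu, fun n hn => hN2 n ((le_max_right _ _).trans hn), h0, h1,
        γ, i, hP, fun p hp => hN1 p ((le_max_left _ _).trans hp)⟩
    filter_upwards [ae_all_iff.2 hall] with ω hω h0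
    by_contra hlt
    obtain ⟨m, hm⟩ := exists_nat_one_div_lt (sub_pos.2 (not_le.1 hlt))
    exact hω m ⟨h0, by linarith⟩
  intro m N
  generalize hcdef : (hgain κ hκ (1 / (m + 1)) Nat.one_div_pos_of_nat).choose = c
  have hc : 0 < c := hcdef ▸ (hgain κ hκ (1 / (m + 1)) Nat.one_div_pos_of_nat).choose_spec.1
  by_cases hι : IsEmpty ι
  · exact measure_mono_null (fun ω hω => (hι.false hω.2.2.2.2.2.choose_spec.choose).elim) measure_empty
  have : Nonempty ι := not_isEmpty_iff.1 hι
  refine measure_eq_zero_of_far_gain μ hΨm hΨK hc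
    (q := q0 / (4 * Fintype.card ι : ℕ))
    (ENNReal.div_ne_zero.2 ⟨hpos, ENNReal.natCast_ne_top _⟩) fun B => ?_
  set H := 4 * (B.card + N + 1)
  set T0 : ι × Fin H → E → Set (E → ℝ) := fun x e =>
    {ω' | ∃ γ ∈ {γ : Γ | edgeAt γ x.1 (H + x.2) ≠ e}, ∃ R, top F ω' - c / 2 < F R ω' γ}ᶜ
  have eqv := Fintype.equivFin (ι × Fin H)
  refine ⟨Fintype.card (ι × Fin H), fun j => T0 (eqv.symm j), Fintype.card_pos_iff.2
    ⟨(Classical.arbitrary ι, ⟨0, by omega⟩)⟩, ?_, ?_, ?_⟩
  · intro j e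
    exact (measurableSet_exists_lt hF (hclopen _ _ _) (hΨm.sub_const _)).compl
  · intro j e e' hne
    refine Set.disjoint_left.2 fun ω' h1 h2 => ?_
    obtain ⟨⟨R, γ⟩, hγ⟩ := exists_lt_of_lt_ciSup (f := fun p : ℕ × Γ => F p.1 ω' p.2)
      (show top F ω' - c / 2 < top F ω' by linarith)
    by_cases he : edgeAt γ (eqv.symm j).1 (H + (eqv.symm j).2) = e
    · exact h2 ⟨γ, fun h => hne (he.symm.trans h), R, hγ⟩
    · exact h1 ⟨γ, he, R, hγ⟩
  · rintro ω ⟨-, hu, hf, -, -, γ, i, hP, hp⟩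
    -- the good positions in the window
    set e : ℕ → E := edgeAt γ i
    have hinj : Set.InjOn e (Finset.range (2 * H) : Finset ℕ) :=
      Finset.card_image_iff.1 (by rw [hsize _ _ (hP (2 * H)), Finset.card_range])
    set J : Finset (Fin H) := Finset.univ.filter fun p => a ≤ ω (e (H + p)) ∧ e (H + p) ∉ B
    have hJ : H ≤ 4 * J.card := by
      set W : Finset (Fin H) := Finset.univ.filter fun p => ω (e (H + p)) ∈ Set.Iio a
      set V : Finset (Fin H) := Finset.univ.filter fun p => e (H + p) ∈ B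
      have hmem : ∀ p : Fin H, H + (p : ℕ) ∈ ((Finset.range (2 * H) : Finset ℕ) : Set ℕ) :=
        fun p => by simp only [Finset.coe_range, Set.mem_Iio]; omega
      have hi : Function.Injective fun p : Fin H => e (H + p) := fun p p' h =>
        Fin.ext (by have := hinj (hmem p) (hmem p') h; omega)
      have hW : W.card ≤ (((Finset.range (2 * H)).image e).filter fun x => ω x ∈ Set.Iio a).card := by
        refine Finset.card_le_card_of_injOn (fun p : Fin H => e (H + p)) ?_ fun p _ p' _ h => hi h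
        intro p hp
        simp only [W, Finset.coe_filter, Finset.mem_univ, true_and, Set.mem_ofPred_eq] at hp
        exact Finset.mem_filter.2 ⟨Finset.mem_image.2 ⟨H + p, hmem p, rfl⟩, hp⟩
      have hV : V.card ≤ B.card :=
        Finset.card_le_card_of_injOn (fun p : Fin H => e (H + p))
          (fun p hp => by simpa [V] using hp) fun p _ p' _ h => hi h
      have hbad := hf (2 * H) (by omega) _ (hP (2 * H))
      have hcov : (Finset.univ : Finset (Fin H)) ⊆ J ∪ (W ∪ V) := fun p _ => by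
        simp only [J, W, V, Finset.mem_union, Finset.mem_filter, Finset.mem_univ, true_and,
          Set.mem_Iio]
        by_cases hb : e (H + (p : ℕ)) ∈ B
        · exact Or.inr (Or.inr hb)
        · rcases lt_or_ge (ω (e (H + (p : ℕ)))) a with h | h
          · exact Or.inr (Or.inl h)
          · exact Or.inl ⟨h, hb⟩
      have := (Finset.card_le_card hcov).trans
        ((Finset.card_union_le _ _).trans (add_le_add le_rfl (Finset.card_union_le _ _)))
      simp only [Finset.card_univ, Fintype.card_fin] at this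
      omega
    have hterm : ∀ p ∈ J, q0 ≤ ∑' x, μ {s | x ∉ B ∧ Function.update ω x s ∈ T0 (i, p) x ∧
        top F ω + c ≤ top F (Function.update ω x s)} := by
      intro p hpJ
      obtain ⟨hga, hB⟩ := (Finset.mem_filter.1 hpJ).2
      refine le_trans ?_ (ENNReal.le_tsum (e (H + p)))
      refine measure_mono_ae ?_
      have hnn : ∀ᵐ s ∂μ, (0 : ℝ) ≤ s := by simpa [ae_iff, not_le, Set.Iio] using hsupp
      filter_upwards [hu (e (H + p)), hnn] with s hs hs0 hsa
      have hsle : s ≤ ω (e (H + p)) - κ := le_trans (Set.mem_Iic.1 hsa) (by linarith)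
      obtain ⟨hgain', hrec⟩ := hp (H + p) (by omega) s hs0 hsle hs
      refine ⟨hB, ?_, hgain'⟩
      rintro ⟨γ', hne, R, hlt⟩
      exact hne (hrec γ' R (by linarith))
    rw [← Equiv.sum_comp eqv]
    simp only [Equiv.symm_apply_apply]
    rw [Fintype.sum_prod_type]
    refine le_trans ?_ (Finset.single_le_sum (f := fun x => ∑ p : Fin H, ∑' y,
      μ {s | y ∉ B ∧ Function.update ω y s ∈ T0 (x, p) y ∧
        top F ω + c ≤ top F (Function.update ω y s)}) (fun x _ => zero_le) (Finset.mem_univ i))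
    refine le_trans ?_ ((Finset.card_nsmul_le_sum J _ q0 hterm).trans
      (Finset.sum_le_sum_of_subset (Finset.subset_univ J)))
    rw [Fintype.card_prod, Fintype.card_fin, nsmul_eq_mul]
    have hcι : ((Fintype.card ι : ℕ) : ℝ≥0∞) ≠ 0 := by
      exact_mod_cast Fintype.card_ne_zero
    calc q0 / ((4 * Fintype.card ι : ℕ) : ℝ≥0∞) * ((Fintype.card ι * H : ℕ) : ℝ≥0∞)
        ≤ q0 / ((4 * Fintype.card ι : ℕ) : ℝ≥0∞) * (((4 * Fintype.card ι) * J.card : ℕ) : ℝ≥0∞) := by
          refine mul_le_mul' le_rfl (Nat.cast_le.2 ?_)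
          nlinarith
      _ = (J.card : ℝ≥0∞) * q0 := by
          rw [Nat.cast_mul (4 * Fintype.card ι), ← mul_assoc,
            ENNReal.div_mul_cancel (by simp) (ENNReal.natCast_ne_top _), mul_comm]

end Vale.Agent.P158
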