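import Vale.Agent.P158.Defs

/-!
P158: lowering one edge of a line.  The line stays a line, the excess of a stretch that contains
the edge rises by the amount of the lowering, and the excess of a stretch behind it does not fall.
-/

namespace Vale.Agent.P158.Key

/-- The walk along `γ` from index `a` of `n` steps. -/
def sl (γ : ℤ → V) : ℤ → ℕ → List V
  | a, 0 => [γ a]
  | a, n + 1 => γ a :: sl γ (a + 1) n

lemma sl_ne_nil (γ : ℤ → V) (a : ℤ) (n : ℕ) : sl γ a n ≠ [] := by cases n <;> simp [sl]

lemma head_sl (γ : ℤ → V) (a : ℤ) (n : ℕ) : (sl γ a n).head? = some (γ a) := by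
  cases n <;> simp [sl]

lemma last_sl (γ : ℤ → V) (a : ℤ) (n : ℕ) : (sl γ a n).getLast? = some (γ (a + n)) := by
  induction n generalizing a with
  | zero => simp [sl]
  | succ n ih =>
    rw [sl, List.getLast?_cons, ih]
    simp [add_assoc, add_comm (1 : ℤ)]

lemma length_sl (γ : ℤ → V) (a : ℤ) (n : ℕ) : (sl γ a n).length = n + 1 := by
  induction n generalizing a with
  | zero => simp [sl]
  | succ n ih => simp [sl, ih]

lemma mem_sl {γ : ℤ → V} {a : ℤ} {n : ℕ} {x : V} :
    x ∈ sl γ a n → ∃ k, a ≤ k ∧ k ≤ a + n ∧ x = γ k := by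
  induction n generalizing a with
  | zero => intro h; simp only [sl, List.mem_singleton] at h; exact ⟨a, le_rfl, by simp, h⟩
  | succ n ih =>
    intro h
    simp only [sl, List.mem_cons] at h
    rcases h with h | h
    · exact ⟨a, le_rfl, by omega, h⟩
    · obtain ⟨k, h1, h2, h3⟩ := ih h
      exact ⟨k, by omega, by push_cast; omega, h3⟩

lemma chain_sl {γ : ℤ → V} (h : ∀ i, Adj (γ i) (γ (i + 1))) (a : ℤ) (n : ℕ) :
    (sl γ a n).IsChain Adj := by
  induction n generalizing a with
  | zero => simp [sl]
  | succ n ih =>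
    rw [sl, List.isChain_cons]
    exact ⟨fun y hy => by rw [head_sl] at hy; cases hy; exact h a, ih _⟩

lemma nodup_sl {γ : ℤ → V} (h : Function.Injective γ) (a : ℤ) (n : ℕ) : (sl γ a n).Nodup := by
  induction n generalizing a with
  | zero => simp [sl]
  | succ n ih =>
    rw [sl, List.nodup_cons]
    refine ⟨fun hm => ?_, ih _⟩
    obtain ⟨k, h1, -, h3⟩ := mem_sl hm
    have := h h3
    omega

lemma sl_getElem (γ : ℤ → V) (a : ℤ) (n i : ℕ) (hi : i < (sl γ a n).length) :
    (sl γ a n)[i] = γ (a + i) := by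
  induction n generalizing a i with
  | zero => rw [length_sl] at hi; obtain rfl : i = 0 := by omega
            simp [sl]
  | succ n ih =>
    cases i with
    | zero => simp [sl]
    | succ i =>
      simp only [sl, List.getElem_cons_succ]
      rw [ih]
      push_cast
      congr 1
      ring

lemma joins_sl {γ : ℤ → V} (h : ∀ i, Adj (γ i) (γ (i + 1))) {a b : ℤ} (hab : a ≤ b) :
    Joins (sl γ a (b - a).toNat) (γ a) (γ b) := by
  refine ⟨chain_sl h _ _, head_sl _ _ _, ?_⟩
  rw [last_sl]
  congr 2
  omega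

lemma wt_cons {t : Env} {x y : V} {l : List V} (h : l.head? = some y) :
    wt t (x :: l) = t s(x, y) + wt t l := by
  cases l with
  | nil => simp at h
  | cons z r =>
    simp only [List.head?_cons, Option.some.injEq] at h
    subst h
    simp [wt]

lemma seg_succ_left (t : Env) (γ : ℤ → V) {a b : ℤ} (hab : a < b) :
    seg t γ a b = t s(γ a, γ (a + 1)) + seg t γ (a + 1) b := by
  have h : Finset.Ico a b = insert a (Finset.Ico (a + 1) b) := by
    ext k
    simp only [Finset.mem_Ico, Finset.mem_insert]
    omega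
  rw [seg, h, Finset.sum_insert (by simp), ← seg]

lemma wt_sl (t : Env) (γ : ℤ → V) (a : ℤ) (n : ℕ) : wt t (sl γ a n) = seg t γ a (a + n) := by
  induction n generalizing a with
  | zero => simp [sl, wt, seg]
  | succ n ih =>
    rw [sl, wt_cons (head_sl γ (a + 1) n), ih, seg_succ_left t γ (by omega : a < a + (n + 1 : ℕ))]
    push_cast
    ring_nf

lemma wt_sl' (t : Env) (γ : ℤ → V) {a b : ℤ} (hab : a ≤ b) :
    wt t (sl γ a (b - a).toNat) = seg t γ a b := by
  rw [wt_sl]
  congr 1
  omega

lemma adj_symm {x y : V} (h : Adj x y) : Adj y x := by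
  unfold Adj at h ⊢
  omega

lemma wt_append_single (t : Env) : ∀ (l : List V) (x y : V), l.getLast? = some x →
    wt t (l ++ [y]) = wt t l + t s(x, y)
  | [], x, y, h => by simp at h
  | [z], x, y, h => by
      simp only [List.getLast?_singleton, Option.some.injEq] at h
      subst h
      simp [wt]
  | z :: w :: r, x, y, h => by
      have h' : (w :: r).getLast? = some x := by simpa [List.getLast?_cons] using h
      have := wt_append_single t (w :: r) x y h'
      simp only [List.cons_append, wt] at this ⊢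
      rw [this]
      ring

lemma wt_reverse (t : Env) : ∀ l : List V, wt t l.reverse = wt t l
  | [] => rfl
  | [_] => rfl
  | x :: y :: r => by
      rw [List.reverse_cons, wt_append_single t _ y x (by simp), wt_reverse t (y :: r), Sym2.eq_swap]
      simp only [wt]
      ring

lemma joins_reverse {l : List V} {x y : V} (h : Joins l x y) : Joins l.reverse y x :=
  ⟨(List.isChain_reverse.2 (h.walk.imp fun _ _ hab => adj_symm hab)),
    by rw [List.head?_reverse]; exact h.last, by rw [List.getLast?_reverse]; exact h.first⟩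

lemma seg_nonneg {t : Env} (ht : ∀ e, 0 ≤ t e) (γ : ℤ → V) (a b : ℤ) : 0 ≤ seg t γ a b :=
  Finset.sum_nonneg fun _ _ => ht _

lemma seg_mono {t t' : Env} (h : ∀ e, t' e ≤ t e) (γ : ℤ → V) (a b : ℤ) :
    seg t' γ a b ≤ seg t γ a b :=
  Finset.sum_le_sum fun _ _ => h _

lemma seg_add (t : Env) (γ : ℤ → V) {a b c : ℤ} (hab : a ≤ b) (hbc : b ≤ c) :
    seg t γ a c = seg t γ a b + seg t γ b c :=
  by rw [seg, seg, seg, ← Finset.sum_union (Finset.Ico_disjoint_Ico_consecutive a b c),
    Finset.Ico_union_Ico_eq_Ico hab hbc]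

/-- A walk either misses the edge, or contains walks to one of its ends and from one of its
ends, with the edge used in between. -/
lemma split_at_edge {t : Env} (ht : ∀ e, 0 ≤ t e) (a b : V) {s : ℝ} (hs : 0 ≤ s) :
    ∀ (l : List V) (x y : V), Joins l x y →
      wt (Function.update t s(a, b) s) l = wt t l ∨
      ∃ A ∈ ({a, b} : Set V), ∃ B ∈ ({a, b} : Set V), ∃ l1 l3 : List V,
        Joins l1 x A ∧ Joins l3 B y ∧ (∀ u ∈ l1, u ∈ l) ∧ (∀ u ∈ l3, u ∈ l) ∧
        wt t l1 + s + wt t l3 ≤ wt (Function.update t s(a, b) s) l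
  | [], x, y, h => by simpa using h.first
  | [z], x, y, h => Or.inl rfl
  | z :: w :: r, x, y, h => by
      obtain rfl : z = x := by simpa using h.first
      have hzw : Adj z w := (List.isChain_cons.1 h.walk).1 w (by simp)
      have htail : Joins (w :: r) w y :=
        ⟨(List.isChain_cons.1 h.walk).2, by simp, by simpa [List.getLast?_cons] using h.last⟩
      have hwt : wt (Function.update t s(a, b) s) (z :: w :: r) =
          Function.update t s(a, b) s s(z, w) + wt (Function.update t s(a, b) s) (w :: r) := rfl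
      rcases split_at_edge ht a b hs (w :: r) w y htail with heq | ⟨A, hA, B, hB, l1, l3, h1, h3, m1, m3, hle⟩
      · by_cases he : s(z, w) = s(a, b)
        · refine Or.inr ⟨z, ?_, w, ?_, [z], w :: r,
            ⟨List.IsChain.singleton z, rfl, rfl⟩, htail, by simp, fun u hu => List.mem_cons_of_mem _ hu, ?_⟩
          · rcases Sym2.eq_iff.1 he with ⟨h', -⟩ | ⟨h', -⟩ <;> simp [h']
          · rcases Sym2.eq_iff.1 he with ⟨-, h'⟩ | ⟨-, h'⟩ <;> simp [h']
          · rw [hwt, heq, he, Function.update_self]
            simp [wt]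
        · left
          rw [hwt, heq, Function.update_of_ne he]
          rfl
      · refine Or.inr ?_
        by_cases he : s(z, w) = s(a, b)
        · refine ⟨z, ?_, B, hB, [z], l3, ⟨List.IsChain.singleton z, rfl, rfl⟩, h3, by simp,
            fun u hu => List.mem_cons_of_mem _ (m3 u hu), ?_⟩
          · rcases Sym2.eq_iff.1 he with ⟨h', -⟩ | ⟨h', -⟩ <;> simp [h']
          · rw [hwt, he, Function.update_self]
            have : 0 ≤ wt t l1 := by
              clear hle m1 h1
              induction l1 with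
              | nil => simp [wt]
              | cons u r' ih =>
                cases r' with
                | nil => simp [wt]
                | cons u' r'' => simp only [wt]; have := ht s(u, u'); linarith
            simp only [wt]
            linarith
        · refine ⟨A, hA, B, hB, z :: l1, l3, ⟨?_, rfl, ?_⟩, h3, ?_, fun u hu => List.mem_cons_of_mem _ (m3 u hu), ?_⟩
          · rw [List.isChain_cons]
            exact ⟨fun u hu => by rw [h1.first] at hu; cases hu; exact hzw, h1.walk⟩
          · rw [List.getLast?_cons, h1.last]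
            rfl
          · intro u hu
            rcases List.mem_cons.1 hu with hu | hu
            · exact hu ▸ List.mem_cons_self
            · exact List.mem_cons_of_mem _ (m1 u hu)
          · rw [hwt, Function.update_of_ne he, wt_cons h1.first]
            linarith

lemma seg_self (t : Env) (γ : ℤ → V) {a b : ℤ} (h : b ≤ a) : seg t γ a b = 0 := by
  rw [seg, Finset.Ico_eq_empty (by omega), Finset.sum_empty]

/-- The weight of the stretch between two indices, in either order. -/
noncomputable def dst (t : Env) (γ : ℤ → V) (a b : ℤ) : ℝ := seg t γ a b + seg t γ b a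

lemma line_dist {t : Env} (ht : ∀ e, 0 ≤ t e) {γ : ℤ → V} (h : IsLine t γ) {i j : ℤ} {l : List V}
    (hl : Joins l (γ i) (γ j)) : dst t γ i j ≤ wt t l := by
  rcases le_total i j with hij | hji
  · rw [dst, seg_self t γ hij, add_zero]
    exact h.geo i j hij l hl
  · have h1 := h.geo j i hji l.reverse (joins_reverse hl)
    rw [wt_reverse] at h1
    rwa [dst, seg_self t γ hji, zero_add]

/-- The signed weight between two indices is additive. -/
lemma sgn_add (t : Env) (γ : ℤ → V) (a b c : ℤ) :
    (seg t γ a b - seg t γ b a) + (seg t γ b c - seg t γ c b) = seg t γ a c - seg t γ c a := by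
  have key : ∀ p q r : ℤ, p ≤ q → q ≤ r →
      seg t γ p r = seg t γ p q + seg t γ q r ∧ seg t γ q p = 0 ∧ seg t γ r q = 0 ∧ seg t γ r p = 0 :=
    fun p q r h1 h2 =>
      ⟨seg_add t γ h1 h2, seg_self t γ h1, seg_self t γ h2, seg_self t γ (h1.trans h2)⟩
  rcases le_total a b with h1 | h1 <;> rcases le_total b c with h2 | h2 <;>
    rcases le_total a c with h3 | h3
  · obtain ⟨e1, e2, e3, e4⟩ := key a b c h1 h2; linarith
  · obtain ⟨e1, e2, e3, e4⟩ := key a b c h1 h2; linarith
  · obtain ⟨e1, e2, e3, e4⟩ := key a c b h3 h2; linarith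
  · obtain ⟨e1, e2, e3, e4⟩ := key c a b h3 h1; linarith
  · obtain ⟨e1, e2, e3, e4⟩ := key b a c h1 h3; linarith
  · obtain ⟨e1, e2, e3, e4⟩ := key b c a h2 h3; linarith
  · obtain ⟨e1, e2, e3, e4⟩ := key c b a h2 h1; linarith
  · obtain ⟨e1, e2, e3, e4⟩ := key c b a h2 h1; linarith

variable {t : Env} {γ : ℤ → V} {k : ℤ} {s : ℝ}

lemma update_le {e : Sym2 V} (h : s ≤ t e) (e' : Sym2 V) : Function.update t e s e' ≤ t e' := by
  rcases eq_or_ne e' e with rfl | hne
  · simpa using h
  · rw [Function.update_of_ne hne]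

lemma update_nonneg (ht : ∀ e, 0 ≤ t e) (hs : 0 ≤ s) (e e' : Sym2 V) :
    0 ≤ Function.update t e s e' := by
  rcases eq_or_ne e' e with rfl | hne
  · simpa using hs
  · rw [Function.update_of_ne hne]; exact ht e'

lemma edge_inj (hγ : Function.Injective γ) {i : ℤ}
    (h : s(γ i, γ (i + 1)) = s(γ k, γ (k + 1))) : i = k := by
  rcases Sym2.eq_iff.1 h with ⟨h1, -⟩ | ⟨h1, h2⟩
  · exact hγ h1
  · have := hγ h1; have := hγ h2; omega

/-- The comparison of a stretch after lowering with a detour through the lowered edge. -/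
lemma seg_le_detour (ht : ∀ e, 0 ≤ t e) (hs : 0 ≤ s) (hsle : s ≤ t s(γ k, γ (k + 1)))
    (i j : ℤ) {A B : ℤ} (hA : A = k ∨ A = k + 1) (hB : B = k ∨ B = k + 1) :
    seg (Function.update t s(γ k, γ (k + 1)) s) γ i j -
      seg (Function.update t s(γ k, γ (k + 1)) s) γ j i ≤ seg t γ i A + s + dst t γ B j := by
  set t' := Function.update t s(γ k, γ (k + 1)) s
  have h1 := sgn_add t' γ i A B
  have h2 := sgn_add t' γ i B j
  have hm := fun a b => seg_mono (fun e => update_le hsle e : ∀ e, t' e ≤ t e) γ a b
  have hn := fun a b => seg_nonneg (update_nonneg ht hs (s(γ k, γ (k + 1)))) γ a b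
  have hmid : seg t' γ A B ≤ s := by
    rcases hA with rfl | rfl <;> rcases hB with rfl | rfl
    · rw [seg_self t' γ le_rfl]; exact hs
    · rw [seg_succ_left t' γ (by omega), seg_self t' γ le_rfl, add_zero]
      simp only [t', Function.update_self, le_refl]
    · rw [seg_self t' γ (by omega)]; exact hs
    · rw [seg_self t' γ le_rfl]; exact hs
  have := hm i A; have := hm B j; have := hn A i; have := hn B A; have := hn j B
  have := seg_nonneg ht γ j B
  simp only [dst]
  linarith

/-- Lowering an edge of a line keeps the line. -/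
lemma isLine_lower (ht : ∀ e, 0 ≤ t e) (h : IsLine t γ) (hs : 0 ≤ s)
    (hsle : s ≤ t s(γ k, γ (k + 1))) :
    IsLine (Function.update t s(γ k, γ (k + 1)) s) γ := by
  refine ⟨h.adj, h.inj, fun i j hij l hl => ?_⟩
  set t' := Function.update t s(γ k, γ (k + 1)) s
  rcases split_at_edge ht (γ k) (γ (k + 1)) hs l _ _ hl with heq |
    ⟨A, hA, B, hB, l1, l3, h1, h3, -, -, hle⟩
  · rw [heq]
    exact (seg_mono (fun e => update_le hsle e) γ i j).trans (h.geo i j hij l hl)
  · obtain ⟨A', hA', rfl⟩ : ∃ A', (A' = k ∨ A' = k + 1) ∧ γ A' = A := by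
      rcases hA with rfl | rfl <;> [exact ⟨k, .inl rfl, rfl⟩; exact ⟨k + 1, .inr rfl, rfl⟩]
    obtain ⟨B', hB', rfl⟩ : ∃ B', (B' = k ∨ B' = k + 1) ∧ γ B' = B := by
      rcases hB with rfl | rfl <;> [exact ⟨k, .inl rfl, rfl⟩; exact ⟨k + 1, .inr rfl, rfl⟩]
    have hk := seg_le_detour ht hs hsle i j hA' hB'
    rw [seg_self t' γ hij] at hk
    have d1 := line_dist ht h h1
    have d3 := line_dist ht h h3
    have := seg_nonneg ht γ A' i
    simp only [dst] at d1 d3 hk
    linarith

/-- An edge inside the avoided stretch: the excess rises by the lowering. -/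
lemma excess_raise (hγ : Function.Injective γ) {m n : ℤ} (hm : m ≤ k) (hn : k < n)
    {l : List V} (hk : γ k ∉ l) :
    wt (Function.update t s(γ k, γ (k + 1)) s) l -
        seg (Function.update t s(γ k, γ (k + 1)) s) γ m n =
      wt t l - seg t γ m n + (t s(γ k, γ (k + 1)) - s) := by
  have hw : ∀ l : List V, γ k ∉ l → wt (Function.update t s(γ k, γ (k + 1)) s) l = wt t l := by
    intro l
    induction l with
    | nil => intro _; rfl
    | cons x r ih =>
      cases r with
      | nil => intro _; rfl
      | cons y r' =>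
        intro hk
        simp only [List.mem_cons, not_or] at hk
        have hne : s(x, y) ≠ s(γ k, γ (k + 1)) := fun he => by
          rcases Sym2.eq_iff.1 he with ⟨h', -⟩ | ⟨-, h'⟩
          · exact hk.1 h'.symm
          · exact hk.2.1 h'.symm
        simp only [wt]
        rw [Function.update_of_ne hne, ih (by simp only [List.mem_cons, not_or]; exact hk.2)]
  have hseg : ∀ (t' : Env), seg t' γ m n = seg t' γ m k + t' s(γ k, γ (k + 1)) + seg t' γ (k + 1) n := by
    intro t'
    rw [seg_add t' γ hm hn.le, seg_succ_left t' γ hn]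
    ring
  have hout : ∀ a b, (b ≤ k ∨ k < a) →
      seg (Function.update t s(γ k, γ (k + 1)) s) γ a b = seg t γ a b := by
    intro a b hab
    refine Finset.sum_congr rfl fun i hi => Function.update_of_ne (fun he => ?_) _ _
    have := edge_inj hγ he
    simp only [Finset.mem_Ico] at hi
    omega
  rw [hw l hk, hseg, hseg t, hout m k (.inl le_rfl), hout (k + 1) n (.inr (by omega)),
    Function.update_self]
  ring

/-- An edge in front of the avoided stretch: every excess after lowering is at least an old one. -/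
lemma excess_keep (ht : ∀ e, 0 ≤ t e) (h : IsLine t γ) (hs : 0 ≤ s)
    (hsle : s ≤ t s(γ k, γ (k + 1))) (hk : 0 ≤ k) {m n : ℤ} (hm : m ≤ 0) (hn : 0 ≤ n)
    {l : List V} (hl : Joins l (γ m) (γ n)) :
    ∃ (n' : ℤ) (l' : List V), 0 ≤ n' ∧ Joins l' (γ m) (γ n') ∧ (∀ u ∈ l', u ∈ l) ∧
      wt t l' - seg t γ m n' ≤ wt (Function.update t s(γ k, γ (k + 1)) s) l -
        seg (Function.update t s(γ k, γ (k + 1)) s) γ m n := by
  set t' := Function.update t s(γ k, γ (k + 1)) s
  rcases split_at_edge ht (γ k) (γ (k + 1)) hs l _ _ hl with heq |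
    ⟨A, hA, B, hB, l1, l3, h1, h3, m1, -, hle⟩
  · refine ⟨n, l, hn, hl, fun u hu => hu, ?_⟩
    rw [heq]
    have := seg_mono (fun e => update_le hsle e : ∀ e, t' e ≤ t e) γ m n
    linarith
  · obtain ⟨A', hA', rfl⟩ : ∃ A', (A' = k ∨ A' = k + 1) ∧ γ A' = A := by
      rcases hA with rfl | rfl <;> [exact ⟨k, .inl rfl, rfl⟩; exact ⟨k + 1, .inr rfl, rfl⟩]
    obtain ⟨B', hB', rfl⟩ : ∃ B', (B' = k ∨ B' = k + 1) ∧ γ B' = B := by
      rcases hB with rfl | rfl <;> [exact ⟨k, .inl rfl, rfl⟩; exact ⟨k + 1, .inr rfl, rfl⟩]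
    refine ⟨A', l1, by omega, h1, m1, ?_⟩
    have hk' := seg_le_detour ht hs hsle m n hA' hB'
    rw [seg_self t' γ (hm.trans hn)] at hk'
    have d3 := line_dist ht h h3
    simp only [dst] at hk' d3
    linarith

end Vale.Agent.P158.Key
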