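import Vale.Agent.P158.Pairs
import Vale.Agent.P158.NiceAE

/-!
P158: almost surely every line has, arbitrarily far out, edges whose weight can be lowered by a
small amount that is bounded below.
-/

open MeasureTheory Filter
open scoped ENNReal Topology

namespace Vale.Agent.P158

variable {G : Measure ℝ} [IsProbabilityMeasure G]

omit [IsProbabilityMeasure G] in
/-- Few weights have no mass just below them. -/
lemma measure_left_isolated (hna : ∀ x, G {x} = 0) {d : ℝ} (hd : 0 < d) :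
    G {w | G (Set.Ico (w - d) w) = 0} = 0 := by
  have : NullSingletonClass G := ⟨hna⟩
  set Z : Set ℝ := {w | G (Set.Ico (w - d) w) = 0}
  have hcov : Z ⊆ ⋃ k : ℤ, Z ∩ Set.Ico ((k : ℝ) * d) (((k : ℝ) + 1) * d) := fun w hw => by
    refine Set.mem_iUnion.2 ⟨⌊w / d⌋, hw, ?_, ?_⟩
    · exact (le_div_iff₀ hd).1 (Int.floor_le _)
    · exact (div_lt_iff₀ hd).1 (Int.lt_floor_add_one _)
  refine measure_mono_null hcov (measure_iUnion_null fun k => ?_)
  set a : ℝ := (k : ℝ) * d
  set J : Set ℝ := Z ∩ Set.Ico a (((k : ℝ) + 1) * d)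
  set P : Set ℚ := {q | G (Set.Ico a q) = 0}
  set U : Set ℝ := {w ∈ J | ∀ w' ∈ J, w' ≤ w}
  have hU : G U = 0 :=
    Set.Subsingleton.measure_zero (μ := G) (by
      intro x hx y hy
      exact le_antisymm (hy.2 x hx.1) (hx.2 y hy.1))
  refine measure_mono_null (t := U ∪ ⋃ q ∈ P, Set.Ico a (q : ℝ)) (fun w hw => ?_)
    (measure_union_null hU ((measure_biUnion_null_iff P.to_countable).2 fun q hq => hq))
  by_cases h : ∀ w' ∈ J, w' ≤ w
  · exact Or.inl ⟨hw, h⟩
  push Not at h
  obtain ⟨w', hw', hlt⟩ := h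
  obtain ⟨q, hq1, hq2⟩ := exists_rat_btwn hlt
  refine Or.inr (Set.mem_biUnion (show q ∈ P from ?_) ⟨hw.2.1, hq1⟩)
  refine measure_mono_null (Set.Ico_subset_Ico ?_ hq2.le) hw'.1
  have := hw'.2.2
  rw [add_mul, one_mul] at this
  linarith

/-- A band at every scale: few weights cannot be lowered by an amount in it. -/
lemma exists_band (hna : ∀ x, G {x} = 0) {d : ℝ} (hd : 0 < d) {q : ℝ≥0∞} (hq : 0 < q) :
    ∃ lo : ℝ, 0 < lo ∧ MeasurableSet {w | G (Set.Icc (w - d) (w - lo)) = 0} ∧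
      G {w | G (Set.Icc (w - d) (w - lo)) = 0} ≤ q := by
  set A : ℕ → Set ℝ := fun n => {w | G (Set.Icc (w - d) (w - 1 / ((n : ℝ) + 1))) = 0} with hA
  have hmeas : ∀ n, MeasurableSet (A n) := fun n => by
    have hs : MeasurableSet
        {p : ℝ × ℝ | p.1 - d ≤ p.2 ∧ p.2 ≤ p.1 - 1 / ((n : ℝ) + 1)} :=
      (measurableSet_le (measurable_fst.sub_const d) measurable_snd).inter
        (measurableSet_le measurable_snd (measurable_fst.sub_const _))
    exact (measurable_measure_prodMk_left (ν := G) hs) (measurableSet_singleton 0)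
  have hanti : Antitone A := fun m n hmn w hw => by
    refine measure_mono_null (Set.Icc_subset_Icc le_rfl ?_) hw
    gcongr
  have h := tendsto_measure_iInter_atTop (μ := G) (fun n => (hmeas n).nullMeasurableSet)
    hanti ⟨0, measure_ne_top _ _⟩
  have hz : G (⋂ n, A n) = 0 := by
    refine measure_mono_null (fun w hw => ?_) (measure_left_isolated hna hd)
    refine measure_mono_null (t := ⋃ n : ℕ, Set.Icc (w - d) (w - 1 / ((n : ℝ) + 1)))
      (fun y hy => ?_) (measure_iUnion_null fun n => Set.mem_iInter.1 hw n)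
    obtain ⟨n, hn⟩ := exists_nat_one_div_lt (sub_pos.2 hy.2)
    exact Set.mem_iUnion.2 ⟨n, hy.1, by linarith⟩
  rw [hz] at h
  obtain ⟨n, hn⟩ := (h.eventually (eventually_le_nhds hq)).exists
  exact ⟨1 / ((n : ℝ) + 1), by positivity, hmeas n, hn⟩

/-- The edges of a stretch of a walk. -/
lemma exists_of_mem_edges {γ : ℤ → V} {e : Sym2 V} : ∀ {n : ℕ} {i : ℤ},
    e ∈ edges (segList γ i n) → ∃ k, i ≤ k ∧ e = s(γ k, γ (k + 1))
  | 0, i, h => by simp [segList, edges] at h
  | 1, i, h => ⟨i, le_rfl, by simpa [segList, edges] using h⟩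
  | n + 2, i, h => by
    have h' : e ∈ s(γ i, γ (i + 1)) :: edges (segList γ (i + 1) (n + 1)) := h
    rcases List.mem_cons.1 h' with h1 | h1
    · exact ⟨i, le_rfl, h1⟩
    · obtain ⟨k, hk, e⟩ := exists_of_mem_edges h1
      exact ⟨k, by omega, e⟩

/-- **Good edges are everywhere.** -/
theorem hasGoodEdges_ae (hna : ∀ x, G {x} = 0) : ∀ᵐ t ∂law G, HasGoodEdges G t := by
  classical
  have hband : ∀ k : ℕ, ∃ lo : ℝ, 0 < lo ∧
      MeasurableSet {w | G (Set.Icc (w - 1 / ((k : ℝ) + 1)) (w - lo)) = 0} ∧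
      G {w | G (Set.Icc (w - 1 / ((k : ℝ) + 1)) (w - lo)) = 0} ≤ (16⁻¹ : ℝ≥0∞) ^ 8 :=
    fun k => exists_band hna (by positivity) (by simp [pos_iff_ne_zero])
  choose lo hlo hm hle using hband
  filter_upwards [ae_all_iff.2 fun k => few_bad G (hm k) (hle k)] with t ht hi hhi
  obtain ⟨k, hk⟩ := exists_nat_one_div_lt hhi
  refine ⟨lo k, hlo k, fun γ hγ N => ?_⟩
  obtain ⟨n0, hn0⟩ := ht k (γ N)
  have hj := joins_segList hγ.adj (N : ℤ) (n0 + 1)
  have h8 := (hn0 (n0 + 1) (by omega)).2 _ hj.walk hj.first (hγ.segList_nodup _ _)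
    (segList_length _ _)
  have hlen : (edges (segList γ (N : ℤ) (n0 + 1))).length = n0 + 1 := by
    rw [length_edges, segList_length]; omega
  obtain ⟨e, he, hgood⟩ : ∃ e ∈ edges (segList γ (N : ℤ) (n0 + 1)),
      t e ∉ {w | G (Set.Icc (w - 1 / ((k : ℝ) + 1)) (w - lo k)) = 0} := by
    by_contra hall
    push Not at hall
    rw [List.countP_eq_length.2 fun e he => by simpa using hall e he, hlen] at h8
    omega
  obtain ⟨j, hj1, rfl⟩ := exists_of_mem_edges he
  refine ⟨j.toNat, by omega, fun h0 => hgood ?_⟩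
  rw [show ((j.toNat : ℕ) : ℤ) = j by omega] at h0
  exact measure_mono_null (Set.Icc_subset_Icc (by linarith) le_rfl) h0

end Vale.Agent.P158
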