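import Mathlib
import Vale.Agent.P158.Defs

/-!
P158, part IV: with high probability a cheap and short ring lies in the annulus between the
squares of radii `3 L` and `4 L`, for every law on the real line.

On each side we take the graph of a Lipschitz height function all of whose points are good.
-/

open MeasureTheory Filter
open scoped ENNReal Topology

namespace Vale.Agent.P158

/-- The three by three square around a point. -/
noncomputable def nb (z : V) : Finset V := Finset.Icc (z.1 - 1) (z.1 + 1) ×ˢ Finset.Icc (z.2 - 1) (z.2 + 1)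

/-- The pairs of points of the square around a point. -/
noncomputable def sq (z : V) : Finset (Sym2 V) := (nb z ×ˢ nb z).image fun p => s(p.1, p.2)

/-- A site is bad when a pair in its square has weight above `K`. -/
def BadSite (t : Env) (K : ℝ) (z : V) : Prop := ∃ e ∈ sq z, K < t e

lemma mem_nb {w z : V} :
    w ∈ nb z ↔ z.1 - 1 ≤ w.1 ∧ w.1 ≤ z.1 + 1 ∧ z.2 - 1 ≤ w.2 ∧ w.2 ≤ z.2 + 1 := by
  simp only [nb, Finset.mem_product, Finset.mem_Icc]
  tauto

lemma card_sq (z : V) : (sq z).card ≤ 81 := by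
  refine Finset.card_image_le.trans ?_
  have h : (nb z).card = 9 := by
    simp only [nb, Finset.card_product, Int.card_Icc]
    rw [show z.1 + 1 + 1 - (z.1 - 1) = 3 by ring, show z.2 + 1 + 1 - (z.2 - 1) = 3 by ring]
    rfl
  rw [Finset.card_product, h]

lemma le_of_not_badSite {t : Env} {K : ℝ} {z a b : V} (h : ¬ BadSite t K z) (ha : a ∈ nb z)
    (hb : b ∈ nb z) : t s(a, b) ≤ K := by
  by_contra hc
  exact h ⟨s(a, b), Finset.mem_image.2 ⟨(a, b), Finset.mem_product.2 ⟨ha, hb⟩, rfl⟩, not_le.1 hc⟩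

lemma exists_common {z z' : V} {e : Sym2 V} (h : e ∈ sq z) (h' : e ∈ sq z') :
    ∃ w, w ∈ nb z ∧ w ∈ nb z' := by
  obtain ⟨⟨a, b⟩, hp, rfl⟩ := Finset.mem_image.1 h
  obtain ⟨⟨c, d⟩, hq, he⟩ := Finset.mem_image.1 h'
  simp only [Finset.mem_product] at hp hq
  rcases Sym2.eq_iff.1 he with ⟨rfl, rfl⟩ | ⟨rfl, rfl⟩
  · exact ⟨c, hp.1, hq.1⟩
  · exact ⟨d, hp.1, hq.2⟩

/-- Of any finite set of sites a ninth part is spread out. -/
lemma exists_spread (U : Finset V) :
    ∃ U' ⊆ U, U.card ≤ 9 * U'.card ∧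
      ∀ z ∈ U', ∀ z' ∈ U', z ≠ z' → ∀ e, e ∈ sq z → e ∉ sq z' := by
  classical
  set col : V → ZMod 3 × ZMod 3 := fun z => ((z.1 : ZMod 3), (z.2 : ZMod 3))
  obtain ⟨r, -, hr⟩ := Finset.exists_le_of_sum_le (s := (Finset.univ : Finset (ZMod 3 × ZMod 3)))
    (f := fun _ => U.card) (g := fun r => 9 * (U.filter fun z => col z = r).card)
    Finset.univ_nonempty (by
      rw [← Finset.mul_sum, ← Finset.card_eq_sum_card_fiberwise (fun z _ => Finset.mem_univ _)]
      simp)
  refine ⟨U.filter fun z => col z = r, Finset.filter_subset _ _, hr, ?_⟩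
  intro z hz z' hz' hne e he he'
  obtain ⟨w, hw, hw'⟩ := exists_common he he'
  rw [mem_nb] at hw hw'
  have hc : col z = col z' := (Finset.mem_filter.1 hz).2.trans (Finset.mem_filter.1 hz').2.symm
  simp only [col, Prod.mk.injEq] at hc
  have h1 := (ZMod.intCast_eq_intCast_iff_dvd_sub _ _ 3).1 hc.1
  have h2 := (ZMod.intCast_eq_intCast_iff_dvd_sub _ _ 3).1 hc.2
  obtain ⟨k1, hk1⟩ := h1
  obtain ⟨k2, hk2⟩ := h2
  push_cast at hk1 hk2
  exact hne (Prod.ext (by omega) (by omega))

/-- The probability that all sites of a set are bad decays exponentially in its size. -/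
lemma measure_all_bad_le (G : Measure ℝ) [IsProbabilityMeasure G] (K : ℝ) (U : Finset V) :
    ∃ k : ℕ, U.card ≤ 9 * k ∧
      law G {t | ∀ z ∈ U, BadSite t K z} ≤ (81 * G (Set.Ioi K)) ^ k := by
  classical
  obtain ⟨U', hsub, hcard, hsep⟩ := exists_spread U
  refine ⟨U'.card, hcard, ?_⟩
  have hincl : {t : Env | ∀ z ∈ U, BadSite t K z} ⊆
      ⋃ f ∈ U'.pi sq, {t : Env | ∀ z : {z // z ∈ U'}, K < t (f z.1 z.2)} := by
    intro t ht
    simp only [BadSite, Set.mem_ofPred_eq] at ht
    choose f hf hft using ht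
    exact Set.mem_biUnion (x := fun z hz => f z (hsub hz))
      (Finset.mem_pi.2 fun z hz => hf z (hsub hz)) fun z => hft z.1 (hsub z.2)
  refine (measure_mono hincl).trans ((measure_biUnion_finset_le _ _).trans ?_)
  have hbd : ∀ f ∈ U'.pi sq,
      law G {t : Env | ∀ z : {z // z ∈ U'}, K < t (f z.1 z.2)} = G (Set.Ioi K) ^ U'.card := by
    intro f hf
    set E := U'.attach.image fun z => f z.1 z.2 with hE
    have he : E.card = U'.card := by
      rw [hE, Finset.card_image_of_injective, Finset.card_attach]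
      intro z z' hzz
      by_contra hne
      refine hsep z.1 z.2 z'.1 z'.2 (fun h => hne (Subtype.ext h)) _ (Finset.mem_pi.1 hf _ z.2) ?_
      simp only at hzz
      rw [hzz]
      exact Finset.mem_pi.1 hf _ z'.2
    have hset : {t : Env | ∀ z : {z // z ∈ U'}, K < t (f z.1 z.2)} =
        Set.pi (E : Set (Sym2 V)) fun _ => Set.Ioi K := by
      ext t
      simp only [hE, Set.mem_pi, Finset.mem_coe, Finset.mem_image, Finset.mem_attach, true_and,
        Set.mem_ofPred_eq, Set.mem_Ioi]
      exact ⟨fun h e ⟨z, hz⟩ => hz ▸ h z, fun h z => h _ ⟨z, rfl⟩⟩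
    rw [hset, law, Measure.infinitePi_pi _ fun _ _ => measurableSet_Ioi, Finset.prod_const, he]
  rw [Finset.sum_congr rfl hbd, Finset.sum_const, nsmul_eq_mul, mul_pow]
  refine mul_le_mul' ?_ le_rfl
  rw [Finset.card_pi]
  push_cast
  refine (Finset.prod_le_prod' (g := fun _ => (81 : ℝ≥0∞)) fun z _ => ?_).trans
    (by rw [Finset.prod_const])
  exact_mod_cast card_sq z

/-- A climbing step: up to a bad site, or diagonally down. -/
def Climb (B : V → Prop) (z w : V) : Prop :=
  (w = (z.1, z.2 + 1) ∧ B w) ∨ w = (z.1 + 1, z.2 - 1) ∨ w = (z.1 - 1, z.2 - 1)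

/-- The columns considered. -/
def InCol (A : ℕ) (z : V) : Prop := -(A : ℤ) ≤ z.1 ∧ z.1 ≤ A

/-- A climbing path, written from its end, starting on the line of height `m`. -/
structure Climber (B : V → Prop) (m : ℤ) (A : ℕ) (l : List V) : Prop where
  chain : l.IsChain (fun w z => Climb B z w)
  nodup : l.Nodup
  start : ∀ z ∈ l.getLast?, z.2 = m ∧ InCol A z
  col : ∀ z ∈ l, InCol A z

/-- The sites at which the path has stepped up. -/
def ups : List V → Finset V
  | [] => ∅
  | [_] => ∅
  | w :: z :: l => if w = (z.1, z.2 + 1) then insert w (ups (z :: l)) else ups (z :: l)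

lemma ups_sub : ∀ l : List V, ∀ w ∈ ups l, w ∈ l
  | [], w, h => by simp [ups] at h
  | [a], w, h => by simp [ups] at h
  | a :: z :: l, w, h => by
    rw [ups] at h
    split at h
    · rcases Finset.mem_insert.1 h with rfl | h
      · simp
      · exact List.mem_cons_of_mem _ (ups_sub _ _ h)
    · exact List.mem_cons_of_mem _ (ups_sub _ _ h)

lemma ups_spec {B : V → Prop} :
    ∀ l : List V, l.IsChain (fun w z => Climb B z w) → l.Nodup →
      (∀ w ∈ ups l, B w) ∧ ∀ a b, l.head? = some a → l.getLast? = some b →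
        a.2 - b.2 + ((l.length : ℤ) - 1) = 2 * (ups l).card
  | [], _, _ => by simp [ups]
  | [a], _, _ => by
    refine ⟨by simp [ups], ?_⟩
    rintro x y hx hy
    simp at hx hy
    subst hx hy
    simp [ups]
  | w :: z :: l, hc, hn => by
    rw [List.isChain_cons_cons] at hc
    obtain ⟨hs, hc⟩ := hc
    rw [List.nodup_cons] at hn
    obtain ⟨hB, heq⟩ := ups_spec (z :: l) hc hn.2
    have hw : w ∉ ups (z :: l) := fun h => hn.1 (ups_sub _ _ h)
    constructor
    · intro x hx
      rw [ups] at hx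
      split at hx
      · rename_i hup
        rcases Finset.mem_insert.1 hx with rfl | hx
        · rcases hs with ⟨-, h⟩ | h | h
          · exact h
          all_goals
            exfalso
            have h2 := congrArg Prod.snd (hup.symm.trans h)
            simp only at h2
            omega
        · exact hB x hx
      · exact hB x hx
    · intro a b ha hb
      simp only [List.head?_cons, Option.some.injEq] at ha
      subst ha
      rw [List.getLast?_cons_cons] at hb
      have h1 := heq z b rfl hb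
      have hlen : ((w :: z :: l).length : ℤ) = ((z :: l).length : ℤ) + 1 := by
        push_cast [List.length_cons]; ring
      rw [ups, hlen]
      split
      · rename_i hup
        rw [Finset.card_insert_of_notMem hw]
        push_cast
        rw [hup]
        simp only
        linarith
      · rename_i hup
        rcases hs with ⟨h, -⟩ | h | h
        · exact absurd h hup
        all_goals
          rw [h]
          simp only
          linarith

lemma last_notMem_ups : ∀ l : List V, l.Nodup → ∀ b, l.getLast? = some b → b ∉ ups l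
  | [], _, b, hb => by simp at hb
  | [a], _, b, _ => by simp [ups]
  | w :: z :: l, hn, b, hb => by
    rw [List.getLast?_cons_cons] at hb
    rw [List.nodup_cons] at hn
    have h := last_notMem_ups (z :: l) hn.2 b hb
    have hne : b ≠ w := fun e => hn.1 (e ▸ List.mem_of_getLast? hb)
    rw [ups]
    split <;> simp [h, hne]

/-- Paths with `n` steps which could be climbers. -/
noncomputable def cands (m : ℤ) (A : ℕ) : ℕ → Finset (List V)
  | 0 => (Finset.Icc (-(A : ℤ)) A).image fun x => [(x, m)]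
  | n + 1 => (cands m A n).biUnion fun l =>
      let z := l.head?.getD (0, 0)
      {(z.1, z.2 + 1) :: l, (z.1 + 1, z.2 - 1) :: l, (z.1 - 1, z.2 - 1) :: l}

lemma card_cands (m : ℤ) (A : ℕ) : ∀ n, (cands m A n).card ≤ (2 * A + 1) * 3 ^ n
  | 0 => by
    refine Finset.card_image_le.trans ?_
    simp only [Int.card_Icc, pow_zero, mul_one]
    omega
  | n + 1 => by
    rw [cands]
    refine Finset.card_biUnion_le.trans ((Finset.sum_le_card_nsmul _ _ 3 fun l _ => ?_).trans ?_)
    · exact Finset.card_le_three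
    · rw [smul_eq_mul, pow_succ, ← mul_assoc]
      exact Nat.mul_le_mul_right _ (card_cands m A n)

lemma Climber.mem_cands {B : V → Prop} {m : ℤ} {A : ℕ} :
    ∀ {l : List V}, l ≠ [] → Climber B m A l → l ∈ cands m A (l.length - 1)
  | [], h, _ => absurd rfl h
  | [a], _, h => by
    obtain ⟨h2, h1⟩ := h.start a rfl
    show [a] ∈ cands m A 0
    rw [cands, Finset.mem_image]
    simp only [Finset.mem_Icc]
    exact ⟨a.1, h1, by rw [← h2]⟩
  | w :: z :: l, _, h => by
    have hc := List.isChain_cons_cons.1 h.chain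
    have h' : Climber B m A (z :: l) :=
      ⟨hc.2, (List.nodup_cons.1 h.nodup).2,
        fun y hy => h.start y (by rwa [List.getLast?_cons_cons]),
        fun y hy => h.col y (List.mem_cons_of_mem _ hy)⟩
    have ih := h'.mem_cands (by simp)
    simp only [List.length_cons, Nat.add_sub_cancel] at ih ⊢
    rw [cands, Finset.mem_biUnion]
    refine ⟨_, ih, ?_⟩
    rcases hc.1 with ⟨h1, -⟩ | h1 | h1 <;> simp [h1]

/-- No climber rises `h` levels above its start, apart from a small event. -/
lemma measure_climb_le (G : Measure ℝ) [IsProbabilityMeasure G] (K : ℝ) (φ : V → V)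
    (hφ : Function.Injective φ) (hK : 81 * G (Set.Ioi K) ≤ (6⁻¹ : ℝ≥0∞) ^ 18) (m : ℤ) (A h : ℕ) :
    law G {t | ∃ z l, Climber (fun v => BadSite t K (φ v)) m A (z :: l) ∧ m + h ≤ z.2}
      ≤ (2 * A + 1 : ℕ) * (2 * (2⁻¹ : ℝ≥0∞) ^ h) := by
  classical
  set P : ℕ → Finset (List V) := fun n => (cands m A n).filter fun l => n ≤ 2 * (ups l).card
  have hincl : {t : Env | ∃ z l, Climber (fun v => BadSite t K (φ v)) m A (z :: l) ∧ m + h ≤ z.2} ⊆
      ⋃ k : ℕ, ⋃ l ∈ P (h + k), {t : Env | ∀ v ∈ (ups l).image φ, BadSite t K v} := by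
    rintro t ⟨z, l, hl, hz⟩
    obtain ⟨b, hb⟩ : ∃ b, (z :: l).getLast? = some b :=
      ⟨_, List.getLast?_eq_some_getLast (List.cons_ne_nil z l)⟩
    obtain ⟨hB, heq⟩ := ups_spec _ hl.chain hl.nodup
    have h1 := heq z b rfl hb
    have h2 := (hl.start b hb).1
    have hmem := hl.mem_cands (List.cons_ne_nil z l)
    have hup : ((ups (z :: l)).card : ℤ) ≤ ((z :: l).length : ℤ) - 1 := by
      have : (ups (z :: l)).card ≤ l.length := by
        have hsub : ups (z :: l) ⊆ (z :: l).toFinset.erase b := by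
          intro w hw
          refine Finset.mem_erase.2 ⟨?_, List.mem_toFinset.2 (ups_sub _ _ hw)⟩
          exact fun hwb => last_notMem_ups _ hl.nodup b hb (hwb ▸ hw)
        refine (Finset.card_le_card hsub).trans ?_
        rw [Finset.card_erase_of_mem (List.mem_toFinset.2 (List.mem_of_getLast? hb))]
        have := List.toFinset_card_le (z :: l)
        simp only [List.length_cons] at this ⊢
        omega
      simp only [List.length_cons]
      omega
    simp only [List.length_cons, Nat.add_sub_cancel] at hmem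
    simp only [List.length_cons] at h1 hup
    push_cast at h1 hup
    refine Set.mem_iUnion.2 ⟨l.length - h, Set.mem_biUnion (x := z :: l) ?_ ?_⟩
    · have : h + (l.length - h) = l.length := by omega
      simp only [P, Finset.mem_coe, Finset.mem_filter, this]
      exact ⟨hmem, by omega⟩
    · intro v hv
      obtain ⟨u, hu, rfl⟩ := Finset.mem_image.1 hv
      exact hB u hu
  refine (measure_mono hincl).trans ((measure_iUnion_le _).trans ?_)
  have hterm : ∀ k : ℕ,
      law G (⋃ l ∈ P (h + k), {t : Env | ∀ v ∈ (ups l).image φ, BadSite t K v})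
        ≤ (2 * A + 1 : ℕ) * ((2⁻¹ : ℝ≥0∞) ^ h * (2⁻¹) ^ k) := by
    intro k
    refine (measure_biUnion_finset_le _ _).trans ?_
    calc ∑ l ∈ P (h + k), law G {t : Env | ∀ v ∈ (ups l).image φ, BadSite t K v}
        ≤ ∑ _l ∈ P (h + k), (6⁻¹ : ℝ≥0∞) ^ (h + k) := by
          refine Finset.sum_le_sum fun l hl => ?_
          obtain ⟨j, hj, hle⟩ := measure_all_bad_le G K ((ups l).image φ)
          rw [Finset.card_image_of_injective _ hφ] at hj
          refine hle.trans ((pow_le_pow_left' hK j).trans ?_)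
          rw [← pow_mul]
          refine pow_le_pow_right_of_le_one' (by simp) ?_
          have := (Finset.mem_filter.1 hl).2
          omega
      _ ≤ ((2 * A + 1) * 3 ^ (h + k) : ℕ) * (6⁻¹ : ℝ≥0∞) ^ (h + k) := by
          rw [Finset.sum_const, nsmul_eq_mul]
          refine mul_le_mul' ?_ le_rfl
          exact_mod_cast (Finset.card_filter_le _ _).trans (card_cands m A (h + k))
      _ = _ := by
          have h6 : (3 : ℝ≥0∞) * 6⁻¹ = 2⁻¹ := by
            rw [show (6 : ℝ≥0∞) = 3 * 2 by norm_num,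
              ENNReal.mul_inv (by norm_num) (by norm_num), ← mul_assoc,
              ENNReal.mul_inv_cancel (by norm_num) (by finiteness), one_mul]
          rw [← pow_add, Nat.cast_mul, mul_assoc, Nat.cast_pow, Nat.cast_ofNat, ← mul_pow, h6]
  refine (ENNReal.tsum_le_tsum hterm).trans (le_of_eq ?_)
  rw [ENNReal.tsum_mul_left, ENNReal.tsum_mul_left, ENNReal.tsum_geometric,
    ENNReal.one_sub_inv_two, inv_inv, mul_comm ((2⁻¹ : ℝ≥0∞) ^ h) 2]

/-- A climber which makes one more step gives a climber. -/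
lemma Climber.step {B : V → Prop} {m : ℤ} {A : ℕ} {z w : V} {l : List V}
    (h : Climber B m A (z :: l)) (hs : Climb B z w) (hw : InCol A w) :
    ∃ l', Climber B m A (w :: l') := by
  by_cases hm : w ∈ z :: l
  · obtain ⟨l1, l2, h12⟩ := List.append_of_mem hm
    refine ⟨l2, ?_, ?_, ?_, ?_⟩
    · exact (h12 ▸ h.chain).right_of_append
    · exact (List.nodup_append.1 (h12 ▸ h.nodup)).2.1
    · intro y hy
      refine h.start y ?_
      rw [h12, List.getLast?_append_of_ne_nil _ (List.cons_ne_nil _ _)]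
      exact hy
    · intro y hy
      exact h.col y (h12 ▸ List.mem_append_right _ hy)
  · exact ⟨z :: l, List.isChain_cons_cons.2 ⟨hs, h.chain⟩, List.nodup_cons.2 ⟨hm, h.nodup⟩,
      fun y hy => h.start y (by rwa [List.getLast?_cons_cons] at hy),
      fun y hy => (List.mem_cons.1 hy).elim (fun e => e ▸ hw) (h.col y)⟩

/-- A good Lipschitz height function on one side. -/
structure Side (t : Env) (K : ℝ) (φ : V → V) (m : ℤ) (A h : ℕ) (g : ℤ → ℤ) : Prop where
  lip : ∀ x, g (x + 1) ≤ g x + 1 ∧ g x ≤ g (x + 1) + 1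
  range : ∀ x, m < g x ∧ g x ≤ m + h
  good : ∀ x, InCol A (x, g x) → ¬ BadSite t K (φ (x, g x))

lemma exists_side (t : Env) (K : ℝ) (φ : V → V) (m : ℤ) (A h : ℕ)
    (hno : ¬ ∃ z l, Climber (fun v => BadSite t K (φ v)) m A (z :: l) ∧ m + h ≤ z.2) :
    ∃ g, Side t K φ m A h g := by
  classical
  set B : V → Prop := fun v => BadSite t K (φ v)
  have hbase : ∀ x, InCol A (x, m) → Climber B m A [(x, m)] := fun x hx =>
    ⟨List.isChain_singleton _, List.nodup_singleton _,
      fun z hz => by simp at hz; subst hz; exact ⟨rfl, hx⟩,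
      fun z hz => by simp at hz; subst hz; exact hx⟩
  set c : ℤ → ℤ := fun x => max (-(A : ℤ)) (min A x) with hc
  have hcol : ∀ x y, InCol A (c x, y) := fun x y => by
    simp only [InCol, hc]; omega
  have htop : ∀ x, ∃ y, (∃ l, Climber B m A ((c x, y) :: l)) ∧
      ∀ y', (∃ l, Climber B m A ((c x, y') :: l)) → y' ≤ y := by
    intro x
    exact Int.exists_greatest_of_bdd
      ⟨m + h, fun y hy => by
        obtain ⟨l, hl⟩ := hy
        by_contra hlt
        exact hno ⟨_, l, hl, (not_le.1 hlt).le⟩⟩ ⟨m, [], hbase _ (hcol x m)⟩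
  choose f hf hmax using htop
  have hfeq : ∀ x x', c x = c x' → f x = f x' := fun x x' e =>
    le_antisymm (hmax x' _ (e ▸ hf x)) (hmax x _ (e ▸ hf x'))
  refine ⟨fun x => f x + 1, ⟨fun x => ?_, fun x => ?_, fun x hx hb => ?_⟩⟩
  · obtain ⟨l, hl⟩ := hf x
    obtain ⟨l', hl'⟩ := hf (x + 1)
    by_cases he : c x = c (x + 1)
    · rw [hfeq x (x + 1) he]; exact ⟨by omega, by omega⟩
    · have he' : c (x + 1) = c x + 1 := by simp only [hc] at he ⊢; omega
      obtain ⟨r, hr⟩ := hl.step (w := (c (x + 1), f x - 1))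
        (Or.inr (Or.inl (by rw [he']))) (hcol _ _)
      obtain ⟨r', hr'⟩ := hl'.step (w := (c x, f (x + 1) - 1))
        (Or.inr (Or.inr (by rw [he']; simp))) (hcol _ _)
      have h1 := hmax _ _ ⟨r, hr⟩
      have h2 := hmax _ _ ⟨r', hr'⟩
      exact ⟨by omega, by omega⟩
  · obtain ⟨l, hl⟩ := hf x
    have h1 : f x < m + h := lt_of_not_ge fun hge => hno ⟨_, l, hl, hge⟩
    have h2 := hmax x m ⟨[], hbase _ (hcol x m)⟩
    exact ⟨by omega, by omega⟩
  · obtain ⟨l, hl⟩ := hf x
    have hcx : c x = x := by simp only [InCol] at hx; simp only [hc]; omega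
    obtain ⟨r, hr⟩ := hl.step (w := (c x, f x + 1))
      (Or.inl ⟨rfl, by rw [hcx]; exact hb⟩) (hcol _ _)
    have h1 := hmax _ _ ⟨r, hr⟩
    omega

/-- The upper side. -/
def sideT (z : V) : V := z
/-- The lower side. -/
def sideB (z : V) : V := (z.1, -z.2)
/-- The right side. -/
def sideR (z : V) : V := (z.2, z.1)
/-- The left side. -/
def sideL (z : V) : V := (-z.2, z.1)

/-- A cheap step inside the annulus. -/
def Step (t : Env) (K : ℝ) (L : ℕ) (x y : V) : Prop :=
  Adj x y ∧ t s(x, y) ≤ K ∧ x ∈ ann (3 * L) (4 * L) ∧ y ∈ ann (3 * L) (4 * L)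

lemma Step.symm {t : Env} {K : ℝ} {L : ℕ} {x y : V} (h : Step t K L x y) : Step t K L y x := by
  obtain ⟨h1, h2, h3, h4⟩ := h
  refine ⟨?_, by rwa [Sym2.eq_swap], h4, h3⟩
  simp only [Adj] at h1 ⊢
  omega

/-- The graph of a side, run through by a short walk of cheap steps. -/
lemma side_walk {t : Env} {K : ℝ} {φ : V → V} {L : ℕ} {g : ℤ → ℤ}
    (hnb : ∀ a z, a ∈ nb z → φ a ∈ nb (φ z)) (hadj : ∀ a b, Adj a b → Adj (φ a) (φ b))
    (hann : ∀ z : V, InCol (4 * L) z → (3 * L : ℤ) < z.2 → z.2 ≤ 4 * L →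
      φ z ∈ ann (3 * L) (4 * L))
    (hg : Side t K φ (3 * L) (4 * L) L g) :
    ∀ n ≤ 8 * L, ∃ l : List V, l.IsChain (Step t K L) ∧
      l.head? = some (φ (-(4 * L : ℤ), g (-(4 * L : ℤ)))) ∧
      l.getLast? = some (φ (-(4 * L : ℤ) + n, g (-(4 * L : ℤ) + n))) ∧
      (∀ i ≤ n, φ (-(4 * L : ℤ) + i, g (-(4 * L : ℤ) + i)) ∈ l) ∧
      (∀ u ∈ l, u ∈ ann (3 * L) (4 * L)) ∧ l.length ≤ 2 * n + 1 := by
  intro n
  induction n with
  | zero =>
    intro _
    refine ⟨[φ (-(4 * L : ℤ), g (-(4 * L : ℤ)))], List.isChain_singleton _, rfl, by simp, ?_, ?_,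
      by simp⟩
    · intro i hi
      obtain rfl : i = 0 := by omega
      simp
    · intro u hu
      simp only [List.mem_singleton] at hu
      subst hu
      have := hg.range (-(4 * L : ℤ))
      refine hann _ ?_ this.1 ?_
      · simp only [InCol]; push_cast; omega
      · simp only; omega
  | succ n ih =>
    intro hn
    obtain ⟨l, hl, hh, hlast, hmem, hin, hlen⟩ := ih (by omega)
    set x : ℤ := -(4 * L : ℤ) + n with hx
    have hx' : (-(4 * L : ℤ) + (n + 1 : ℕ)) = x + 1 := by push_cast; ring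
    have hlip := hg.lip x
    have hr := hg.range x
    have hr' := hg.range (x + 1)
    have hcol : ∀ y, InCol (4 * L) (x, y) ∧ InCol (4 * L) (x + 1, y) := fun y => by
      simp only [InCol]; push_cast; omega
    have hgp := hg.good x (hcol _).1
    have hgq := hg.good (x + 1) (hcol _).2
    have hmp : φ (x, g x) ∈ ann (3 * L) (4 * L) :=
      hann _ (hcol _).1 hr.1 (by simp only; omega)
    have hmq : φ (x + 1, g x) ∈ ann (3 * L) (4 * L) :=
      hann _ (hcol _).2 hr.1 (by simp only; omega)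
    have hmr : φ (x + 1, g (x + 1)) ∈ ann (3 * L) (4 * L) :=
      hann _ (hcol _).2 hr'.1 (by simp only; omega)
    have hpq : Step t K L (φ (x, g x)) (φ (x + 1, g x)) :=
      ⟨hadj _ _ (by simp [Adj]), le_of_not_badSite hgp (hnb _ _ (by rw [mem_nb]; simp only; omega))
        (hnb _ _ (by rw [mem_nb]; simp only; omega)), hmp, hmq⟩
    rw [hx']
    by_cases he : g (x + 1) = g x
    · refine ⟨l ++ [φ (x + 1, g (x + 1))], ?_, ?_, by simp, ?_, ?_, by simp; omega⟩
      · refine List.isChain_append.2 ⟨hl, List.isChain_singleton _, ?_⟩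
        intro a ha b hb
        rw [hlast] at ha
        simp only [Option.mem_def, Option.some.injEq, List.head?_cons] at ha hb
        rw [← ha, ← hb, he]
        exact hpq
      · rw [List.head?_append, hh]; rfl
      · intro i hi
        rcases Nat.lt_or_ge i (n + 1) with h | h
        · exact List.mem_append_left _ (hmem i (by omega))
        · obtain rfl : i = n + 1 := by omega
          rw [hx']; simp
      · intro u hu
        rcases List.mem_append.1 hu with h | h
        · exact hin u h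
        · simp only [List.mem_singleton] at h; exact h ▸ hmr
    · refine ⟨l ++ [φ (x + 1, g x), φ (x + 1, g (x + 1))], ?_, ?_, by simp, ?_, ?_, by simp; omega⟩
      · refine List.isChain_append.2 ⟨hl, List.isChain_cons_cons.2 ⟨?_, List.isChain_singleton _⟩, ?_⟩
        · refine ⟨hadj _ _ ?_, le_of_not_badSite hgq (hnb _ _ ?_) (hnb _ _ (by simp [mem_nb])),
            hmq, hmr⟩
          · simp only [Adj]; omega
          · rw [mem_nb]; simp only; omega
        · intro a ha b hb
          rw [hlast] at ha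
          simp only [Option.mem_def, Option.some.injEq, List.head?_cons] at ha hb
          rw [← ha, ← hb]
          exact hpq
      · rw [List.head?_append, hh]; rfl
      · intro i hi
        rcases Nat.lt_or_ge i (n + 1) with h | h
        · exact List.mem_append_left _ (hmem i (by omega))
        · obtain rfl : i = n + 1 := by omega
          rw [hx']; simp
      · intro u hu
        rcases List.mem_append.1 hu with h | h
        · exact hin u h
        · simp only [List.mem_cons, List.not_mem_nil, or_false] at h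
          rcases h with rfl | rfl
          · exact hmq
          · exact hmr

section Lists

variable {W : Type*} {R : W → W → Prop}

lemma join_walks {w1 w2 : List W} {a b c : W} (h1 : w1.IsChain R) (h2 : w2.IsChain R)
    (ha : w1.head? = some a) (hb : w1.getLast? = some b) (hb' : w2.head? = some b)
    (hc : w2.getLast? = some c) :
    ∃ w : List W, w.IsChain R ∧ w.head? = some a ∧ w.getLast? = some c ∧
      (∀ x, x ∈ w ↔ x ∈ w1 ∨ x ∈ w2) ∧ w.length ≤ w1.length + w2.length := by
  match w2, hb' with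
  | y :: r, hb' =>
    simp only [List.head?_cons, Option.some.injEq] at hb'
    subst hb'
    refine ⟨w1 ++ r, ?_, ?_, ?_, ?_, ?_⟩
    · refine List.isChain_append.2 ⟨h1, h2.tail, ?_⟩
      intro u hu v hv
      rw [hb, Option.mem_def, Option.some.injEq] at hu
      subst hu
      exact (List.isChain_cons.1 h2).1 v hv
    · rw [List.head?_append, ha]; rfl
    · cases r with
      | nil => simpa [List.append_nil, hb] using hc
      | cons z r' =>
        rw [List.getLast?_append_of_ne_nil _ (List.cons_ne_nil _ _)]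
        rwa [List.getLast?_cons_cons] at hc
    · intro x
      have hy : y ∈ w1 := List.mem_of_getLast? hb
      simp only [List.mem_append, List.mem_cons]
      constructor
      · rintro (h | h)
        · exact Or.inl h
        · exact Or.inr (Or.inr h)
      · rintro (h | h | h)
        · exact Or.inl h
        · exact Or.inl (h ▸ hy)
        · exact Or.inr h
    · simp only [List.length_append, List.length_cons]; omega

lemma cover_walk (hsym : ∀ a b, R a b → R b a) {l : List W} (hl : l.IsChain R) {u v : W}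
    (hu : u ∈ l) (hv : v ∈ l) :
    ∃ w : List W, w.IsChain R ∧ w.head? = some u ∧ w.getLast? = some v ∧
      (∀ x, x ∈ w ↔ x ∈ l) ∧ w.length ≤ 3 * l.length := by
  obtain ⟨l1, l2, h12⟩ := List.append_of_mem hu
  obtain ⟨l3, l4, h34⟩ := List.append_of_mem hv
  have hrev : ∀ r : List W, r.IsChain R → r.reverse.IsChain R := fun r hr =>
    List.isChain_reverse.2 (hr.imp fun a b h => hsym a b h)
  have c1 : (l1 ++ [u]).reverse.IsChain R := by
    refine hrev _ ?_
    have : l = (l1 ++ [u]) ++ l2 := by simp [h12]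
    exact (this ▸ hl).left_of_append
  have c3 : (v :: l4).reverse.IsChain R := hrev _ (h34 ▸ hl).right_of_append
  obtain ⟨a, ha⟩ : ∃ a, l.head? = some a := by
    cases l with
    | nil => simp at hu
    | cons a r => exact ⟨a, rfl⟩
  obtain ⟨b, hb⟩ : ∃ b, l.getLast? = some b :=
    ⟨_, List.getLast?_eq_some_getLast (List.ne_nil_of_mem hu)⟩
  have e1 : (l1 ++ [u]).reverse.getLast? = some a := by
    rw [List.getLast?_reverse, ← ha, h12]
    cases l1 <;> simp
  have e3 : (v :: l4).reverse.head? = some b := by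
    rw [List.head?_reverse, ← hb, h34, List.getLast?_append_of_ne_nil _ (List.cons_ne_nil _ _)]
  obtain ⟨w, hw, hwh, hwl, hwm, hwn⟩ := join_walks c1 hl (a := u) (by simp) e1 ha hb
  obtain ⟨w', hw', hwh', hwl', hwm', hwn'⟩ := join_walks hw c3 hwh hwl e3 (c := v) (by simp)
  have h1 : ∀ x ∈ (l1 ++ [u]).reverse, x ∈ l := by
    intro x hx
    simp only [List.mem_reverse, List.mem_append, List.mem_singleton] at hx
    rcases hx with h | rfl
    · exact h12 ▸ List.mem_append_left _ h
    · exact hu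
  have h3 : ∀ x ∈ (v :: l4).reverse, x ∈ l := by
    intro x hx
    exact h34 ▸ List.mem_append_right _ (List.mem_reverse.1 hx)
  refine ⟨w', hw', hwh', hwl', fun x => ?_, ?_⟩
  · rw [hwm', hwm]
    exact ⟨fun h => h.elim (fun h => h.elim (h1 x) id) (h3 x), fun h => Or.inl (Or.inr h)⟩
  · have n1 : (l1 ++ [u]).reverse.length ≤ l.length := by
      rw [h12]; simp
    have n3 : (v :: l4).reverse.length ≤ l.length := by
      rw [h34]; simp
    omega

/-- A walk from a value at most zero to a value at least zero takes the value zero. -/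
lemma exists_zero (ψ : W → ℤ) (hψ : ∀ a b, R a b → ψ b ≤ ψ a + 1) :
    ∀ l : List W, l.IsChain R → ∀ a b, l.head? = some a → l.getLast? = some b →
      ψ a ≤ 0 → 0 ≤ ψ b → ∃ u ∈ l, ψ u = 0
  | [], _, a, b, ha, _, _, _ => by simp at ha
  | [x], _, a, b, ha, hb, h1, h2 => by
    simp at ha hb
    subst ha hb
    exact ⟨x, by simp, le_antisymm h1 h2⟩
  | x :: y :: l, hc, a, b, ha, hb, h1, h2 => by
    simp only [List.head?_cons, Option.some.injEq] at ha
    subst ha
    rw [List.isChain_cons_cons] at hc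
    rw [List.getLast?_cons_cons] at hb
    by_cases h0 : ψ x = 0
    · exact ⟨x, by simp, h0⟩
    · have := hψ _ _ hc.1
      obtain ⟨u, hu, hu0⟩ := exists_zero ψ hψ (y :: l) hc.2 y b rfl hb (by omega) h2
      exact ⟨u, List.mem_cons_of_mem _ hu, hu0⟩

end Lists

lemma wt_le_of_chain {t : Env} {K : ℝ} {L : ℕ} (hK : 0 ≤ K) :
    ∀ l : List V, l.IsChain (Step t K L) → wt t l ≤ K * l.length
  | [], _ => by simp [wt]
  | [x], _ => by simpa [wt] using hK
  | x :: y :: l, hc => by
    rw [List.isChain_cons_cons] at hc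
    have ih := wt_le_of_chain hK (y :: l) hc.2
    simp only [wt, List.length_cons] at ih ⊢
    push_cast at ih ⊢
    linarith [hc.1.2.1]

lemma gap_lip {g : ℤ → ℤ} (hg : ∀ x, g (x + 1) ≤ g x + 1 ∧ g x ≤ g (x + 1) + 1) {a b a' b' : ℤ}
    (h : (a - a').natAbs + (b - b').natAbs = 1) : b' - g a' ≤ b - g a + 1 := by
  rcases (show a' = a ∨ (a' = a + 1 ∧ b' = b) ∨ (a = a' + 1 ∧ b' = b) by omega) with
    rfl | ⟨rfl, rfl⟩ | ⟨rfl, rfl⟩
  · omega
  · have := hg a; omega
  · have := hg a'; omega

/-- Four good sides give a ring. -/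
lemma ring_of_sides {t : Env} {K : ℝ} (hK : 0 ≤ K) {L : ℕ} (hL : 1 ≤ L) {gT gB gR gL : ℤ → ℤ}
    (hT : Side t K sideT (3 * L) (4 * L) L gT) (hB : Side t K sideB (3 * L) (4 * L) L gB)
    (hR : Side t K sideR (3 * L) (4 * L) L gR) (hF : Side t K sideL (3 * L) (4 * L) L gL) :
    ∃ c, Ring t (3 * L) (4 * L) (K * (204 * L : ℕ)) (204 * L) c := by
  have hann : ∀ φ : V → V, (φ = sideT ∨ φ = sideB ∨ φ = sideR ∨ φ = sideL) →
      (∀ a z, a ∈ nb z → φ a ∈ nb (φ z)) ∧ (∀ a b, Adj a b → Adj (φ a) (φ b)) ∧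
      (∀ z : V, InCol (4 * L) z → (3 * L : ℤ) < z.2 → z.2 ≤ 4 * L →
        φ z ∈ ann (3 * L) (4 * L)) := by
    intro φ hφ
    rcases hφ with rfl | rfl | rfl | rfl
    all_goals
      refine ⟨fun a z h => ?_, fun a b h => ?_, fun z h h1 h2 => ?_⟩
      · simp only [mem_nb, sideT, sideB, sideR, sideL] at h ⊢; omega
      · simp only [Adj, sideT, sideB, sideR, sideL] at h ⊢; omega
      · simp only [InCol] at h
        simp only [ann, box, Set.mem_sdiff, Set.mem_ofPred_eq, sideT, sideB, sideR, sideL]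
        push_cast at h
        omega
  have walk : ∀ φ g, (φ = sideT ∨ φ = sideB ∨ φ = sideR ∨ φ = sideL) →
      Side t K φ (3 * L) (4 * L) L g → ∃ l : List V, l.IsChain (Step t K L) ∧
        l.head? = some (φ (-(4 * L : ℤ), g (-(4 * L : ℤ)))) ∧
        l.getLast? = some (φ ((4 * L : ℤ), g (4 * L : ℤ))) ∧
        (∀ x : ℤ, -(4 * L : ℤ) ≤ x → x ≤ 4 * L → φ (x, g x) ∈ l) ∧
        (∀ u ∈ l, u ∈ ann (3 * L) (4 * L)) ∧ l.length ≤ 16 * L + 1 := by
    intro φ g hφ hg
    obtain ⟨h1, h2, h3⟩ := hann φ hφ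
    obtain ⟨l, ha, hb, hc, hd, he, hf⟩ := side_walk h1 h2 h3 hg (8 * L) le_rfl
    have e : (-(4 * L : ℤ) + (8 * L : ℕ)) = 4 * L := by push_cast; ring
    rw [e] at hc
    refine ⟨l, ha, hb, hc, fun x hx hx' => ?_, he, by omega⟩
    have := hd (x + 4 * L).toNat (by omega)
    rwa [show -(4 * L : ℤ) + ((x + 4 * L).toNat : ℤ) = x by omega] at this
  obtain ⟨lT, cT, hT0, hT1, mT, aT, nT⟩ := walk sideT gT (by tauto) hT
  obtain ⟨lB, cB, hB0, hB1, mB, aB, nB⟩ := walk sideB gB (by tauto) hB
  obtain ⟨lR, cR, hR0, hR1, mR, aR, nR⟩ := walk sideR gR (by tauto) hR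
  obtain ⟨lF, cF, hF0, hF1, mF, aF, nF⟩ := walk sideL gL (by tauto) hF
  have inann : ∀ u : V, u ∈ ann (3 * L) (4 * L) → -(4 * L : ℤ) ≤ u.1 ∧ u.1 ≤ 4 * L := by
    intro u hu
    simp only [ann, box, Set.mem_sdiff, Set.mem_ofPred_eq] at hu
    omega
  have stepψ : ∀ (ψ : V → ℤ), (∀ a b, Adj a b → ψ b ≤ ψ a + 1) →
      ∀ a b, Step t K L a b → ψ b ≤ ψ a + 1 := fun ψ h a b hs => h a b hs.1
  have lipT : ∀ a b : V, Adj a b → b.2 - gT b.1 ≤ a.2 - gT a.1 + 1 := fun a b h =>
    gap_lip hT.lip h
  have lipB : ∀ a b : V, Adj a b → -b.2 - gB b.1 ≤ -a.2 - gB a.1 + 1 := fun a b h =>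
    gap_lip hB.lip (a := a.1) (b := -a.2) (by simp only [Adj] at h; omega)
  have lipR : ∀ a b : V, Adj a b → b.1 - gR b.2 ≤ a.1 - gR a.2 + 1 := fun a b h =>
    gap_lip hR.lip (a := a.2) (b := a.1) (by simp only [Adj] at h; omega)
  have lipF : ∀ a b : V, Adj a b → -b.1 - gL b.2 ≤ -a.1 - gL a.2 + 1 := fun a b h =>
    gap_lip hF.lip (a := a.2) (b := -a.1) (by simp only [Adj] at h; omega)
  -- the right side meets the upper and the lower ones
  obtain ⟨u1, hu1, hu1'⟩ := exists_zero (fun u : V => u.2 - gT u.1) (stepψ _ lipT) lR cR _ _ hR0 hR1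
    (by simp only [sideR]; have := hT.range (gR (-(4 * L : ℤ))); omega)
    (by simp only [sideR]; have := hT.range (gR (4 * L : ℤ)); omega)
  have hu1T : u1 ∈ lT := by
    have := mT u1.1 (inann _ (aR _ hu1)).1 (inann _ (aR _ hu1)).2
    simp only [sideT] at this
    rwa [show (u1.1, gT u1.1) = u1 from Prod.ext rfl (by simp only at hu1' ⊢; omega)] at this
  obtain ⟨u2, hu2, hu2'⟩ := exists_zero (fun u : V => -u.2 - gB u.1) (stepψ _ lipB) lR.reverse
    (List.isChain_reverse.2 (cR.imp fun a b h => h.symm)) _ _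
    (by rw [List.head?_reverse]; exact hR1) (by rw [List.getLast?_reverse]; exact hR0)
    (by simp only [sideR]; have := hB.range (gR (4 * L : ℤ)); omega)
    (by simp only [sideR]; have := hB.range (gR (-(4 * L : ℤ))); omega)
  rw [List.mem_reverse] at hu2
  have hu2B : u2 ∈ lB := by
    have := mB u2.1 (inann _ (aR _ hu2)).1 (inann _ (aR _ hu2)).2
    simp only [sideB] at this
    rwa [show (u2.1, -gB u2.1) = u2 from Prod.ext rfl (by simp only at hu2' ⊢; omega)] at this
  obtain ⟨u3, hu3, hu3'⟩ := exists_zero (fun u : V => -u.2 - gB u.1) (stepψ _ lipB) lF.reverse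
    (List.isChain_reverse.2 (cF.imp fun a b h => h.symm)) _ _
    (by rw [List.head?_reverse]; exact hF1) (by rw [List.getLast?_reverse]; exact hF0)
    (by simp only [sideL]; have := hB.range (-gL (4 * L : ℤ)); omega)
    (by simp only [sideL]; have := hB.range (-gL (-(4 * L : ℤ))); omega)
  rw [List.mem_reverse] at hu3
  have hu3B : u3 ∈ lB := by
    have := mB u3.1 (inann _ (aF _ hu3)).1 (inann _ (aF _ hu3)).2
    simp only [sideB] at this
    rwa [show (u3.1, -gB u3.1) = u3 from Prod.ext rfl (by simp only at hu3' ⊢; omega)] at this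
  have hs : ∀ a b, Step t K L a b → Step t K L b a := fun a b h => h.symm
  obtain ⟨w1, c1, h1, e1, m1, n1⟩ := cover_walk hs cT hu1T hu1T
  obtain ⟨w2, c2, h2, e2, m2, n2⟩ := cover_walk hs cR hu1 hu2
  obtain ⟨w3, c3, h3, e3, m3, n3⟩ := cover_walk hs cB hu2B hu3B
  obtain ⟨w4, c4, h4, e4, m4, n4⟩ := cover_walk hs cF hu3 hu3
  obtain ⟨v1, d1, g1, f1, k1, r1⟩ := join_walks c1 c2 h1 e1 h2 e2
  obtain ⟨v2, d2, g2, f2, k2, r2⟩ := join_walks d1 c3 g1 f1 h3 e3
  obtain ⟨c, hc, g3, f3, k3, r3⟩ := join_walks d2 c4 g2 f2 h4 e4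
  have hlen : c.length ≤ 204 * L := by omega
  refine ⟨c, hc.imp fun a b h => h.1, ?_, ?_, ?_, hlen⟩
  · intro u hu
    rw [k3, k2, k1, m1, m2, m3, m4] at hu
    rcases hu with ((h | h) | h) | h
    exacts [aT u h, aR u h, aB u h, aF u h]
  · intro l x y hl hx hy
    simp only [box, Set.mem_ofPred_eq] at hx hy
    obtain ⟨u, hu, hu0⟩ := exists_zero
      (fun u : V => max (max (u.2 - gT u.1) (-u.2 - gB u.1)) (max (u.1 - gR u.2) (-u.1 - gL u.2)))
      (fun a b h => by
        have := lipT a b h; have := lipB a b h; have := lipR a b h; have := lipF a b h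
        omega) l hl.walk x y hl.first hl.last
      (by
        have := hT.range x.1; have := hB.range x.1; have := hR.range x.2; have := hF.range x.2
        omega)
      (by
        have := hT.range y.1; have := hB.range y.1; have := hR.range y.2; have := hF.range y.2
        omega)
    refine ⟨u, hu, ?_⟩
    rw [k3, k2, k1, m1, m2, m3, m4]
    have := hT.range u.1; have := hB.range u.1; have := hR.range u.2; have := hF.range u.2
    rcases (show u.2 = gT u.1 ∨ -u.2 = gB u.1 ∨ u.1 = gR u.2 ∨ -u.1 = gL u.2 by omega) with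
      h | h | h | h
    · have hm := mT u.1 (by omega) (by omega)
      simp only [sideT, ← h] at hm
      exact Or.inl (Or.inl (Or.inl hm))
    · have hm := mB u.1 (by omega) (by omega)
      simp only [sideB, ← h, neg_neg] at hm
      exact Or.inl (Or.inr hm)
    · have hm := mR u.2 (by omega) (by omega)
      simp only [sideR, ← h] at hm
      exact Or.inl (Or.inl (Or.inr hm))
    · have hm := mF u.2 (by omega) (by omega)
      simp only [sideL, ← h, neg_neg] at hm
      exact Or.inr hm
  · exact (wt_le_of_chain hK c hc).trans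
      (mul_le_mul_of_nonneg_left (by exact_mod_cast hlen) hK)

/-- With high probability a ring of linear weight and length lies in the annulus. -/
theorem exists_ring (G : Measure ℝ) [IsProbabilityMeasure G] {ε : ℝ≥0∞} (hε : ε ≠ 0) :
    ∃ K : ℕ, ∀ᶠ L : ℕ in atTop,
      law G {t | ¬ ∃ c, Ring t (3 * L) (4 * L) ((K * L : ℕ) : ℝ) (K * L) c} ≤ ε := by
  obtain ⟨K₀, hK₀⟩ : ∃ K₀ : ℕ, 81 * G (Set.Ioi (K₀ : ℝ)) ≤ (6⁻¹ : ℝ≥0∞) ^ 18 := by
    have h : Tendsto (fun n : ℕ => G (Set.Ioi (n : ℝ))) atTop (𝓝 0) := by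
      have h' := tendsto_measure_iInter_atTop (μ := G) (s := fun n : ℕ => Set.Ioi (n : ℝ))
        (fun n => measurableSet_Ioi.nullMeasurableSet)
        (fun m n hmn => Set.Ioi_subset_Ioi (by exact_mod_cast hmn)) ⟨0, measure_ne_top _ _⟩
      have he : (⋂ n : ℕ, Set.Ioi (n : ℝ)) = ∅ := Set.eq_empty_iff_forall_notMem.2 fun y hy => by
        obtain ⟨n, hn⟩ := exists_nat_gt y
        have := Set.mem_Ioi.1 (Set.mem_iInter.1 hy n)
        linarith
      rwa [he, measure_empty] at h'
    have hpos : (0 : ℝ≥0∞) < 6⁻¹ ^ 18 := ENNReal.pow_pos (ENNReal.inv_pos.2 (by finiteness)) 18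
    have h2 := ENNReal.Tendsto.const_mul (a := 81) h (Or.inr (by finiteness))
    rw [mul_zero] at h2
    obtain ⟨n, hn⟩ := (h2.eventually (eventually_le_nhds hpos)).exists
    exact ⟨n, hn⟩
  refine ⟨204 * (K₀ + 1), ?_⟩
  have hlim : Tendsto (fun L : ℕ => 4 * (((2 * (4 * L) + 1 : ℕ) : ℝ≥0∞) * (2 * (2⁻¹) ^ L)))
      atTop (𝓝 0) := by
    have h1 : Tendsto (fun L : ℕ => 64 * ((L : ℝ) * (2⁻¹) ^ L) + 8 * (2⁻¹ : ℝ) ^ L)
        atTop (𝓝 0) := by
      have ha := tendsto_self_mul_const_pow_of_lt_one (r := (2⁻¹ : ℝ)) (by norm_num) (by norm_num)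
      have hb := tendsto_pow_atTop_nhds_zero_of_lt_one (r := (2⁻¹ : ℝ)) (by norm_num) (by norm_num)
      simpa using (ha.const_mul 64).add (hb.const_mul 8)
    have h2 := ENNReal.tendsto_ofReal h1
    rw [ENNReal.ofReal_zero] at h2
    refine h2.congr fun L => ?_
    rw [show 64 * ((L : ℝ) * 2⁻¹ ^ L) + 8 * 2⁻¹ ^ L =
        4 * (((2 * (4 * L) + 1 : ℕ) : ℝ) * (2 * 2⁻¹ ^ L)) by push_cast; ring,
      ENNReal.ofReal_mul (by norm_num), ENNReal.ofReal_mul (by positivity),
      ENNReal.ofReal_mul (by norm_num), ENNReal.ofReal_pow (by norm_num),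
      ENNReal.ofReal_inv_of_pos (by norm_num), ENNReal.ofReal_natCast]
    norm_num
  filter_upwards [hlim.eventually (eventually_le_nhds (pos_iff_ne_zero.2 hε)),
    eventually_ge_atTop 1] with L hsmall hL
  set E : (V → V) → Set Env := fun φ => {t | ∃ z l,
    Climber (fun v => BadSite t (K₀ : ℝ) (φ v)) (3 * L) (4 * L) (z :: l) ∧ (3 * L : ℤ) + L ≤ z.2}
  have hincl : {t | ¬ ∃ c, Ring t (3 * L) (4 * L) ((204 * (K₀ + 1) * L : ℕ) : ℝ)
      (204 * (K₀ + 1) * L) c} ⊆ E sideT ∪ E sideB ∪ E sideR ∪ E sideL := by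
    intro t ht
    by_contra hno
    simp only [Set.mem_union, not_or] at hno
    obtain ⟨⟨⟨h1, h2⟩, h3⟩, h4⟩ := hno
    obtain ⟨gT, hT⟩ := exists_side t K₀ sideT _ _ _ h1
    obtain ⟨gB, hB⟩ := exists_side t K₀ sideB _ _ _ h2
    obtain ⟨gR, hR⟩ := exists_side t K₀ sideR _ _ _ h3
    obtain ⟨gL, hF⟩ := exists_side t K₀ sideL _ _ _ h4
    obtain ⟨c, hc⟩ := ring_of_sides (Nat.cast_nonneg K₀) hL hT hB hR hF
    refine ht ⟨c, hc.walk, hc.sub, hc.sep, hc.weight.trans ?_, hc.size.trans ?_⟩
    · rw [← Nat.cast_mul]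
      exact_mod_cast (show K₀ * (204 * L) ≤ 204 * (K₀ + 1) * L by
        rw [show K₀ * (204 * L) = 204 * K₀ * L by ring]
        exact Nat.mul_le_mul_right _ (by omega))
    · exact Nat.mul_le_mul_right _ (by omega)
  have hE : ∀ φ : V → V, Function.Injective φ →
      law G (E φ) ≤ ((2 * (4 * L) + 1 : ℕ) : ℝ≥0∞) * (2 * (2⁻¹) ^ L) := fun φ hφ =>
    measure_climb_le G K₀ φ hφ hK₀ (3 * L) (4 * L) L
  refine (measure_mono hincl).trans (le_trans ?_ hsmall)
  refine ((measure_union_le _ _).trans (add_le_add ((measure_union_le _ _).trans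
    (add_le_add ((measure_union_le _ _).trans (add_le_add (hE _ ?_) (hE _ ?_))) (hE _ ?_)))
      (hE _ ?_))).trans (le_of_eq (by ring))
  all_goals
    intro a b h
    simp only [sideT, sideB, sideR, sideL, Prod.ext_iff] at h
    exact Prod.ext (by omega) (by omega)

end Vale.Agent.P158
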