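import Vale.Agent.P158.Assembly
import Vale.Agent.P158.KeyEvents
import Vale.Agent.P158.NiceAE
import Vale.Agent.P158.PairsGood
import Vale.Agent.P158.Ring

/-!
P158: everything but the box count, combined.
-/

open MeasureTheory Filter
open scoped ENNReal

namespace Vale.Agent.P158

variable {G : Measure ℝ} [IsProbabilityMeasure G]

lemma noRing_small (ε : ℝ) (hε : 0 < ε) :
    ∃ K L₀ : ℕ, ∀ L, L₀ ≤ L → law G (NoRing K L) ≤ ENNReal.ofReal ε := by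
  obtain ⟨K, hK⟩ := exists_ring G (ε := ENNReal.ofReal ε) (ENNReal.ofReal_pos.mpr hε).ne'
  obtain ⟨L₀, hL₀⟩ := eventually_atTop.mp hK
  refine ⟨K, L₀, fun L hL => (measure_mono ?_).trans (hL₀ L hL)⟩
  rintro t ht ⟨c, hc⟩
  exact ht c hc

/-- No bigeodesic, given the two deterministic counts in a ring. -/
theorem noBigeodesic_of_counts (hna : ∀ x, G {x} = 0) (hnn : G (Set.Iio 0) = 0)
    {a₁ a₂ b₁ b₂ : ℝ} (ha₁ : 0 ≤ a₁) (ha₂ : 0 ≤ a₂) (hb₁ : 0 ≤ b₁) (hb₂ : 0 ≤ b₂)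
    (hbranch : ∀ t (r1 r2 : ℕ) (S : ℝ) (N : ℕ) (c : List V), Nice t → Ring t r1 r2 S N c →
      ∀ (R L : ℕ) (M : ℝ), 0 < M → R + L < r1 → ∀ F : Finset V, (∀ v ∈ F, v ∈ box L) →
      (∀ v ∈ F, BranchPt t v R M) → (F.card : ℝ) ≤ (a₁ * S / M + a₂) * N)
    (hline : ∀ t (r1 r2 : ℕ) (S : ℝ) (N D : ℕ) (w : List V), Nice t → NoBranch t →
      Ring t r1 r2 S N w →
      (∀ a ∈ w, ∀ b ∈ w, ∀ l, Joins l a b → l.Nodup → wt t l ≤ S → l.length ≤ D) →
      ∀ (R L : ℕ) (M : ℝ), 0 < M → R + L < r1 →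
      (∀ γ γ', IsLine t γ → IsLine t γ' → Set.range γ ≠ Set.range γ' → GoodTwo t γ R M →
        GoodTwo t γ' R M → ¬ MongePair t γ γ') →
      ∀ F : Finset V, (∀ v ∈ F, v ∈ box L) →
      (∀ v ∈ F, LinePt t v R M) → (F.card : ℝ) ≤ (b₁ * S / M + b₂) * D) :
    ∀ᵐ t ∂law G, ¬ ∃ v, IsBigeodesic t v := by
  have hnice := nice_ae hna hnn
  have hnb := ae_noBranch hnice noRing_small (key_branch hna hnn) measurableSet_branchPt
    law_branchPt ha₁ ha₂ hbranch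
  obtain ⟨c, hc, hlong⟩ := long_paths hna hnn
  exact ae_noBigeodesic hnice (ae_noLine hnice hnb
    (no_monge_good hnn hnice (hasGoodEdges_ae hna) hnb) noRing_small hc hlong
    (key_line hna hnn) measurableSet_linePt law_linePt hb₁ hb₂ hline)

end Vale.Agent.P158
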