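import Vale.Agent.P158.Busemann

/-!
P158, lowering two far edges: when `γ` keeps a margin along the far back end of `δ`, lowering one
edge far back on `δ` and one far ahead on `γ` leaves `γ` a line and creates a second line made of
the back end of `δ`, one finite geodesic, and the front end of `γ`.
-/

open Filter Topology

namespace Vale.Agent.P158

variable {V : Type*}

/-- `d'` comes from `d` by lowering the passage time of the edge `u w` to `s`. -/
structure LoweredAt (d d' : V → V → ℝ) (u w : V) (s : ℝ) : Prop where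
  symm : ∀ x y, d' x y = d' y x
  triangle : ∀ x y z, d' x z ≤ d' x y + d' y z
  le : ∀ x y, d' x y ≤ d x y
  edge : d' u w ≤ s
  ge : ∀ x y, d x y ≤ d' x y ∨ d x u + s + d w y ≤ d' x y ∨ d x w + s + d u y ≤ d' x y

variable {d d₁ d₂ : V → V → ℝ} {γ δ : ℤ → V}

/-- A lowering by `κ` costs at most `κ` between any two points. -/
lemma LoweredAt.sub_le (ht : ∀ x y z, d x z ≤ d x y + d y z) (hs : ∀ x y, d x y = d y x)
    {u w : V} {κ : ℝ} (hκ : 0 ≤ κ) (h : LoweredAt d d₁ u w (d u w - κ)) (x y : V) :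
    d x y - κ ≤ d₁ x y := by
  rcases h.ge x y with h1 | h1 | h1
  · linarith
  · linarith [ht x u y, ht u w y]
  · linarith [ht x w y, ht w u y, hs w u]

variable (hs : ∀ x y, d x y = d y x) (ht : ∀ x y z, d x z ≤ d x y + d y z)
include hs ht

/-- After lowering an edge ahead on `γ` and an edge `u w` at margin `G` from it, `γ` is a line. -/
lemma isLine_of_lowered (hγ : IsIsoLine d γ) {b : ℤ} {κa κb G : ℝ} {u w : V}
    (hκa : 0 ≤ κa) (hκb : 0 ≤ κb) (hκ' : κb ≤ d (γ b) (γ (b + 1)))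
    (hu : G ≤ gap d γ u) (hG : κa + 2 * κb ≤ G)
    (h₁ : LoweredAt d d₁ (γ b) (γ (b + 1)) (d (γ b) (γ (b + 1)) - κb))
    (h₂ : LoweredAt d₁ d₂ u w (d u w - κa)) :
    (∀ i j : ℤ, i ≤ j → d₂ (γ i) (γ j) =
      d (γ i) (γ j) - if i ≤ b ∧ b < j then κb else 0) ∧ IsIsoLine d₂ γ := by
  have hnn := dist_nonneg' hs ht
  have key : ∀ i j : ℤ, i ≤ j →
      d (γ i) (γ j) - (if i ≤ b ∧ b < j then κb else 0) ≤ d₂ (γ i) (γ j) := by
    intro i j hij
    have hsub := h₁.sub_le ht hs hκb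
    have hlow : d (γ i) (γ j) - (if i ≤ b ∧ b < j then κb else 0) ≤ d₁ (γ i) (γ j) := by
      split_ifs with hc
      · exact hsub _ _
      rw [sub_zero]
      have hcases : j ≤ b ∨ b + 1 ≤ i := by omega
      rcases h₁.ge (γ i) (γ j) with h | h | h
      · exact h
      · rcases hcases with hj | hi
        · linarith [hγ i j b hij hj, hnn (γ j) (γ b), hnn (γ (b + 1)) (γ j)]
        · linarith [hγ (b + 1) i j hi hij, hnn (γ (b + 1)) (γ i), hnn (γ i) (γ b)]
      · rcases hcases with hj | hi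
        · linarith [hγ i j (b + 1) hij (by omega), hnn (γ j) (γ (b + 1)), hnn (γ b) (γ j)]
        · linarith [hγ b i j (by omega) hij, hnn (γ b) (γ i), hnn (γ i) (γ (b + 1))]
    have hpos : 0 ≤ (if i ≤ b ∧ b < j then κb else 0) := by split_ifs <;> linarith
    rcases h₂.ge (γ i) (γ j) with h | h | h
    · linarith
    · linarith [hsub (γ i) u, hsub w (γ j), gap_le_detour hs ht hγ u hij, ht u w (γ j)]
    · linarith [hsub (γ i) w, hsub u (γ j), gap_le_detour hs ht hγ u hij, ht (γ i) w u, hs u w]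
  have hle : ∀ i j : ℤ, i ≤ j →
      d₂ (γ i) (γ j) ≤ d (γ i) (γ j) - (if i ≤ b ∧ b < j then κb else 0) := by
    intro i j hij
    split_ifs with hc
    · have h1 := h₂.triangle (γ i) (γ b) (γ j)
      have h2 := h₂.triangle (γ b) (γ (b + 1)) (γ j)
      have h3 := (h₂.le (γ b) (γ (b + 1))).trans h₁.edge
      have h4 := (h₂.le (γ i) (γ b)).trans (h₁.le _ _)
      have h5 := (h₂.le (γ (b + 1)) (γ j)).trans (h₁.le _ _)
      have h6 := hγ i b j hc.1 hc.2.le
      have h7 := hγ b (b + 1) j (by omega) (by omega)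
      linarith
    · rw [sub_zero]
      exact (h₂.le _ _).trans (h₁.le _ _)
  refine ⟨fun i j hij => le_antisymm (hle i j hij) (key i j hij), fun i j k hij hjk => ?_⟩
  have e1 := le_antisymm (hle i j hij) (key i j hij)
  have e2 := le_antisymm (hle j k hjk) (key j k hjk)
  have e3 := le_antisymm (hle i k (hij.trans hjk)) (key i k (hij.trans hjk))
  have e4 := hγ i j k hij hjk
  rw [e1, e2, e3]
  split_ifs <;> first | omega | linarith

/-- The saving of the connection from `δ (-m)` to `γ n` against the two lines, seen from `δ 0`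
and `γ 0`. -/
def saving (d : V → V → ℝ) (γ δ : ℤ → V) (m n : ℕ) : ℝ :=
  d (δ (-(m : ℤ))) (δ 0) + d (γ 0) (γ n) - d (δ (-(m : ℤ))) (γ n)

lemma saving_mono (hγ : IsIsoLine d γ) (hδ : IsIsoLine d δ) {a b i j : ℕ} (hi : a ≤ i) (hj : b ≤ j) :
    saving d γ δ a b ≤ saving d γ δ i j := by
  have h1 := hδ (-(i : ℤ)) (-(a : ℤ)) 0 (by omega) (by omega)
  have h2 := hγ 0 b j (by omega) (by omega)
  have h3 := ht (δ (-(i : ℤ))) (δ (-(a : ℤ))) (γ j)
  have h4 := ht (δ (-(a : ℤ))) (γ b) (γ j)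
  unfold saving
  linarith

/-- Far connections from the back end of `δ` to the front end of `γ` follow both lines up to a
small error, and detours between two back points of `δ` through the far front of `γ` are long. -/
lemma eventually_slack (hγ : IsIsoLine d γ) (hδ : IsIsoLine d δ) {C : ℝ}
    (hC : ∀ m n : ℕ, saving d γ δ m n ≤ C)
    (hinf : Tendsto (fun n : ℕ => d (γ 0) (γ n)) atTop atTop) {ε : ℝ} (hε : 0 < ε) (L : ℝ) :
    ∃ N : ℕ, ∀ a b : ℕ, N ≤ a → N ≤ b → ∀ i j : ℕ, a ≤ i → b ≤ j →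
      d (δ (-(i : ℤ))) (δ (-(a : ℤ))) + d (δ (-(a : ℤ))) (γ b) + d (γ b) (γ j) - 2 * ε ≤
          d (δ (-(i : ℤ))) (γ j) ∧
      ∀ k l : ℕ, a ≤ k → b ≤ l → d (δ (-(i : ℤ))) (δ (-(k : ℤ))) + L ≤
        d (δ (-(i : ℤ))) (γ j) + d (γ l) (δ (-(k : ℤ))) := by
  have hbdd : BddAbove (Set.range fun p : ℕ × ℕ => saving d γ δ p.1 p.2) :=
    ⟨C, by rintro _ ⟨p, rfl⟩; exact hC p.1 p.2⟩
  set S := ⨆ p : ℕ × ℕ, saving d γ δ p.1 p.2
  obtain ⟨⟨m₀, n₀⟩, h₀⟩ := exists_lt_of_lt_ciSup (show S - ε < S by linarith)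
  obtain ⟨N₂, hN₂⟩ := eventually_atTop.1 (hinf.eventually (eventually_ge_atTop (|C| + |L|)))
  refine ⟨max m₀ (max n₀ N₂), fun a b ha hb i j hai hbj => ⟨?_, fun k l hak hbl => ?_⟩⟩
  · have h1 : saving d γ δ i j ≤ S := le_ciSup hbdd (i, j)
    have h2 := saving_mono hs ht hγ hδ (show m₀ ≤ a by omega) (show n₀ ≤ b by omega)
    have h5 := hδ (-(i : ℤ)) (-(a : ℤ)) 0 (by omega) (by omega)
    have h6 := hγ 0 b j (by omega) (by omega)
    dsimp only at h₀
    unfold saving at h1 h2 h₀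
    linarith
  · have h1 := hC i j
    have h2 := hC k l
    unfold saving at h1 h2
    rw [hs (γ l) (δ (-(k : ℤ)))]
    have h3 := hN₂ j (by omega)
    have h4 := hN₂ l (by omega)
    have h5 := ht (δ (-(i : ℤ))) (δ 0) (δ (-(k : ℤ)))
    have h6 := hs (δ 0) (δ (-(k : ℤ)))
    have := le_abs_self L
    have := abs_nonneg L
    have := le_abs_self C
    linarith

/-- **Two far lowered edges make a branch.** Let the saving of `δ`'s back end against `γ`'s front end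
be bounded. For `a, b` large, amounts in `[lo, hi]` and a point `δ (-a)` or `δ (-a-1)` at margin
`4 hi` from `γ`, lowering the edges `δ (-a-1), δ (-a)` and `γ b, γ (b+1)` leaves `γ` a line and makes
the connection from `δ (-m)` to `γ n` run along `δ`, a middle geodesic and `γ`. -/
theorem two_edge_branch (hγ : IsIsoLine d γ) (hδ : IsIsoLine d δ) {C : ℝ}
    (hC : ∀ m n : ℕ, saving d γ δ m n ≤ C)
    (hinf : Tendsto (fun n : ℕ => d (γ 0) (γ n)) atTop atTop) {lo hi : ℝ} (hlo : 0 < lo) :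
    ∃ N : ℕ, ∀ a b : ℕ, N ≤ a → N ≤ b → ∀ κa κb : ℝ, lo ≤ κa → κa ≤ hi → lo ≤ κb → κb ≤ hi →
      κa ≤ d (δ (-((a + 1 : ℕ) : ℤ))) (δ (-(a : ℤ))) → κb ≤ d (γ b) (γ ((b + 1 : ℕ) : ℤ)) →
      (4 * hi ≤ gap d γ (δ (-((a + 1 : ℕ) : ℤ))) ∨ 4 * hi ≤ gap d γ (δ (-(a : ℤ)))) →
      ∀ d₁ d₂ : V → V → ℝ,
      LoweredAt d d₁ (γ b) (γ ((b + 1 : ℕ) : ℤ)) (d (γ b) (γ ((b + 1 : ℕ) : ℤ)) - κb) →
      LoweredAt d₁ d₂ (δ (-((a + 1 : ℕ) : ℤ))) (δ (-(a : ℤ)))
        (d (δ (-((a + 1 : ℕ) : ℤ))) (δ (-(a : ℤ))) - κa) →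
      (∀ i j : ℤ, i ≤ j → d₂ (γ i) (γ j) =
        d (γ i) (γ j) - if i ≤ (b : ℤ) ∧ (b : ℤ) < j then κb else 0) ∧
      d₂ (δ (-(a : ℤ))) (γ b) = d (δ (-(a : ℤ))) (γ b) ∧
      (∀ m : ℕ, a + 1 ≤ m →
        d₂ (δ (-(m : ℤ))) (δ (-(a : ℤ))) = d (δ (-(m : ℤ))) (δ (-(a : ℤ))) - κa) ∧
      ∀ m n : ℕ, a + 1 ≤ m → b + 1 ≤ n → d₂ (δ (-(m : ℤ))) (γ n) =
        d₂ (δ (-(m : ℤ))) (δ (-(a : ℤ))) + d₂ (δ (-(a : ℤ))) (γ b) + d₂ (γ b) (γ n) := by
  obtain ⟨NS, hNS⟩ := eventually_slack hs ht hγ hδ hC hinf (show 0 < lo / 4 by linarith) (4 * hi)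
  refine ⟨NS, fun a b ha hb κa κb hκa hκa' hκb hκb' hta htb hG d₁ d₂ h₁ h₂ => ?_⟩
  have hsub₁ := h₁.sub_le ht hs (by linarith : 0 ≤ κb)
  have hnn := dist_nonneg' hs ht
  set A := δ (-((a + 1 : ℕ) : ℤ))
  set A' := δ (-(a : ℤ))
  set B := γ (b : ℤ)
  set B' := γ ((b + 1 : ℕ) : ℤ)
  have hS := fun i j (hi : a ≤ i) (hj : b ≤ j) => hNS a b (by omega) (by omega) i j hi hj
  have hline : (∀ i j : ℤ, i ≤ j → d₂ (γ i) (γ j) =
      d (γ i) (γ j) - if i ≤ (b : ℤ) ∧ (b : ℤ) < j then κb else 0) ∧ IsIsoLine d₂ γ := by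
    rcases hG with h | h
    · exact isLine_of_lowered hs ht hγ (by linarith) (by linarith) (by exact_mod_cast htb) h
        (by linarith : κa + 2 * κb ≤ 4 * hi) (by exact_mod_cast h₁) h₂
    · have h₂' : LoweredAt d₁ d₂ A' A (d A' A - κa) := by
        refine ⟨h₂.symm, h₂.triangle, h₂.le, ?_, fun x y => ?_⟩
        · rw [h₂.symm, hs]; exact h₂.edge
        · rw [hs A']; exact (h₂.ge x y).imp_right Or.symm
      exact isLine_of_lowered hs ht hγ (by linarith) (by linarith) (by exact_mod_cast htb) h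
        (by linarith : κa + 2 * κb ≤ 4 * hi) (by exact_mod_cast h₁) h₂'
  have hmid : ∀ m n : ℕ, a + 1 ≤ m → b + 1 ≤ n →
      d (δ (-(m : ℤ))) A' - κa + d A' B + (d B (γ n) - κb) ≤ d₂ (δ (-(m : ℤ))) (γ n) := by
    intro m n hm hn
    set P := δ (-(m : ℤ))
    set Z := γ (n : ℤ)
    have eP : d P A + d A A' = d P A' := hδ _ _ _ (by omega) (by omega)
    have eZ : d B B' + d B' Z = d B Z := hγ _ _ _ (by omega) (by omega)
    have hd : d (δ (-(a : ℤ))) A' = 0 := by have := hδ (-(a : ℤ)) (-(a : ℤ)) (-(a : ℤ)) le_rfl le_rfl; linarith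
    have hb0 : d B B = 0 := by have := hγ (b : ℤ) b b le_rfl le_rfl; linarith
    have sPZ := (hS m n (by omega) (by omega)).1
    have sPB := (hS m b (by omega) le_rfl).1
    have sPB' := (hS m (b + 1) (by omega) (by omega)).1
    have sAZ := (hS (a + 1) n (by omega) (by omega)).1
    have sAB := (hS (a + 1) b (by omega) le_rfl).1
    have sAB' := (hS (a + 1) (b + 1) (by omega) (by omega)).1
    have sA'Z := (hS a n le_rfl (by omega)).1
    have sA'B' := (hS a (b + 1) le_rfl (by omega)).1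
    have l1 := (hS m b (by omega) le_rfl).2 (a + 1) (b + 1) (by omega) (by omega)
    have l2 := (hS m (b + 1) (by omega) (by omega)).2 (a + 1) b (by omega) le_rfl
    have l3 := (hS m b (by omega) le_rfl).2 a (b + 1) le_rfl (by omega)
    have l4 := (hS m (b + 1) (by omega) (by omega)).2 a b le_rfl le_rfl
    have hA := hs A A'
    have n1 := hnn B' Z
    have n2 := hnn B B'
    have n3 := hnn A A'
    have hPA : d P A ≤ d₁ P A := by
      rcases h₁.ge P A with h | h | h <;> linarith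
    have hPA' : d P A' ≤ d₁ P A' := by
      rcases h₁.ge P A' with h | h | h <;> linarith
    rcases h₂.ge P Z with h | h | h
    · rcases h₁.ge P Z with h' | h' | h' <;> linarith
    · rcases h₁.ge A' Z with h' | h' | h' <;> linarith
    · rcases h₁.ge A Z with h' | h' | h' <;> linarith
  have hfar : ∀ m : ℕ, a + 1 ≤ m → d₂ (δ (-(m : ℤ))) A' ≤ d (δ (-(m : ℤ))) A' - κa := by
    intro m hm
    have eP : d (δ (-(m : ℤ))) A + d A A' = d (δ (-(m : ℤ))) A' :=
      hδ _ _ _ (by omega) (by omega)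
    have := h₂.triangle (δ (-(m : ℤ))) A A'
    have := h₂.edge
    have := (h₂.le (δ (-(m : ℤ))) A).trans (h₁.le _ _)
    linarith
  have hBn : ∀ n : ℕ, b + 1 ≤ n → d₂ B (γ n) = d B (γ n) - κb := fun n hn => by
    rw [hline.1 b n (by omega), if_pos ⟨le_rfl, by omega⟩]
  have hexact : ∀ m n : ℕ, a + 1 ≤ m → b + 1 ≤ n →
      d₂ (δ (-(m : ℤ))) A' = d (δ (-(m : ℤ))) A' - κa ∧ d₂ A' B = d A' B ∧
      d₂ (δ (-(m : ℤ))) (γ n) =
        d₂ (δ (-(m : ℤ))) A' + d₂ A' B + d₂ B (γ n) := by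
    intro m n hm hn
    have h1 := hmid m n hm hn
    have h2 := hfar m hm
    have h3 := (h₂.le A' B).trans (h₁.le _ _)
    have h4 := hBn n hn
    have h5 := h₂.triangle (δ (-(m : ℤ))) A' (γ n)
    have h6 := h₂.triangle A' B (γ n)
    refine ⟨?_, ?_, ?_⟩ <;> linarith
  exact ⟨hline.1, (hexact (a + 1) (b + 1) le_rfl le_rfl).2.1,
    fun m hm => (hexact m (b + 1) hm le_rfl).1, fun m n hm hn => (hexact m n hm hn).2.2⟩

end Vale.Agent.P158
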