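import Vale.Agent.P158.Basic
import Vale.Agent.P158.TwoEdge
import Vale.Agent.P158.FarChange

/-!
P158, no good Monge pair without branches (section II of the proof): a good Monge pair either
shares a point, which makes a hybrid line and a branch, or it lets two far lowered edges create a
branch, or its good line has loops of arbitrarily small cost.
-/

open MeasureTheory Filter
open scoped ENNReal Topology

namespace Vale.Agent.P158

variable {t t₂ : Env}

/-- A walk which is exact at arbitrarily far ends is a line. -/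
lemma isLine_of_far (hp : ∀ e, 0 < t e) {σ : ℤ → V} (hadj : ∀ i, Adj (σ i) (σ (i + 1)))
    (h : ∀ K : ℕ, ∃ M N : ℤ, M ≤ -(K : ℤ) ∧ (K : ℤ) ≤ N ∧ seg t σ M N ≤ T t (σ M) (σ N)) :
    IsLine t σ := by
  have hnn : ∀ e, 0 ≤ t e := fun e => (hp e).le
  have hTle : ∀ i j, i ≤ j → T t (σ i) (σ j) ≤ seg t σ i j := fun i j hij => by
    have := T_le hnn (joins_segList hadj i (j - i).toNat)
    rwa [wt_segList, show i + (((j - i).toNat : ℕ) : ℤ) = j by omega] at this
  have key : ∀ i j, i ≤ j → seg t σ i j ≤ T t (σ i) (σ j) := by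
    intro i j hij
    obtain ⟨M, N, hM, hN, hMN⟩ := h (max i.natAbs j.natAbs)
    have h1 := seg_add (t := t) (γ := σ) (show M ≤ i by omega) (show i ≤ N by omega)
    have h2 := seg_add (t := t) (γ := σ) hij (show j ≤ N by omega)
    have h3 := T_triangle hnn (σ M) (σ i) (σ N)
    have h4 := T_triangle hnn (σ i) (σ j) (σ N)
    linarith [hTle M i (by omega), hTle j N (by omega)]
  refine ⟨hadj, fun a b hab => ?_, fun i j hij l hl => (key i j hij).trans (T_le hnn hl)⟩
  rcases lt_trichotomy a b with hlt | rfl | hlt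
  · have := key a b hlt.le
    rw [hab, T_self hnn, seg_add (show a ≤ a + 1 by omega) (by omega), seg_succ] at this
    linarith [hp s(σ a, σ (a + 1)), seg_nonneg (γ := σ) hnn (a + 1) b]
  · rfl
  · have := key b a hlt.le
    rw [hab, T_self hnn, seg_add (show b ≤ b + 1 by omega) (by omega), seg_succ] at this
    linarith [hp s(σ b, σ (b + 1)), seg_nonneg (γ := σ) hnn (b + 1) a]

/-- Equal stretches of two walks weigh the same. -/
lemma seg_congr {σ γ : ℤ → V} {i c : ℤ} (n : ℕ) (h : ∀ k : ℕ, k ≤ n → σ (i + k) = γ (c + k)) :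
    seg t σ i (i + n) = seg t γ c (c + n) := by
  induction n with
  | zero => simp [seg_self]
  | succ n ih =>
    have e1 : σ (i + n + 1) = γ (c + n + 1) := by
      rw [add_assoc, add_assoc]; exact_mod_cast h (n + 1) le_rfl
    rw [show i + ((n + 1 : ℕ) : ℤ) = i + n + 1 by push_cast; ring,
      show c + ((n + 1 : ℕ) : ℤ) = c + n + 1 by push_cast; ring,
      seg_add (show i ≤ i + n by omega) (show i + (n : ℤ) ≤ i + n + 1 by omega),
      seg_add (show c ≤ c + n by omega) (show c + (n : ℤ) ≤ c + n + 1 by omega),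
      ih fun k hk => h k (hk.trans n.le_succ), seg_succ, seg_succ, h n n.le_succ, e1]

lemma seg_mono (hle : ∀ e, t₂ e ≤ t e) (σ : ℤ → V) (i j : ℤ) : seg t₂ σ i j ≤ seg t σ i j :=
  Finset.sum_le_sum fun _ _ => hle _

lemma seg_le_of_edge (hle : ∀ e, t₂ e ≤ t e) (σ : ℤ → V) {i j k : ℤ} (hik : i ≤ k) (hkj : k < j)
    {c : ℝ} (hk : t₂ s(σ k, σ (k + 1)) ≤ t s(σ k, σ (k + 1)) - c) :
    seg t₂ σ i j ≤ seg t σ i j - c := by
  rw [seg_add (t := t₂) hik hkj.le, seg_add (t := t) hik hkj.le,
    seg_add (t := t₂) (show k ≤ k + 1 by omega) (show k + 1 ≤ j by omega),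
    seg_add (t := t) (show k ≤ k + 1 by omega) (show k + 1 ≤ j by omega), seg_succ, seg_succ]
  linarith [seg_mono hle σ i k, seg_mono hle σ (k + 1) j]

lemma wt_mono (hle : ∀ e, t₂ e ≤ t e) : ∀ l, wt t₂ l ≤ wt t l
  | [] => le_rfl
  | [_] => le_rfl
  | x :: y :: l => by rw [wt_cons_cons, wt_cons_cons]; exact add_le_add (hle _) (wt_mono hle _)

lemma IsLine.isoLine {γ : ℤ → V} (h : IsLine t γ) (hp : ∀ e, 0 ≤ t e) : IsIsoLine (T t) γ :=
  fun i j k hij hjk => by
    rw [← h.seg_eq_T hp hij, ← h.seg_eq_T hp hjk, ← h.seg_eq_T hp (hij.trans hjk),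
      ← seg_add hij hjk]

lemma IsLine.tendsto_T {γ : ℤ → V} (h : IsLine t γ) (hn : Nice t) (x : V) :
    Tendsto (fun n : ℕ => T t x (γ n)) atTop atTop := by
  refine tendsto_atTop.2 fun C => ?_
  have hf : {n : ℕ | T t x (γ n) ≤ C}.Finite :=
    (h.finite_T_le hn x C).preimage Nat.cast_injective.injOn
  obtain ⟨N, hN⟩ := hf.bddAbove
  filter_upwards [eventually_gt_atTop N] with n hn'
  by_contra hlt
  exact absurd (hN (show n ∈ {n : ℕ | T t x (γ n) ≤ C} from (not_le.1 hlt).le)) (not_le.2 hn')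

/-- Lowering one edge, seen from the passage times. -/
lemma loweredAt_update (hp : ∀ e, 0 ≤ t e) {u w : V} (huw : Adj u w) {s : ℝ} (hs0 : 0 ≤ s)
    (hs : s ≤ t s(u, w)) : LoweredAt (T t) (T (Function.update t s(u, w) s)) u w s := by
  classical
  set t' := Function.update t s(u, w) s with ht'
  have hle : ∀ e, t' e ≤ t e := fun e => by
    by_cases he : e = s(u, w)
    · subst he; rwa [ht', Function.update_self]
    · rw [ht', Function.update_of_ne he]
  have hp' : ∀ e, 0 ≤ t' e := fun e => by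
    by_cases he : e = s(u, w)
    · subst he; rwa [ht', Function.update_self]
    · rw [ht', Function.update_of_ne he]; exact hp e
  refine ⟨T_comm hp', T_triangle hp', fun x y => le_T fun l hl =>
    (T_le hp' hl).trans (wt_mono hle l), ?_, fun x y => ?_⟩
  · refine (T_le hp' (Joins.pair huw)).trans (le_of_eq ?_)
    simp [ht']
  suffices h : ∀ l x, Joins l x y →
      min (T t x y) (min (T t x u + s + T t w y) (T t x w + s + T t u y)) ≤ wt t' l by
    have h1 : min (T t x y) (min (T t x u + s + T t w y) (T t x w + s + T t u y)) ≤ T t' x y :=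
      le_T fun l hl => h l x hl
    rcases min_le_iff.1 h1 with h2 | h2
    · exact Or.inl h2
    · exact Or.inr (min_le_iff.1 h2)
  intro l
  induction l with
  | nil => intro x h; exact absurd rfl h.ne_nil
  | cons a q ih =>
    intro x hl
    have ha : a = x := by simpa using hl.first
    subst ha
    rcases q with _ | ⟨b, q⟩
    · have hy : a = y := by simpa using hl.last
      subst hy
      exact min_le_of_left_le (by simp [T_self hp])
    have hb : Joins (b :: q) b y := Joins.split_right (p := [a]) hl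
    have hab : Adj a b := (List.isChain_cons_cons.mp hl.walk).1
    have h1 := ih b hb
    rw [wt_cons_cons]
    have huu := T_self hp u
    have hww := T_self hp w
    have hn1 := T_nonneg hp b u
    have hn2 := T_nonneg hp b w
    by_cases he : s(a, b) = s(u, w)
    · have hte : t' s(a, b) = s := by rw [he, ht', Function.update_self]
      rw [hte]
      rcases Sym2.eq_iff.1 he with ⟨rfl, rfl⟩ | ⟨rfl, rfl⟩
      · rcases min_le_iff.1 h1 with h | h
        · exact min_le_of_right_le (min_le_of_left_le (by linarith))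
        · rcases min_le_iff.1 h with h | h
          · exact min_le_of_right_le (min_le_of_left_le (by linarith))
          · exact min_le_of_left_le (by linarith)
      · rcases min_le_iff.1 h1 with h | h
        · exact min_le_of_right_le (min_le_of_right_le (by linarith))
        · rcases min_le_iff.1 h with h | h
          · exact min_le_of_left_le (by linarith)
          · exact min_le_of_right_le (min_le_of_right_le (by linarith))
    · have hte : t' s(a, b) = t s(a, b) := by rw [ht', Function.update_of_ne he]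
      rw [hte]
      have hT : T t a b ≤ t s(a, b) := by simpa using T_le hp (Joins.pair hab)
      rcases min_le_iff.1 h1 with h | h
      · exact min_le_of_left_le (by linarith [T_triangle hp a b y])
      · rcases min_le_iff.1 h with h | h
        · exact min_le_of_right_le (min_le_of_left_le (by linarith [T_triangle hp a b u]))
        · exact min_le_of_right_le (min_le_of_right_le (by linarith [T_triangle hp a b w]))

/-- A back end, a finite walk and a front end, glued. -/
def glueLine (g : ℤ → V) (l : List V) (h : ℤ → V) : ℤ → V := fun k =>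
  if k < 0 then g k else if hk : k.toNat < l.length then l[k.toNat]
  else h (k - ((l.length : ℤ) - 1))

/-- The properties of a glued walk. -/
lemma glueLine_spec {g h : ℤ → V} {l : List V} (hl : Joins l (g 0) (h 0))
    (hg : ∀ i, Adj (g i) (g (i + 1))) (hh : ∀ i, Adj (h i) (h (i + 1))) :
    (∀ i, Adj (glueLine g l h i) (glueLine g l h (i + 1))) ∧
    (∀ i ≤ 0, glueLine g l h i = g i) ∧
    (∀ k : ℕ, glueLine g l h (((l.length - 1 : ℕ) : ℤ) + k) = h k) ∧
    segList (glueLine g l h) 0 (l.length - 1) = l := by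
  have hpos : 0 < l.length := List.length_pos_iff.2 hl.ne_nil
  have h0 : l[0] = g 0 := by
    have := hl.first
    rw [List.head?_eq_getElem?, List.getElem?_eq_getElem hpos] at this
    exact Option.some_injective _ this
  have hlast : l[l.length - 1] = h 0 := by
    have := hl.last
    rw [List.getLast?_eq_getElem?, List.getElem?_eq_getElem (by omega)] at this
    exact Option.some_injective _ this
  set σ := glueLine g l h
  have hneg : ∀ i ≤ 0, σ i = g i := by
    intro i hi
    rcases lt_or_eq_of_le hi with hlt | rfl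
    · simp [σ, glueLine, hlt]
    · simp [σ, glueLine, hpos, h0]
  have hmid : ∀ (k : ℕ) (hk : k < l.length), σ k = l[k] := fun k hk => by
    simp [σ, glueLine, hk]
  have hup : ∀ k : ℕ, σ (((l.length - 1 : ℕ) : ℤ) + k) = h k := by
    intro k
    rcases Nat.eq_zero_or_pos k with rfl | hk
    · rw [Nat.cast_zero, add_zero, hmid _ (by omega), hlast]
    · simp only [σ, glueLine]
      rw [if_neg (by omega), dif_neg (by omega)]
      congr 1
      omega
  refine ⟨fun i => ?_, hneg, hup, ?_⟩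
  · rcases lt_or_ge i 0 with hi | hi
    · rw [hneg i hi.le, hneg (i + 1) (by omega)]; exact hg i
    obtain ⟨k, rfl⟩ := Int.eq_ofNat_of_zero_le hi
    rcases lt_or_ge (k + 1) l.length with hk | hk
    · rw [hmid k (by omega), show (k : ℤ) + 1 = ((k + 1 : ℕ) : ℤ) by push_cast; rfl, hmid (k + 1) hk]
      exact List.isChain_iff_getElem.1 hl.walk k hk
    · obtain ⟨j, rfl⟩ : ∃ j, k = l.length - 1 + j := ⟨k - (l.length - 1), by omega⟩
      rw [Nat.cast_add, hup j,
        show ((l.length - 1 : ℕ) : ℤ) + j + 1 = ((l.length - 1 : ℕ) : ℤ) + (j + 1 : ℕ) by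
          push_cast; ring, hup (j + 1)]
      exact_mod_cast hh j
  · refine List.ext_getElem (by rw [segList_length]; omega) fun k hk hk' => ?_
    rw [segList_getElem hk, zero_add]
    exact hmid k hk'

/-- Two far lowered edges, as environments: a branch appears. -/
lemma branch_of_two_edges {γ δ : ℤ → V} (hn : Nice t) (hg : IsLine t γ) (hd : IsLine t δ)
    (hdis : ∀ i j, γ i ≠ δ j) {C : ℝ} (hC : ∀ m n : ℕ, saving (T t) γ δ m n ≤ C) {lo hi : ℝ}
    (hlo : 0 < lo) :
    ∃ N : ℕ, ∀ a b : ℕ, N ≤ a → N ≤ b →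
      (4 * hi ≤ gap (T t) γ (δ (-((a + 1 : ℕ) : ℤ))) ∨ 4 * hi ≤ gap (T t) γ (δ (-(a : ℤ)))) →
      ∀ sb sa : ℝ, 0 ≤ sb → 0 ≤ sa →
      sb ∈ Set.Icc (t s(γ b, γ (b + 1)) - hi) (t s(γ b, γ (b + 1)) - lo) →
      sa ∈ Set.Icc (t s(δ (-(a : ℤ) - 1), δ (-(a : ℤ))) - hi)
        (t s(δ (-(a : ℤ) - 1), δ (-(a : ℤ))) - lo) →
      Nice (Function.update (Function.update t s(γ b, γ (b + 1)) sb)
        s(δ (-(a : ℤ) - 1), δ (-(a : ℤ))) sa) →
      ¬ NoBranch (Function.update (Function.update t s(γ b, γ (b + 1)) sb)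
        s(δ (-(a : ℤ) - 1), δ (-(a : ℤ))) sa) := by
  classical
  obtain ⟨N, hN⟩ := two_edge_branch (T_comm hn.nonneg) (T_triangle hn.nonneg)
    (hg.isoLine hn.nonneg) (hd.isoLine hn.nonneg) hC (hg.tendsto_T hn (γ 0)) (hi := hi) hlo
  refine ⟨N, fun a b ha hb hgap sb sa hsb0 hsa0 hsb hsa hn₂ => ?_⟩
  set ea := s(δ (-(a : ℤ) - 1), δ (-(a : ℤ))) with hea
  set eb := s(γ b, γ ((b : ℤ) + 1)) with heb
  set t₁ := Function.update t eb sb with ht₁
  set t₂ := Function.update t₁ ea sa with ht₂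
  have hne : ea ≠ eb := fun h => by
    rcases Sym2.eq_iff.1 h with ⟨h1, -⟩ | ⟨-, h1⟩ <;> exact hdis _ _ h1.symm
  have hp₁ : ∀ e, 0 ≤ t₁ e := fun e => by
    by_cases he : e = eb
    · subst he; rwa [ht₁, Function.update_self]
    · rw [ht₁, Function.update_of_ne he]; exact hn.nonneg e
  have e1 : ((b + 1 : ℕ) : ℤ) = (b : ℤ) + 1 := by push_cast; rfl
  have e2 : (-((a + 1 : ℕ) : ℤ)) = -(a : ℤ) - 1 := by push_cast; ring
  have hadjA : Adj (δ (-(a : ℤ) - 1)) (δ (-(a : ℤ))) := by
    have := hd.adj (-(a : ℤ) - 1)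
    rwa [show -(a : ℤ) - 1 + 1 = -(a : ℤ) by ring] at this
  have hTa : T t (δ (-(a : ℤ) - 1)) (δ (-(a : ℤ))) = t ea := by
    rw [← hd.seg_eq_T hn.nonneg (show -(a : ℤ) - 1 ≤ -(a : ℤ) by omega)]
    have := seg_succ (t := t) (γ := δ) (-(a : ℤ) - 1)
    rwa [show -(a : ℤ) - 1 + 1 = -(a : ℤ) by ring] at this
  have hTb : T t (γ b) (γ ((b : ℤ) + 1)) = t eb := by
    rw [← hg.seg_eq_T hn.nonneg (show (b : ℤ) ≤ b + 1 by omega), seg_succ]
  obtain ⟨hlb1, hlb2⟩ := hsb
  obtain ⟨hla1, hla2⟩ := hsa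
  have key := hN a b ha hb (t ea - sa) (t eb - sb) (by linarith) (by linarith) (by linarith)
    (by linarith) (by rw [e2, hTa]; linarith) (by rw [e1, hTb]; linarith) hgap (T t₁) (T t₂)
    (by rw [e1, hTb, sub_sub_cancel]; exact loweredAt_update hn.nonneg (hg.adj b) hsb0 (by linarith))
    (by
      rw [e2, hTa, sub_sub_cancel]
      refine loweredAt_update hp₁ hadjA hsa0 ?_
      rw [ht₁, Function.update_of_ne hne]; linarith)
  rw [e1, e2] at *
  obtain ⟨hiso, hmid, hback, hfar⟩ := key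
  have hle : ∀ e, t₂ e ≤ t e := fun e => by
    by_cases hea' : e = ea
    · subst hea'; rw [ht₂, Function.update_self]; linarith
    · rw [ht₂, Function.update_of_ne hea']
      by_cases heb' : e = eb
      · subst heb'; rw [ht₁, Function.update_self]; linarith
      · rw [ht₁, Function.update_of_ne heb']
  have hta : t₂ ea ≤ t ea - (t ea - sa) := by rw [ht₂, Function.update_self]; linarith
  have htb : t₂ eb ≤ t eb - (t eb - sb) := by
    rw [ht₂, Function.update_of_ne hne.symm, ht₁, Function.update_self]; linarith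
  -- the old front line
  have hg₂ : IsLine t₂ γ := by
    refine isLine_of_far hn₂.pos hg.adj fun K => ⟨-((max K (b + 1) : ℕ) : ℤ), ((max K (b + 1) : ℕ) : ℤ),
      by omega, by omega, ?_⟩
    set n := max K (b + 1)
    have h0 : seg t₂ γ (-(n : ℤ)) n ≤ seg t γ (-(n : ℤ)) n - (t eb - sb) :=
      seg_le_of_edge hle γ (show -(n : ℤ) ≤ b by omega) (by omega) htb
    rw [hg.seg_eq_T hn.nonneg (by omega)] at h0
    have h1 := hiso (-(n : ℤ)) n (by omega)
    rw [if_pos ⟨by omega, by omega⟩] at h1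
    linarith
  -- the new line
  obtain ⟨l, hl, -, hlw⟩ := exists_geodesic hn (δ (-(a : ℤ))) (γ b)
  set g₀ : ℤ → V := fun k => δ (-(a : ℤ) + k)
  set h₀ : ℤ → V := fun k => γ ((b : ℤ) + k)
  have hadj : ∀ (g : ℤ → V) (c : ℤ), (∀ i, Adj (g i) (g (i + 1))) →
      ∀ i, Adj (g (c + i)) (g (c + (i + 1))) := fun g c h i => by rw [← add_assoc]; exact h _
  obtain ⟨hσadj, hσneg, hσup, hσmid⟩ := glueLine_spec (g := g₀) (h := h₀) (l := l)
    (by simpa [g₀, h₀] using hl) (hadj δ _ hd.adj) (hadj γ _ hg.adj)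
  set σ := glueLine g₀ l h₀
  set D := l.length - 1
  have hσ : IsLine t₂ σ := by
    refine isLine_of_far hn₂.pos hσadj fun K => ⟨-((K + 1 : ℕ) : ℤ), (D : ℤ) + (K + 1 : ℕ),
      by omega, by omega, ?_⟩
    have h1 : seg t₂ σ (-((K + 1 : ℕ) : ℤ)) 0 =
        seg t₂ δ (-((a + (K + 1) : ℕ) : ℤ)) (-(a : ℤ)) := by
      have := seg_congr (t := t₂) (σ := σ) (γ := δ) (i := -((K + 1 : ℕ) : ℤ))
        (c := -((a + (K + 1) : ℕ) : ℤ)) (K + 1) fun k hk => by
          rw [hσneg _ (by omega)]; simp only [g₀]; congr 1; push_cast; ring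
      rwa [neg_add_cancel, show -((a + (K + 1) : ℕ) : ℤ) + ((K + 1 : ℕ) : ℤ) = -(a : ℤ) by
        push_cast; ring] at this
    have h2 : seg t₂ σ (D : ℤ) ((D : ℤ) + (K + 1 : ℕ)) = seg t₂ γ b ((b : ℤ) + (K + 1 : ℕ)) :=
      seg_congr (K + 1) fun k _ => by rw [hσup k]
    have h3 : seg t₂ σ 0 D ≤ T t (δ (-(a : ℤ))) (γ b) := by
      have := wt_segList (t := t₂) (γ := σ) 0 D
      rw [hσmid, zero_add] at this
      linarith [wt_mono hle l]
    have h4 : seg t₂ δ (-((a + (K + 1) : ℕ) : ℤ)) (-(a : ℤ)) ≤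
        seg t δ (-((a + (K + 1) : ℕ) : ℤ)) (-(a : ℤ)) - (t ea - sa) := by
      refine seg_le_of_edge hle δ (k := -(a : ℤ) - 1) (by omega) (by omega) ?_
      rwa [show -(a : ℤ) - 1 + 1 = -(a : ℤ) by ring]
    have h5 : seg t₂ γ b ((b : ℤ) + (K + 1 : ℕ)) ≤ T t₂ (γ b) (γ ((b + (K + 1) : ℕ) : ℤ)) := by
      rw [← hg₂.seg_eq_T hn₂.nonneg (by omega)]
      push_cast
      exact le_rfl
    have h6 := hback (a + (K + 1)) (by omega)
    have h7 := hfar (a + (K + 1)) (b + (K + 1)) (by omega) (by omega)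
    rw [hd.seg_eq_T hn.nonneg (by omega)] at h4
    have e3 : σ (-((K + 1 : ℕ) : ℤ)) = δ (-((a + (K + 1) : ℕ) : ℤ)) := by
      rw [hσneg _ (by omega)]; simp only [g₀]; congr 1; push_cast; ring
    have e4 : σ ((D : ℤ) + (K + 1 : ℕ)) = γ ((b + (K + 1) : ℕ) : ℤ) := by
      rw [hσup]; simp only [h₀]; push_cast; rfl
    rw [e3, e4, seg_add (show -((K + 1 : ℕ) : ℤ) ≤ 0 by omega) (show (0 : ℤ) ≤ D + (K + 1 : ℕ) by omega),
      seg_add (show (0 : ℤ) ≤ D by omega) (show (D : ℤ) ≤ D + (K + 1 : ℕ) by omega), h1, h2]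
    linarith
  intro hnb
  have hinf : {i : ℤ | 0 ≤ i ∧ σ i ∈ Set.range γ}.Infinite := by
    refine Set.infinite_of_injective_forall_mem (f := fun k : ℕ => (D : ℤ) + k)
      (fun x y h => by simpa using h) fun k => ⟨by omega, ?_⟩
    rw [hσup k]; exact ⟨_, rfl⟩
  have hne' : Set.range σ ≠ Set.range γ := fun h => by
    have hm : σ 0 ∈ Set.range γ := h ▸ ⟨0, rfl⟩
    obtain ⟨i, hi⟩ := hm
    rw [hσneg 0 le_rfl] at hi
    exact hdis i _ hi
  obtain ⟨α, α', hα⟩ := exists_branch hn₂ hσ hg₂ hne' hinf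
  exact hnb α α' hα

/-- `G` gives mass to lowering the weight of `e` by an amount in `[lo, hi]`. -/
def Lowerable (G : Measure ℝ) (lo hi : ℝ) (t : Env) (e : Sym2 V) : Prop :=
  G (Set.Icc (t e - hi) (t e - lo)) ≠ 0

/-- The lines have, in their forward directions, arbitrarily far lowerable edges at every scale. -/
def HasGoodEdges (G : Measure ℝ) (t : Env) : Prop :=
  ∀ hi : ℝ, 0 < hi → ∃ lo : ℝ, 0 < lo ∧ ∀ γ, IsLine t γ → ∀ N : ℕ, ∃ n : ℕ, N ≤ n ∧
    Lowerable G lo hi t s(γ n, γ ((n : ℤ) + 1))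

/-- No lowering of two edges makes a branch, up to null sets. -/
def TwoEdgeStable (G : Measure ℝ) (t : Env) : Prop :=
  ∀ e e' : Sym2 V, ∀ᵐ r ∂G, ∀ᵐ s ∂G, 0 ≤ r ∧ 0 ≤ s ∧
    Nice (Function.update (Function.update t e r) e' s) ∧
    NoBranch (Function.update (Function.update t e r) e' s)

lemma exists_mem_of_ae {α : Type*} [MeasurableSpace α] {μ : Measure α} {S : Set α} {P : α → Prop}
    (hS : μ S ≠ 0) (hP : ∀ᵐ x ∂μ, P x) : ∃ x ∈ S, P x := by
  by_contra h
  push Not at h
  exact hS (measure_mono_null h (ae_iff.1 hP))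

/-- Without branches, deep back points of `δ` come arbitrarily close to being between the ends
of `γ`. -/
lemma exists_deep_small_gap {G : Measure ℝ} {γ δ : ℤ → V} (hn : Nice t)
    (hst : TwoEdgeStable G t) (hge : HasGoodEdges G t) (hg : IsLine t γ) (hd : IsLine t δ)
    (hdis : ∀ i j, γ i ≠ δ j) {C : ℝ} (hC : ∀ m n : ℕ, saving (T t) γ δ m n ≤ C) {ε : ℝ}
    (hε : 0 < ε) (A : ℕ) : ∃ a, A ≤ a ∧ gap (T t) γ (δ (-(a : ℤ))) < ε := by
  by_contra hall
  push Not at hall
  obtain ⟨lo, hlo, hgood⟩ := hge (ε / 4) (by linarith)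
  obtain ⟨N, hN⟩ := branch_of_two_edges hn hg hd hdis hC (hi := ε / 4) hlo
  obtain ⟨b, hb, hbe⟩ := hgood γ hg N
  obtain ⟨a, ha, hae⟩ := hgood (rev δ) hd.reverse (max A N)
  have hea : s(rev δ a, rev δ ((a : ℤ) + 1)) = s(δ (-(a : ℤ) - 1), δ (-(a : ℤ))) := by
    simp only [rev]
    rw [Sym2.eq_swap, neg_add, ← sub_eq_add_neg]
  rw [hea] at hae
  obtain ⟨r, hr, hr'⟩ :=
    exists_mem_of_ae hbe ((hst s(γ b, γ ((b : ℤ) + 1))
      s(δ (-(a : ℤ) - 1), δ (-(a : ℤ)))))
  obtain ⟨s, hs, hr0, hs0, hnice, hnb⟩ :=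
    exists_mem_of_ae hae hr'
  exact hN a b (by omega) hb (Or.inr (by linarith [hall a (by omega)])) r s hr0 hs0 hr hs hnice hnb

/-- A point common to two lines of a Monge pair makes a hybrid line and so a branch. -/
lemma branch_of_common {g g' : ℤ → V} (hn : Nice t) (hg : IsLine t g) (hg' : IsLine t g')
    (hne : Set.range g ≠ Set.range g') (hM : MongePair t g g') {i j : ℤ} (hij : g i = g' j) :
    ¬ NoBranch t := by
  obtain ⟨K, hK⟩ := hM
  have hexact : ∀ n : ℕ, |K| + |i| + |j| ≤ n → seg t g' (-(n : ℤ)) j + seg t g i n ≤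
      T t (g' (-(n : ℤ))) (g n) := by
    intro n hn'
    have := abs_nonneg i
    have := abs_nonneg j
    have := le_abs_self i
    have := neg_le_abs i
    have := le_abs_self j
    have := neg_le_abs j
    have := abs_nonneg K
    have := le_abs_self K
    have h1 := hK n n n n (by omega) (by omega) (by omega) (by omega)
    have h2 := seg_add (t := t) (γ := g') (show -(n : ℤ) ≤ j by omega) (show j ≤ n by omega)
    have h3 := seg_add (t := t) (γ := g) (show -(n : ℤ) ≤ i by omega) (show i ≤ n by omega)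
    have h4 := T_triangle hn.nonneg (g (-(n : ℤ))) (g i) (g' n)
    rw [← hg.seg_eq_T hn.nonneg (show -(n : ℤ) ≤ i by omega)] at h4
    rw [hij, ← hg'.seg_eq_T hn.nonneg (show j ≤ n by omega)] at h4
    linarith
  obtain ⟨hσadj, hσneg, hσup, -⟩ := glueLine_spec (g := fun k => g' (j + k))
    (h := fun k => g (i + k)) (l := [g i]) (by simpa [hij] using Joins.single (g i))
    (fun k => by rw [← add_assoc]; exact hg'.adj _) (fun k => by rw [← add_assoc]; exact hg.adj _)
  set σ := glueLine (fun k => g' (j + k)) [g i] fun k => g (i + k)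
  simp only [List.length_singleton, Nat.sub_self, Nat.cast_zero, zero_add] at hσup
  have hσ : IsLine t σ := by
    refine isLine_of_far hn.pos hσadj fun K' => ?_
    obtain ⟨n, h1, h2⟩ : ∃ n : ℕ, |K| + |i| + |j| ≤ n ∧ (K' : ℤ) + |i| + |j| ≤ n :=
      ⟨K' + K.natAbs + i.natAbs + j.natAbs, by
        rw [Int.abs_eq_natAbs, Int.abs_eq_natAbs, Int.abs_eq_natAbs]; omega, by
        rw [Int.abs_eq_natAbs, Int.abs_eq_natAbs]; omega⟩
    have h3 := hexact n h1
    have := le_abs_self i
    have := le_abs_self j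
    have := neg_le_abs i
    have := neg_le_abs j
    have := abs_nonneg i
    have := abs_nonneg j
    obtain ⟨p, hp⟩ := Int.eq_ofNat_of_zero_le (show 0 ≤ (n : ℤ) + j by omega)
    obtain ⟨q, hq⟩ := Int.eq_ofNat_of_zero_le (show 0 ≤ (n : ℤ) - i by omega)
    refine ⟨-(p : ℤ), q, by omega, by omega, ?_⟩
    have e1 : seg t σ (-(p : ℤ)) 0 = seg t g' (-(n : ℤ)) j := by
      have := seg_congr (t := t) (σ := σ) (γ := g') (i := -(p : ℤ)) (c := -(n : ℤ)) p
        fun k hk => by rw [hσneg _ (by omega)]; congr 1; omega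
      rwa [neg_add_cancel, show -(n : ℤ) + p = j by omega] at this
    have e2 : seg t σ 0 q = seg t g i n := by
      have := seg_congr (t := t) (σ := σ) (γ := g) (i := 0) (c := i) q
        fun k _ => by rw [zero_add, hσup k]
      rwa [zero_add, show i + (q : ℤ) = n by omega] at this
    rw [seg_add (show -(p : ℤ) ≤ 0 by omega) (show (0 : ℤ) ≤ q by omega), e1, e2,
      hσneg _ (by omega), hσup q]
    simpa [show j + -(p : ℤ) = -(n : ℤ) by omega, show i + (q : ℤ) = n by omega] using h3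
  intro hnb
  by_cases hr : Set.range σ = Set.range g'
  · have hinf : {k : ℤ | 0 ≤ k ∧ shift g i k ∈ Set.range g'}.Infinite := by
      refine Set.infinite_of_injective_forall_mem (f := fun k : ℕ => (k : ℤ)) Nat.cast_injective
        fun k => ⟨by omega, ?_⟩
      rw [← hr, shift, ← hσup k]
      exact ⟨_, rfl⟩
    have hs : Set.range (shift g i) = Set.range g := by
      ext v
      exact ⟨fun ⟨k, hk⟩ => ⟨i + k, hk⟩, fun ⟨k, hk⟩ => ⟨k - i, by simpa [shift] using hk⟩⟩
    obtain ⟨α, α', hα⟩ := exists_branch hn (hg.shifted i) hg' (hs ▸ hne) hinf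
    exact hnb α α' hα
  · have hinf : {k : ℤ | 0 ≤ k ∧ rev σ k ∈ Set.range g'}.Infinite := by
      refine Set.infinite_of_injective_forall_mem (f := fun k : ℕ => (k : ℤ)) Nat.cast_injective
        fun k => ⟨by omega, ?_⟩
      simp only [rev]
      rw [hσneg _ (by omega)]
      exact ⟨_, rfl⟩
    have hs : Set.range (rev σ) = Set.range σ := by
      ext v
      exact ⟨fun ⟨k, hk⟩ => ⟨-k, hk⟩, fun ⟨k, hk⟩ => ⟨-k, by simpa [rev] using hk⟩⟩
    obtain ⟨α, α', hα⟩ := exists_branch hn hσ.reverse hg' (hs ▸ hr) hinf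
    exact hnb α α' hα

/-- **No good Monge pair.** At one environment: without branches, also after lowering two edges,
no Monge pair of lines has a good member. -/
theorem not_mongePair {G : Measure ℝ} (hn : Nice t) (hnb : NoBranch t) (hst : TwoEdgeStable G t)
    (hge : HasGoodEdges G t) {g g' : ℤ → V} {R : ℕ} {M : ℝ} (hg : IsLine t g) (hg' : IsLine t g')
    (hne : Set.range g ≠ Set.range g') (hM0 : 0 < M) (hgood : GoodB t g R M) :
    ¬ MongePair t g g' := by
  intro hM
  by_cases hdis : ∀ i j, g i ≠ g' j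
  swap
  · push Not at hdis
    obtain ⟨i, j, hij⟩ := hdis
    exact branch_of_common hn hg hg' hne hM hij hnb
  have hs := T_comm hn.nonneg
  have ht := T_triangle hn.nonneg
  have iso := hg.isoLine hn.nonneg
  have iso' := hg'.isoLine hn.nonneg
  set d := T t
  obtain ⟨K, hK⟩ := hM
  set c₀ := d (g 0) (g' 0)
  have hlb : ∀ m n : ℕ, -c₀ ≤ saving d g g' m n ∧ -c₀ ≤ saving d g' g m n := by
    intro m n
    have := ht (g' (-(m : ℤ))) (g' 0) (g n)
    have := ht (g' 0) (g 0) (g n)
    have := ht (g (-(m : ℤ))) (g 0) (g' n)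
    have := ht (g 0) (g' 0) (g' n)
    have := hs (g' 0) (g 0)
    unfold saving
    constructor <;> linarith
  have hsum : ∀ a b c e : ℕ, saving d g g' a b + saving d g' g c e ≤ 0 := by
    intro a b c e
    set n := a + b + c + e + K.toNat
    have h1 := saving_mono hs ht iso iso' (show a ≤ n by omega) (show b ≤ n by omega)
    have h2 := saving_mono hs ht iso' iso (show c ≤ n by omega) (show e ≤ n by omega)
    have h3 := hK n n n n (by omega) (by omega) (by omega) (by omega)
    rw [hg.seg_eq_T hn.nonneg (by omega), hg'.seg_eq_T hn.nonneg (by omega)] at h3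
    have := iso (-(n : ℤ)) 0 n (by omega) (by omega)
    have := iso' (-(n : ℤ)) 0 n (by omega) (by omega)
    change d (g' (-(n : ℤ))) (g' n) + d (g (-(n : ℤ))) (g n) ≤
      d (g' (-(n : ℤ))) (g n) + d (g (-(n : ℤ))) (g' n) at h3
    unfold saving at h1 h2 ⊢
    linarith
  have hC : ∀ m n : ℕ, saving d g g' m n ≤ c₀ := fun m n => by
    linarith [hsum m n 0 0, (hlb 0 0).2]
  have hC' : ∀ m n : ℕ, saving d g' g m n ≤ c₀ := fun m n => by
    linarith [hsum 0 0 m n, (hlb 0 0).1]
  have hCrev : ∀ m n : ℕ, saving d (rev g) (rev g') m n ≤ c₀ := fun m n => by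
    have e : saving d (rev g) (rev g') m n = saving d g' g n m := by
      simp only [saving, rev, neg_neg, neg_zero]
      rw [hs (g' m), hs (g 0) (g (-(n : ℤ))), hs (g' m) (g (-(n : ℤ)))]
      ring
    rw [e]; exact hC' n m
  have hback : back g = rev g := rfl
  -- how far the deep points have to be
  obtain ⟨B, hB⟩ : ∃ B : ℝ, ∀ k : ℤ, -(R : ℤ) ≤ k → k ≤ -1 → d (g 0) (g k) ≤ B := by
    obtain ⟨B, hB⟩ := ((Set.finite_Icc (-(R : ℤ)) (-1)).image fun k => d (g 0) (g k)).bddAbove
    exact ⟨B, fun k h1 h2 => hB ⟨k, ⟨h1, h2⟩, rfl⟩⟩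
  set L := B + c₀ + M + 1
  obtain ⟨A₁, hA₁⟩ := eventually_atTop.1 ((hg'.tendsto_T hn (g' 0)).eventually (eventually_ge_atTop L))
  obtain ⟨A₂, hA₂⟩ := eventually_atTop.1
    ((hg'.reverse.tendsto_T hn (g' 0)).eventually (eventually_ge_atTop L))
  obtain ⟨a, ha, hgy⟩ := exists_deep_small_gap hn hst hge hg hg' hdis hC
    (show 0 < M / 8 by linarith) A₂
  obtain ⟨b, hb, hgz'⟩ := exists_deep_small_gap hn hst hge hg.reverse hg'.reverse
    (fun i j => hdis (-i) (-j)) hCrev (show 0 < M / 8 by linarith) A₁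
  set y := g' (-(a : ℤ))
  set z := g' (b : ℤ)
  have hgz : gap d g z < M / 8 := by
    have e : gap d (rev g) (rev g' (-(b : ℤ))) = gap d g z := by
      simp only [gap, ← hback, back_back]
      rw [add_comm]
      simp [rev, z]
    linarith
  have hy0 : L ≤ d y (g' 0) := by
    rw [hs]
    exact hA₂ a ha
  have hz0 : L ≤ d (g' 0) z := hA₁ b hb
  -- the two far contributions
  obtain ⟨n, hnR, hX, hY, hXy, hYz⟩ : ∃ n : ℕ, R + 1 ≤ n ∧
      d y (g n) - d (g 0) (g n) ≤ bus d g y + M / 8 ∧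
      d z (g (-(n : ℤ))) - d (g 0) (g (-(n : ℤ))) ≤ bus d (back g) z + M / 8 ∧
      d y (g (-(n : ℤ))) - d (g 0) (g (-(n : ℤ))) ≤ bus d (back g) y + M / 8 ∧
      d z (g n) - d (g 0) (g n) ≤ bus d g z + M / 8 := by
    have hb1 : bus d g y < bus d g y + M / 8 := by linarith
    have hb2 : bus d (back g) z < bus d (back g) z + M / 8 := by linarith
    have hb3 : bus d (back g) y < bus d (back g) y + M / 8 := by linarith
    have hb4 : bus d g z < bus d g z + M / 8 := by linarith
    have e1 := (tendsto_bus hs ht iso y).eventually (ge_mem_nhds hb1)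
    have e2 := (tendsto_bus hs ht (iso.back' hs) z).eventually (ge_mem_nhds hb2)
    have e3 := (tendsto_bus hs ht (iso.back' hs) y).eventually (ge_mem_nhds hb3)
    have e4 := (tendsto_bus hs ht iso z).eventually (ge_mem_nhds hb4)
    simp only [back, neg_zero] at e2 e3
    obtain ⟨n, h1, h2, h3, h4, h5⟩ :=
      (e1.and (e2.and (e3.and (e4.and (eventually_ge_atTop (R + 1)))))).exists
    exact ⟨n, h5, h1, h2, h3, h4⟩
  have hsy := iso' (-(a : ℤ)) 0 b (by omega) (by omega)
  have s1 : d y (g' 0) + d (g 0) (g n) - d y (g n) = saving d g g' a n := rfl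
  have s2 : d (g (-(n : ℤ))) (g 0) + d (g' 0) z - d (g (-(n : ℤ))) z = saving d g' g n b := rfl
  have h12 := hsum a n n b
  have h12' := hC a n
  have h12'' := hC' n b
  obtain ⟨l₁, hl₁, -, hw₁⟩ := exists_geodesic hn (g (-(n : ℤ))) y
  obtain ⟨l₃, hl₃, -, hw₃⟩ := exists_geodesic hn z (g n)
  obtain ⟨r, hr, hrw, hrmem⟩ := hl₁.exists_trans t (hg'.joins (show -(a : ℤ) ≤ b by omega))
  obtain ⟨w, hw, hww, hwmem⟩ := hr.exists_trans t hl₃
  rw [hg'.wt_joins (by omega), hg'.seg_eq_T hn.nonneg (by omega)] at hrw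
  have hfine := hgood (-(n : ℤ)) n w (by omega) (by omega) hw fun k hk hk' hkw => by
    have hkB := hB k hk hk'
    rcases (hwmem _).1 hkw with h | h
    · rcases (hrmem _).1 h with h' | h'
      · have h1 := T_add_le hn.nonneg hl₁ h'
        rw [hw₁] at h1
        change d (g (-(n : ℤ))) (g k) + d (g k) y ≤ d (g (-(n : ℤ))) y at h1
        have h2 := ht (g (-(n : ℤ))) (g k) (g 0)
        have h3 := T_nonneg hn.nonneg (g k) y
        unfold gap at hgy
        rw [hs z] at hY
        rw [hs y (g (-(n : ℤ))), hs (g 0) (g (-(n : ℤ)))] at hXy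
        rw [hs (g k) (g 0)] at h2
        change 0 ≤ d (g k) y at h3
        linarith
      · obtain ⟨j, -, -, hj⟩ := mem_segList.1 h'
        exact hdis k j hj.symm
    · have h1 := T_add_le hn.nonneg hl₃ h
      rw [hw₃] at h1
      change d z (g k) + d (g k) (g n) ≤ d z (g n) at h1
      have h2 := ht (g 0) (g k) (g n)
      have h3 := T_nonneg hn.nonneg z (g k)
      unfold gap at hgz
      rw [hs z (g (-(n : ℤ))), hs (g 0) (g (-(n : ℤ)))] at hY
      change 0 ≤ d z (g k) at h3
      linarith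
  rw [hg.seg_eq_T hn.nonneg (by omega), hww, hrw, hw₁, hw₃] at hfine
  change M ≤ d (g (-(n : ℤ))) y + d y z + d z (g n) - d (g (-(n : ℤ))) (g n) at hfine
  have hsg := iso (-(n : ℤ)) 0 n (by omega) (by omega)
  unfold gap at hgy hgz
  rw [hs z (g (-(n : ℤ))), hs (g 0) (g (-(n : ℤ)))] at hY
  rw [hs y (g (-(n : ℤ))), hs (g 0) (g (-(n : ℤ)))] at hXy
  change d y (g' 0) + d (g' 0) z = d y z at hsy
  linarith

/-- An almost sure property survives the resampling of two coordinates. -/
lemma ae_two_updates {G : Measure ℝ} [IsProbabilityMeasure G] {P : Env → Prop}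
    (hP : ∀ᵐ t ∂law G, P t) : ∀ᵐ t ∂law G, ∀ e e' : Sym2 V, ∀ᵐ r ∂G, ∀ᵐ s ∂G,
      P (Function.update (Function.update t e r) e' s) := by
  classical
  refine ae_all_iff.2 fun e => ae_all_iff.2 fun e' => ?_
  set B := toMeasurable (law G) {t | ¬ P t}
  have hBm : MeasurableSet B := measurableSet_toMeasurable _ _
  have hB0 : law G B = 0 := by rw [measure_toMeasurable]; exact hP
  set C : Set Env := {t | G {s | Function.update t e' s ∈ B} ≠ 0}
  have hCm : MeasurableSet C :=
    measurableSet_eq_fun (measurable_update_slice G e' hBm) measurable_const |>.compl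
  have hC0 : law G C = 0 := by
    refine measure_eq_zero_iff_ae_notMem.2 ?_
    filter_upwards [(lintegral_eq_zero_iff (measurable_update_slice G e' hBm)).1
      ((lintegral_update_slice G e' hBm).trans hB0)] with t ht htC
    exact htC (by simpa using ht)
  filter_upwards [(lintegral_eq_zero_iff (measurable_update_slice G e hCm)).1
    ((lintegral_update_slice G e hCm).trans hC0)] with t ht
  have h1 : ∀ᵐ r ∂G, Function.update t e r ∉ C := measure_eq_zero_iff_ae_notMem.1 ht
  filter_upwards [h1] with r hr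
  simp only [C, Set.mem_ofPred_eq, not_not] at hr
  filter_upwards [measure_eq_zero_iff_ae_notMem.1 hr] with s hs
  by_contra h
  exact hs (subset_toMeasurable _ _ h)

/-- **No good Monge pair, almost surely.** -/
theorem no_monge_good {G : Measure ℝ} [IsProbabilityMeasure G] (hnn : G (Set.Iio 0) = 0)
    (hnice : ∀ᵐ t ∂law G, Nice t) (hge : ∀ᵐ t ∂law G, HasGoodEdges G t)
    (hnb : ∀ᵐ t ∂law G, NoBranch t) :
    ∀ᵐ t ∂law G, ∀ γ γ' (R : ℕ) (M : ℝ), IsLine t γ → IsLine t γ' →
      Set.range γ ≠ Set.range γ' → 0 < M → GoodB t γ R M → ¬ MongePair t γ γ' := by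
  have h0 : ∀ᵐ r ∂G, (0 : ℝ) ≤ r :=
    ae_iff.2 (measure_mono_null (fun r hr => lt_of_not_ge hr) hnn)
  filter_upwards [hnice, hge, hnb, ae_two_updates (hnice.and hnb)] with t hn hg hb hst
  intro γ γ' R M h h' hne hM hgood
  refine not_mongePair hn hb (fun e e' => ?_) hg h h' hne hM hgood
  filter_upwards [hst e e', h0] with r hr hr0
  filter_upwards [hr, h0] with s hs hs0
  exact ⟨hr0, hs0, hs⟩

end Vale.Agent.P158
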